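import Crest.Agent.X212.Nck90.Xs
import Crest.Agent.X212.Dec35.Asm
import Crest.Agent.X212.Dgr80.PosC
import Crest.Agent.X212.Fin37.Apt
import Crest.Agent.X212.Lit63.Main
import Crest.Agent.X212.Nk89.Geo

/-!
# X212, necks (helper90), part 12: `Cmp73.NECK` for walls of the two kinds
-/

set_option autoImplicit false
set_option linter.unusedSectionVars false
noncomputable section
open scoped Manifold ContDiff Topology InnerProductSpace
open MeasureTheory Set Function Filter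

namespace Crest.Agent.X212.Nck90
open An An.Job M Cyf70 Cmp73 Eqv71 Tmp64 Nd18 Bki64
open Rdc90 (Bs HC PS)
open Dec35 (Asol DecU Bl P1In LzIn)

section gen
variable {E : Type} [NormedAddCommGroup E] [NormedSpace ℝ E] [FiniteDimensional ℝ E]
  [MeasurableSpace E] [BorelSpace E]
  {HM : Type} [TopologicalSpace HM] (I : ModelWithCorners ℝ E HM) [I.Boundaryless]
  (Z : Type) [TopologicalSpace Z] [ChartedSpace HM Z] [IsManifold I ∞ Z]
  [MeasurableSpace Z] [BorelSpace Z] [T2Space Z] [SecondCountableTopology Z]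
  {E3 : Type} [NormedAddCommGroup E3] [NormedSpace ℝ E3] [FiniteDimensional ℝ E3]
  [MeasurableSpace E3] [BorelSpace E3]
  {H3 : Type} [TopologicalSpace H3] {I3 : ModelWithCorners ℝ E3 H3} [I3.Boundaryless]
  {Y : Type} [TopologicalSpace Y] [ChartedSpace H3 Y] [IsManifold I3 ∞ Y] [T2Space Y]
  [MeasurableSpace Y] [BorelSpace Y] [SecondCountableTopology Y] [CompactSpace Y]
  {κ : Type} [Fintype κ] {lam : Type} [Fintype lam] (D : YD I3 Y κ lam) (β : YC Y κ lam)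
  (N : ND Y lam) (r m : ℕ) {Ad : (YW I3 Y →₀ ℝ) → Prop}

/-- INPUT (35, 69): solutions on a neck are approximate solutions on the cylinder -/
def ASg : Prop := ∃ γ > 0, AllN I Z D N r m fun _ l _ F => Rich F → ∃ k' K d, ∀ᶠ n in l,
  Asol D β (N.pt D.nk (F.q n)) γ k' K (F.c n) (Dp (F.K n).p (F.K n).q d)

variable {I Z D β N r m}

theorem dcg_cd (S : N.CD D) (h : ∀ i, ASg I Z D (S.β i) N r m ∧ P1In D (S.β i) N ∧
    LzIn D (S.β i) N) : DCg I Z D N r m Ad := fun α l q₀ F hF hR _ => by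
  have adm : ∀ n, AdmOn (F.c n) D.B D.G (univ ×ˢ Dp (F.K n).p (F.K n).q 1) := fun n =>
    (adm_pb (F.K n) (hF.sol n).toAdm).mono (prod_mono_right (Dp_sub one_pos))
  refine ⟨1, dec_cd S hF.hD (.of_forall adm) fun i => ?_⟩
  obtain ⟨⟨γ, hγ, h1⟩, h2, h3⟩ := h i
  have := hF.con
  obtain ⟨d, p, h2⟩ := Dec35.dec_bl hF.hD hF.hN (S.crit i) (S.irr i) h2 h3 hγ
  obtain ⟨k', K, L, h3⟩ := h1 α l q₀ F hF hR
  obtain ⟨T, Q, hq⟩ := inB_ev hF.cv
  have a := abs_nonneg L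
  refine ⟨d, p, Dec35.dec_in (h2 T Q) (L := |L| + 1) (by linarith) ((h3.and hq).mono fun n k =>
    ⟨adm n, _, ⟨_, k.2, rfl⟩, k.1.mono fun s hs => ⟨fun x hx => ?_, fun x hx => ?_⟩⟩)⟩
  · linarith [(hs (a := s - |L|) ⟨by linarith, by linarith⟩).1 x hx, le_abs_self L]
  · linarith [(hs (a := s + |L|) ⟨by linarith, by linarith⟩).2 x hx, le_abs_self L]

theorem apt_pos (h : Crt72.HY D) (hN : N.OK D) :
    ∃ sz, ∀ Ad, (∀ q, Ad q → Nd18.Sml sz q ∧ Pos N D q) → Apt D N Ad :=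
  let ⟨sz, S, k⟩ := Fin37.apt h hN
  ⟨sz, fun _ H _ _ E => let ⟨C, k⟩ := k (16 * Real.pi ^ 2 * E)
    ⟨S, C, fun q c _ _ _ _ a _ b b' t e => let ⟨p1, p2, _⟩ := (H q a).2 c _ _ _ _ b b' t
      ⟨_, k q c _ _ _ _ (H q a).1 b b' t
        ⟨p1, p2.trans (mul_le_mul_of_nonneg_left e (by positivity))⟩⟩⟩⟩

end gen

variable {Wi : Type} {X : Mf 4} {A κ lam : Type} [Fintype A] [Fintype κ] [Fintype lam]
  [DecidableEq lam] {M : Mark X A κ} {W : World M} {N : ML M lam}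
  {Λ : Lns W N} {A' h : Type} [Fintype A'] [DecidableEq A'] [Fintype h] {r n : ℕ}

theorem cv_q (T : Xs Wi κ lam) {α : Type} {l : Filter α} {q : α → Wi →₀ ℝ} {q₀ : Wi →₀ ℝ}
    (h : St.Cv l q q₀) : St.Cv l (fun i => T.q (q i)) (T.q q₀) := by
  classical
  have e : ∀ p x, T.q p x = p.sum fun w a => a * T.ty w x := fun p x => Finsupp.sum_apply
  refine (id h).elim fun S k => ⟨S.biUnion fun w => (T.ty w).support, fun i x hx => ?_,
    fun x => by simpa only [e] using tendsto_sum h (by simp) fun _ => by fun_prop⟩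
  rw [e, e, ← sub_eq_zero, ← Finsupp.sum_sub_index fun _ _ _ => sub_mul ..]
  refine Finset.sum_eq_zero fun w hw => mul_eq_zero_of_right _ (by_contra fun p => hx ?_)
  exact Finset.mem_biUnion.2 ⟨w, by_contra fun s => by simp [k.1 i w s] at hw,
    Finsupp.mem_support_iff.2 p⟩

theorem lit_tj {Y : Mf 3} [CompactSpace Y.M] [PreconnectedSpace Y.M] {D : YD Y.I Y.M κ lam}
    (hD : D.OK) {N : ND Y.M lam} (q c β β' ζ ζ') (a : N.Crit D β) (a' : N.Crit D β')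
    (t : N.Traj D q c β β' ζ ζ') : ∃ x, Dgr80.Gd D.B D.G x ∧ Cfg.Iso D.B D.Z x c :=
  let ⟨δ, p, k⟩ := Nk89.exists_sml
  Lit63.lit (Nk89.endsZ ℝ hD p isClopen_univ (k δ (abs_of_pos p).le)) t.sol.toAdm
    (β := fun b : Bool => bif b then β' else β) (ζ := fun b : Bool => bif b then ζ' else ζ)
    (fun b => by cases b; exacts [crit_adm a, crit_adm a']) fun b => by
      cases b; exacts [t.bot, t.top]

variable (J : Job Wi Λ A' h r n) (Adm : (Wi →₀ ℝ) → Prop)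

/-- the data at the wall `a` -/
def WI (a : A) : Prop := ∃ Ad, (∀ q, Adm q → Ad ((J.xs a).q q)) ∧ XI (J.xs a).D (J.xs a).N Ad ∧
  ∀ c : M.Cl, DCg (W.Z c).I (W.Z c).M (J.xs a).D (J.xs a).N r n Ad

/-- walls of positive scalar curvature -/
structure PW (T : Xs Wi κ lam) : Prop where
  nil : Ink3.Nil T.N
  ty : T.ty = 0
  bs : ∀ β, T.N.Crit T.D β → Bs T.D β ∧ HC T.D β
  ps : ∃ c₀ > 0, PS T.D c₀

/-- INPUT (35, 69, 70): walls with nondegenerate critical points -/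
def CW (a : A) : Prop := ∃ S : (J.xs a).N.CD (J.xs a).D, (∀ q, Dgr80.Elz S q) ∧ ∀ i,
  P1In (J.xs a).D (S.β i) (J.xs a).N ∧ LzIn (J.xs a).D (S.β i) (J.xs a).N ∧
    ASg (IC (J.xs a).Y.I) ((J.xs a).Y.M × ℝ) (J.xs a).D (S.β i) (J.xs a).N 0 0 ∧
    ∀ c : M.Cl, ASg (W.Z c).I (W.Z c).M (J.xs a).D (S.β i) (J.xs a).N r n

/-- INPUT (73): compactness of windows on the cylinders -/
def CZC : Prop := ∀ a, CZg (IC (J.xs a).Y.I) ((J.xs a).Y.M × ℝ) (J.xs a).D (J.xs a).N 0 0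

variable {J Adm} {a : A}

theorem PW.q0 {T : Xs Wi κ lam} (h : PW T) (q : Wi →₀ ℝ) : T.q q = 0 := by simp [Xs.q, h.ty]

variable (hJ : J.OK)
include hJ

theorem neck_wi (H : ∀ a ∈ J.hw, ¬M.pin a → WI J Adm a) : NECK J Adm := by
  have k : ∀ {α c c₀} {F : Fam J α c c₀}, F.OK Adm → ∀ a ∈ cylW c₀, WI J Adm a := fun hF a ha =>
    H a (hJ.sub_hw hF.mem ⟨J.cl_dom hF.cell, hF.inf⟩ ha.1) ha.2
  refine neck hJ (fun α c c₀ F hF a ha e ha' h => ?_) fun α c c₀ F hF a ha => ?_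
  · obtain ⟨Ad, h1, -, h2⟩ := k hF a ha
    exact h2 c _ _ _ _ h (fun i => ⟨Λ.B_ok _ _, hJ.G_ok hF.mem (hF.sol i).ov,
      hJ.tame hF.mem (hF.sol i).ov, Lit63.litJ hJ _ hF.mem _ _ _ (hF.sol i)⟩) fun i => h1 _ (hF.q i)
  · obtain ⟨Ad, h1, h2, -⟩ := k hF a ⟨hF.sub ha.1, ha.2⟩
    exact ⟨h2.lvc, h2.pos _ (h1 _ hF.q₀), h2.ti (J.xs a).Y.dim (conn_xs J a) (hJ.xs a).1.yd
      (hJ.xs a).2 (cv_q _ hF.cv) fun i => h1 _ (hF.q i)⟩

theorem wi_psc (cz : CZC J) (h : PW (J.xs a)) : WI J Adm a := by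
  have hD := (hJ.xs a).1.yd
  have := conn_xs J a
  have p := pos_psc h.nil h.bs h.ps Dgr80.posStmt hD (hJ.xs a).2 (J.xs a).Y.dim.le
  obtain ⟨sz, k⟩ := apt_pos ⟨hD, this, (J.xs a).Y.dim⟩ (hJ.xs a).2
  exact ⟨(· = 0), fun q _ => h.q0 q, ⟨lvc_psc h.nil fun β b => (h.bs β b).1.zr,
    fun _ e => e ▸ p, k _ fun _ e => e ▸ ⟨sml_zero _, p⟩, cz a, dcg_psc h.nil h.bs h.ps,
    lit_tj hD⟩, fun _ => dcg_psc h.nil h.bs h.ps⟩

theorem wi_cd (cz : CZC J) (h : CW J a) : An.Sml fun Adm => WI J Adm a := by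
  obtain ⟨S, hE, h⟩ := h
  have hD := (hJ.xs a).1.yd
  have := conn_xs J a
  obtain ⟨sz, p⟩ := pos_cd Dgr80.posStmt S hD (hJ.xs a).2 (J.xs a).Y.dim.le
  obtain ⟨sz', k⟩ := apt_pos ⟨hD, this, (J.xs a).Y.dim⟩ (hJ.xs a).2
  refine ((Fin37.sml_q sz (J.xs a).ty 1).and (Fin37.sml_q sz' (J.xs a).ty 1)).mono
    fun Adm e => ⟨fun q => Nd18.Sml sz q ∧ Nd18.Sml sz' q, fun q hq => ?_,
      ⟨lvc_cd S hD (hJ.xs a).2 (J.xs a).Y.dim.le, fun q b => p q b.1 (hE q),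
        k _ fun q b => ⟨b.2, p q b.1 (hE q)⟩, cz a,
        dcg_cd S fun i => ⟨(h i).2.2.1, (h i).1, (h i).2.1⟩, lit_tj hD⟩,
      fun c => dcg_cd S fun i => ⟨(h i).2.2.2 c, (h i).1, (h i).2.1⟩⟩
  exact ⟨one_smul ℝ ((J.xs a).q q) ▸ e.1 q hq 1 abs_one.le,
    one_smul ℝ ((J.xs a).q q) ▸ e.2 q hq 1 abs_one.le⟩

/-- **NECK** -/
theorem neckS (cz : CZC J) (H : ∀ a ∈ J.hw, ¬M.pin a → PW (J.xs a) ∨ CW J a) :
    An.Sml (NECK J) :=
  (An.Sml.all (I := {a // a ∈ J.hw ∧ ¬M.pin a}) fun a => (H a a.2.1 a.2.2).elim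
    (fun h => .of fun _ => wi_psc hJ cz h) (wi_cd hJ cz)).mono fun _ k =>
      neck_wi hJ fun a h1 h2 => k ⟨a, h1, h2⟩

end Crest.Agent.X212.Nck90
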