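import Crest.Agent.X212.Nck90.Chn
import Crest.Agent.X212.Rdc90.Main
import Crest.Agent.X212.Eqv71.Cyl
import Crest.Agent.X212.Ink3.Main

/-!
# X212, necks (helper90), part 7: `Dec` and `LvC` for the two kinds of cross-sections
-/

set_option autoImplicit false
set_option linter.unusedSectionVars false
noncomputable section
open scoped Manifold ContDiff Topology InnerProductSpace
open MeasureTheory Set Function Filter

namespace Crest.Agent.X212.Nck90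
open An Sob92 Cyf70 Neck67 Cmp73 Pj41 Eqv71 Tmp64 Nd18 Std94 Bki64
open Wz78 (nab)

section gen
variable {E : Type} [NormedAddCommGroup E] [NormedSpace ℝ E] [FiniteDimensional ℝ E]
  [MeasurableSpace E] [BorelSpace E]
  {HM : Type} [TopologicalSpace HM] {I : ModelWithCorners ℝ E HM}
  {M : Type} [TopologicalSpace M] [ChartedSpace HM M] [IsManifold I ∞ M]
  [MeasurableSpace M] {ι : Type} [Fintype ι] {lam : Type} [Fintype lam] {r r' : ℕ}
  {B : Base M ι lam} {G : Geo I M ι lam} {c : Cfg M ι lam r} {c' : Cfg M ι lam r'}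
  {u : M → CL c.m.V c'.m.V} {O : Set M} {x : M} {ζ : Circle} {δ C : ℝ}

/-- near a flat reducible configuration, with explicit constants -/
theorem q_pt (hc : AdmOn c B G O) (hc' : AdmOn c' B G O) (h : Cl G.F c c' u (fun _ => ζ) O 1 δ)
    (hδ : δ ≤ 1) (hx : x ∈ O) (b0 : 0 ≤ C) (b1 : ∀ a, ‖c'.W a x‖ ≤ C)
    (b2 : ∀ a b k, ‖G.F.c a b k x‖ ≤ C) (b3 : ‖(hsL : CL (En (Fin c'.m.N)) _)‖ ≤ C)
    (z1 : ∀ y, c'.Φ y = 0) (z2 : c'.m.Fg G.F c'.W x = 0) :
    (∀ s t, |qF G.F c s t x| ≤ (C * (4 + 4 * C + Fintype.card ι * C)) ^ 2 * δ) ∧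
      ∀ a, |qN G.F c a x| ≤ (2 + C) ^ 2 * δ := by
  have h0 : 0 ≤ δ := (norm_nonneg _).trans (h.P.le hx)
  have key : ∀ {V : Type} [NormedAddCommGroup V] [InnerProductSpace ℝ V] {a b : V} {L : ℝ}, 0 ≤ L →
      ‖a‖ ≤ L * δ → ‖b‖ ≤ L * δ → |⟪a, b⟫_ℝ| ≤ L ^ 2 * δ := fun {V _ _ a b L} hL h1 h2 => by
    simpa [pow_two] using inner_diff (a := a) (b := b) (a' := (0 : V)) (b' := (0 : V)) (K := 0)
      (by simpa using h1) (by simpa using h2) (by simp) (by simp) hL hδ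
  refine ⟨fun s t => ?_, fun a => ?_⟩
  · have : ∀ s, ‖c'.m.Fg G.F (Wp G.F c c' u) x s‖ ≤
        C * (4 + 4 * C + Fintype.card ι * C) * δ := fun s => by
      have := curv_diff (F := G.F) (fun a => hc'.conn.sm a x hx) (fun a => (h.A a).sm hx) b1 b2
        (fun a => (h.A a).le hx) (fun a b => ((h.A b).D a).le hx) hδ s.1 s.2
      refine le_trans ?_ ((mul_le_mul b3 this (norm_nonneg _) b0).trans_eq (mul_assoc _ _ _).symm)
      rw [← sub_zero (c'.m.Fg G.F (Wp G.F c c' u) x s), show (0 : c'.m.A) = c'.m.Fg G.F c'.W x s by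
        rw [z2]; rfl]
      refine le_trans (le_of_eq ?_) ((Submodule.norm_starProjection_apply_le (c'.m.gS x) _).trans
        (ContinuousLinearMap.le_opNorm _ _))
      rw [map_sub, map_sub]; rfl
    rw [qF_eq h.iso h.op hc hc' hx]
    exact key (by positivity) (this s) (this t)
  · have e : nab I G.F.e (Wp G.F c c' u) a (fun y => c'.Φ y + dP c c' u ζ y) x =
        G.F.D a (fun y => dP c c' u ζ y) x + c'.W a x (dP c c' u ζ x) -
          dA G.F c c' u a x (dP c c' u ζ x) := by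
      simp only [nab, Wp, z1, zero_add, Pre.D_def, sub_apply]
      abel
    have : ‖nab I G.F.e (Wp G.F c c' u) a (fun y => c'.Φ y + dP c c' u ζ y) x‖ ≤ (2 + C) * δ := by
      rw [e]
      refine (norm_sub_le_of_le (norm_add_le_of_le ((h.P.D a).le hx)
        (ContinuousLinearMap.le_of_opNorm_le_of_le _ (b1 a) (h.P.le hx)))
        (ContinuousLinearMap.le_of_opNorm_le_of_le _ ((h.A a).le hx)
          ((h.P.le hx).trans hδ))).trans (le_of_eq ?_)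
      ring
    rw [qN_eq (ζ := ζ) h.iso h.op hc hx]
    exact key (by positivity) this this

end gen

variable {E3 : Type} [NormedAddCommGroup E3] [NormedSpace ℝ E3] [FiniteDimensional ℝ E3]
  [MeasurableSpace E3] [BorelSpace E3]
  {H3 : Type} [TopologicalSpace H3] {I3 : ModelWithCorners ℝ E3 H3} [I3.Boundaryless]
  {Y : Type} [TopologicalSpace Y] [ChartedSpace H3 Y] [IsManifold I3 ∞ Y] [T2Space Y]
  [MeasurableSpace Y] [BorelSpace Y] [SecondCountableTopology Y] [CompactSpace Y]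
  {κ : Type} [Fintype κ] {lam : Type} [Fintype lam] {D : YD I3 Y κ lam} {β β' : YC Y κ lam}
  {N : ND Y lam} {ν : Type} {l : Filter ν} {J : ν → Set ℝ} {ρ : ν → ℕ}
  {c : ∀ n, Cfg (Y × ℝ) (Option κ) lam (ρ n)}

/-! ### nondegenerate critical points -/

theorem stb_of_eqv (hD : D.OK) (hβ : D.Adm β) (hβ' : D.Adm β') (h : D.Eqv β β') :
    ∃ g ξ, Stb D β β' g ξ :=
  let ⟨_, _, e⟩ := h
  rig0 hβ hβ' fun _ hε => ⟨_, _, cl_of_ceq hD hβ.adm hβ'.adm e (win_op _ _) hε.le⟩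

theorem dec_cd (S : N.CD D) (hD : D.OK) (adm : ∀ᶠ n in l, AdmOn (c n) D.B D.G (univ ×ˢ J n))
    (h : ∀ i, ∃ d > 0, ∀ k, ∀ B > 0, ∃ η > 0, ∀ᶠ n in l, ∀ a b, a ≤ b →
      (∀ s ∈ Icc a b, Nr D (c n) (J n) s (S.β i) η) → ∃ u ζ, ∀ s ∈ Icc a b,
        Cl D.Z (c n) (cy (S.β i)) u (fun _ => ζ) (win Y s 1) k
          (B * Real.exp (-d * min (s - a) (b - s)))) : Dec N D l J c := fun β hβ => by
  obtain ⟨i, e⟩ := S.cov β hβ
  have a1 := crit_adm hβ
  have a2 := crit_adm (S.crit i)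
  obtain ⟨g, ξ, h1⟩ := stb_of_eqv hD a1 a2 e
  obtain ⟨g', h2⟩ := stb_div a1 a2 a1 h1 (Stb.refl a1)
  obtain ⟨d, p1, h3⟩ := h i
  obtain ⟨C, p2, h4⟩ := ek_cy hD a2
  refine ⟨d, p1, C, p2, fun k B p3 => ?_⟩
  obtain ⟨ε, p4, e1, e2⟩ := exists_cn k p3
  obtain ⟨ε', p5, h5⟩ := act_eta a2 a1 p4
  have p6 : 0 < min (min B 1) ε' := by positivity
  obtain ⟨η, p7, h6⟩ := h3 (max 1 ⌈ε'⁻¹⌉₊) _ p6
  obtain ⟨η', p8, h7⟩ := nr_act a1 a2 h1 (lt_min p7 one_pos)
  refine ⟨η', p8, (h6.and adm).mono fun n hn a b hab h8 => ?_⟩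
  have h9 := fun s hs => h7 _ _ _ _ (h8 s hs)
  obtain ⟨u, ζ, k1⟩ := hn.1 a b hab fun s hs => (h9 s hs).mono (lt_min p7 one_pos) (min_le_left _ _)
  have k2 : ∀ s ∈ Icc a b, Real.exp (-d * min (s - a) (b - s)) ≤ 1 := fun s hs =>
    Real.exp_le_one_iff.2 (by nlinarith [le_min (sub_nonneg.2 hs.1) (sub_nonneg.2 hs.2)])
  refine ⟨⟨_, _, fun s hs => Cl.mono (h5 _ _ _ u ζ _ _ h2 ((k1 s hs).mono (win_op _ _) Subset.rfl
    (le_max_right _ _) ((mul_le_of_le_one_right p6.le (k2 s hs)).trans (min_le_right _ _))))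
      (win_op _ _) Subset.rfl e1 e2⟩, ⟨_, u, ζ, a2, fun s hs => (k1 s hs).mono (win_op _ _)
    Subset.rfl (Nat.zero_le _) (mul_le_mul_of_nonneg_right ((min_le_left _ _).trans
      (min_le_left _ _)) (Real.exp_pos _).le)⟩, fun x hx => ?_⟩
  exact h4 _ _ _ _ _ _ (hn.2.mono (prod_mono_right (by
    simpa using ((h9 _ hx).mono (lt_min p7 one_pos) (min_le_right _ _)).1)))
    ((k1 _ hx).mono (win_op _ _) Subset.rfl (le_max_left _ _) (mul_le_of_le_one_left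
      (Real.exp_pos _).le ((min_le_left _ _).trans (min_le_right _ _)))) (k2 _ hx) x
    ⟨trivial, by linarith, by linarith⟩

theorem lvc_cd (S : N.CD D) (hD : D.OK) (hN : N.OK D) (h3 : Module.finrank ℝ E3 ≤ 3) : LvC N D := by
  intro β hβ
  have a1 := crit_adm hβ
  have : ∀ i, ∃ η > 0, ¬D.Eqv (S.β i) β → ∀ r (c : Cfg (Y × ℝ) (Option κ) lam r) s u u' ζ ζ',
      AdmOn c D.B D.G (win Y s 7) → Cn D c (S.β i) u ζ (win Y s 7) η →
      ¬Cn D c β u' ζ' (win Y s 7) η := fun i => by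
    by_cases e : D.Eqv (S.β i) β
    · exact ⟨1, one_pos, fun h => absurd e h⟩
    · exact (iso_eta hD (crit_adm (S.crit _)) a1 e (by norm_num)).imp fun _ h => ⟨h.1, fun _ => h.2⟩
  choose η η0 h using this
  obtain ⟨η', p1, e1⟩ := exists_pos_le η0
  refine ⟨η', p1, fun β' g ζ h1 h2 => ?_⟩
  obtain ⟨i, e⟩ := S.cov β' h1
  have a2 := crit_adm h1
  have a3 := crit_adm (S.crit i)
  have e' : D.Eqv (S.β i) β := by_contra fun e' => let ⟨_, _, k⟩ := e
    h i e' _ _ _ _ _ _ _ ((admOn_univ.2 a2.adm).mono (subset_univ _))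
      (cl_of_ceq hD a2.adm a3.adm k (win_op _ _) (η0 i).le) (h2.mono (win_op _ _) Subset.rfl p1 (e1 i))
  exact (((okZ hD h3).lv_iso hN (ad0 a2.adm) (ad0 a3.adm) e).symm.trans
    ((okZ hD h3).lv_iso hN (ad0 a3.adm) (ad0 a1.adm) e').symm)

/-! ### positive scalar curvature -/

open Rdc90 (Flt Bs HC PS Eqs bh Har)

theorem ek_pt (hD : D.OK) (C₀ : ℝ) : ∃ C > 0, ∀ β : YC Y κ lam, D.Adm β →
    ‖(hsL : CL (En (Fin β.m.N)) _)‖ ≤ C₀ → (∀ a y, ‖β.W a y‖ ≤ C₀) → (∀ y, β.Φ y = 0) → Flt D β →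
    ∀ r (c : Cfg (Y × ℝ) (Option κ) lam r) u (ζ : Circle) O δ, AdmOn c D.B D.G O →
      Cl D.Z c (cy β) u (fun _ => ζ) O 1 δ → δ ≤ 1 → ∀ x ∈ O, eZ D c x ≤ C * δ ∧ |kZ D c x| ≤ C * δ := by
  obtain ⟨C, ⟨⟨h1, h2⟩, h3⟩, h0⟩ := (((exists_bd (I := IC I3)
    (f := fun s : Option κ × Option κ × Option κ => D.Z.c s.1 s.2.1 s.2.2) (cwin_cpt 0 1)
    fun s x _ => D.Z.c_sm _ _ _ x).and (exists_bd (I := IC I3)
    (f := fun s : (Option κ × Option κ) × Option κ × Option κ => fun y => D.B.st y s.1 s.2)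
    (cwin_cpt 0 1) fun s x _ => fsm_st hD.B _ _)).and (eventually_ge_atTop C₀) |>.and
    (eventually_gt_atTop 0)).exists
  set L := (C * (4 + 4 * C + Fintype.card (Option κ) * C)) ^ 2
  set n : ℝ := (Fintype.card (Option κ × Option κ) : ℝ)
  have hp : 0 < (128 * Real.pi ^ 2)⁻¹ := by positivity
  refine ⟨Fintype.card (Option κ) * L + (2 + C) ^ 2 + (128 * Real.pi ^ 2)⁻¹ * (n * (n * (C * L))),
    by positivity, fun β b1 b2 b3 b4 b5 r c u ζ O δ hc h hδ x hx => ?_⟩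
  have m : (x.1, (0 : ℝ)) ∈ cw Y 0 1 := ⟨trivial, by simp, by simp⟩
  obtain ⟨k1, k2⟩ := q_pt (G := D.G) hc ((admOn_univ.2 b1.adm).mono (subset_univ _)) h hδ hx h0.le
    (fun a => (b3 a _).trans h3) (fun a b k => le_of_eq_of_le (by
      rcases a with _ | _ <;> rcases b with _ | _ <;> cases k <;> rfl) (h1 (a, b, k) _ m))
    (b2.trans h3) (fun y => b4 y.1) (b5 x)
  have h5 : 0 ≤ δ := (norm_nonneg _).trans (h.P.le hx)
  have h6 : |∑ a, qF D.Z c (none, a) (none, a) x| ≤ Fintype.card (Option κ) * (L * δ) := by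
    rw [← nsmul_eq_mul]
    exact (Finset.abs_sum_le_sum_abs _ _).trans (Finset.sum_le_card_nsmul _ _ _ fun a _ => k1 _ _)
  have h7 : |∑ s, ∑ t, D.B.st x s t * qF D.Z c s t x| ≤ n * (n * (C * (L * δ))) := by
    simp only [n, ← nsmul_eq_mul]
    refine (Finset.abs_sum_le_sum_abs _ _).trans (Finset.sum_le_card_nsmul _ _ _ fun s _ =>
      (Finset.abs_sum_le_sum_abs _ _).trans (Finset.sum_le_card_nsmul _ _ _ fun t _ => ?_))
    rw [abs_mul]
    exact mul_le_mul (h2 (s, t) (x.1, 0) m) (k1 s t) (abs_nonneg _) h0.le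
  have h8 : 0 ≤ (128 * Real.pi ^ 2)⁻¹ * (n * (n * (C * L))) * δ := by positivity
  have h9 : 0 ≤ (Fintype.card (Option κ) : ℝ) * (L * δ) := by positivity
  have h10 : 0 ≤ (2 + C) ^ 2 * δ := by positivity
  constructor
  · have := (abs_le.1 (k2 none)).2
    rw [en_q]
    simp only [YD.G] at this
    linarith [(abs_le.1 h6).2]
  · rw [kZ, kd_q, abs_mul, abs_neg, abs_of_pos hp]
    nlinarith [mul_le_mul_of_nonneg_left h7 hp.le]

theorem dA_alg {V W : Type} [NormedAddCommGroup V] [NormedSpace ℝ V] [NormedAddCommGroup W]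
    [NormedSpace ℝ W] (d u e : V →L[ℝ] W) (a t p : W →L[ℝ] W) (v : W →L[ℝ] V) (h : u ∘L v = p) :
    (d + a ∘L u - e) ∘L v = (d + (a + t) ∘L u - e) ∘L v - t ∘L p := by
  simp only [← h, ContinuousLinearMap.add_comp, ContinuousLinearMap.sub_comp,
    ContinuousLinearMap.comp_assoc]
  abel

theorem dec_psc (hB : ∀ β, N.Crit D β → Bs D β ∧ HC D β) (hP : ∃ c₀ > 0, PS D c₀)
    (adm : ∀ᶠ n in l, AdmOn (c n) D.B D.G (univ ×ˢ J n) ∧ Eqs D (c n) (univ ×ˢ J n)) :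
    Dec N D l J c := fun β hβ => by
  obtain ⟨b1, b2⟩ := hB β hβ
  obtain ⟨d, p1, h1⟩ := Rdc90.dece D β b1 b2 hP
  have s1 : ∀ a, Sm I3 (β.W a) := fun a _ => sm_slice (t := 0) (b1.adm.adm.conn.cc.sm a _)
  obtain ⟨C₀, ⟨c1, c2⟩, c0⟩ := (((exists_bd (I := I3) isCompact_univ fun a x _ => s1 a x).and
    (eventually_ge_atTop ‖(hsL : CL (En (Fin β.m.N)) _)‖)).and (eventually_ge_atTop 0)).exists
  set T : β.m.A →L[ℝ] En (Fin β.m.N) := opL
  obtain ⟨C, p2, h2⟩ := ek_pt b1.ok (C₀ + ‖T‖)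
  refine ⟨d, p1, C, p2, fun k B p3 => ?_⟩
  obtain ⟨P, p4, h3⟩ := ((fx_cy (l := (⊤ : Filter Unit)) (S := fun _ => univ) (k := k) b1.adm
    (.of_forall fun _ => isOpen_univ)).p.of_le k.le_succ).pos
  have h4 := (h3.exists.choose_spec).2
  set Q := (ContinuousLinearMap.compL ℝ β.m.V β.m.V β.m.V) ∘L T
  obtain ⟨ε, p5, e1, e2⟩ := exists_small p3 (1 + 2 ^ k * ‖Q‖ * P)
  have e3 : 0 ≤ 2 ^ k * ‖Q‖ * P * ε := by positivity
  obtain ⟨η, p6, h5⟩ := h1 (k + 1) ε p5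
  refine ⟨_, lt_min p6 one_pos, adm.mono fun n hn a b hab h6 => ?_⟩
  obtain ⟨h, k1, k2, k3, k4, u, k5⟩ := h5 _ (c n) a b hab fun s hs =>
    let ⟨k, u, ζ, k'⟩ := (h6 s hs).mono (lt_min p6 one_pos) (min_le_left _ _)
    have k'' := hn.1.mono (prod_mono_right k)
    ⟨k'', fun x hx => hn.2 x (prod_mono_right k hx), u, ζ, Cl.cls b1.adm isOpen_Ioo k'' k'⟩
  have k6 : ∀ s ∈ Icc a b, Real.exp (-d * min (s - a) (b - s)) ≤ 1 := fun s hs =>
    Real.exp_le_one_iff.2 (by nlinarith [le_min (sub_nonneg.2 hs.1) (sub_nonneg.2 hs.2)])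
  have k7 : ∀ o : Option κ, Lb D.Z.toPre univ (k + 1)
      (fun x : Y × ℝ => (o.elim 0 fun i => h i x.1 : β.m.A)) ε := fun o => by
    cases o with
    | none => exact (Lb.const isOpen_univ (0 : β.m.A)).mono (by simpa using p5.le)
    | some i => exact abs_of_pos p5 ▸ Rd78.lb_fst (k1.sm i) (k2 i)
  refine ⟨⟨u, 1, fun s hs => ?_⟩, ⟨_, u, 1, k3, fun s hs => (k5 s hs).mono (win_op _ _) Subset.rfl
    (Nat.zero_le _) (mul_le_mul_of_nonneg_right (by nlinarith) (Real.exp_pos _).le)⟩, fun x hx => ?_⟩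
  · have k8 := (k5 s hs).mono (win_op _ _) Subset.rfl k.le_succ
      (mul_le_of_le_one_right p5.le (k6 s hs))
    refine ⟨k8.op, k8.iso, fun o => (((k8.A o).sub' k8.op ((Lb.bil isOpen_univ Q p5.le p4.le
      ((k7 o).of_le k.le_succ) h4).sub (subset_univ _))).mono ?_).congr k8.op fun x hx => ?_,
      (k8.P.mono (by nlinarith)).congr k8.op fun x _ => ?_⟩
    · rw [abs_of_nonneg (by positivity)]
      nlinarith
    · have := (k8.iso.iso x hx).tgt
      rw [ad_trn] at this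
      exact dA_alg _ _ _ _ _ _ _ this
    · exact congrArg (fun v : β.m.V => cs β.m.J _ _ - v) (add_zero _).symm
  · have := h2 _ k3 (c2.trans (le_add_of_nonneg_right T.opNorm_nonneg)) (fun o y =>
      norm_add_le_of_le (c1 o y trivial) ((T.le_of_opNorm_le_of_le le_rfl
        (((k7 o).le (x := (y, 0)) trivial).trans e1)).trans_eq (mul_one _)))
      (fun y => (add_zero _).trans (b1.zr y)) k4 _ _ u 1 _ _ (hn.1.mono (prod_mono_right (by
        simpa using ((h6 _ hx).mono (lt_min p6 one_pos) (min_le_right _ _)).1)))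
      ((k5 _ hx).mono (win_op _ _) Subset.rfl k.succ_pos (mul_le_of_le_one_left
        (Real.exp_pos _).le e1)) (k6 _ hx) x ⟨trivial, by linarith, by linarith⟩
    exact this

theorem lvc_psc (hN : Ink3.Nil N) (hB : ∀ β, N.Crit D β → ∀ y, β.Φ y = 0) : LvC N D :=
  fun β hβ => ⟨1, one_pos, fun β' _ _ h _ => by simp [hN.lv, hB β hβ, hB β' h]⟩

end Crest.Agent.X212.Nck90
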