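import Crest.Agent.X212.Nck90.Job
import Crest.Agent.X212.Nck90.Adp
import Crest.Agent.X212.Dgr80.Chh

/-!
# X212, necks (helper90), part 11: the inputs `DCJ`, `TRJ` from data on the cross-sections
-/

set_option autoImplicit false
set_option linter.unusedSectionVars false
noncomputable section
open scoped Manifold ContDiff Topology InnerProductSpace
open MeasureTheory Set Function Filter

namespace Crest.Agent.X212.Nck90
open An Sob92 Cyf70 Neck67 Cmp73 Pj41 Eqv71 Tmp64 Nd18 Std94 Bki64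
open Rdc90 (Bs HC PS Eqs)

/-- bounded coefficients (`Dec35.InB`) -/
def InB {W : Type} (T : Finset W) (Q : ℝ) (q : W →₀ ℝ) : Prop := q.support ⊆ T ∧ ∀ w, |q w| ≤ Q

theorem side {l : Filter ℝ} (hl : l = atTop ∨ l = atBot) : ∃ σ : ℝ, (σ = 1 ∨ σ = -1) ∧
    ∀ S, S ∈ l ↔ ∃ T, {s | T < σ * s} ⊆ S := by
  rcases hl with rfl | rfl
  · exact ⟨1, .inl rfl, fun S => (atTop_basis_Ioi.mem_iff).trans (by simp [Ioi])⟩
  · refine ⟨-1, .inr rfl, fun S => (atBot_basis_Iio.mem_iff).trans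
      ⟨fun ⟨a, _, h⟩ => ⟨-a, fun s hs => h ?_⟩, fun ⟨a, h⟩ => ⟨-a, trivial, fun s hs => h ?_⟩⟩⟩
    · simpa using hs
    · simpa [lt_neg] using hs

theorem inB_ev {W α : Type} {l : Filter α} {q : α → W →₀ ℝ} {q₀ : W →₀ ℝ} (h : St.Cv l q q₀) :
    ∃ T Q, ∀ᶠ i in l, InB T Q (q i) := by
  classical
  obtain ⟨T, h1, h2⟩ := h
  obtain ⟨Q, hQ⟩ := (eventually_all_finite q₀.finite_range).2
    (fun x _ => eventually_ge_atTop (|x| + 1)) |>.exists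
  refine ⟨T ∪ q₀.support, Q, ((eventually_all_finset T).2 fun w _ =>
    Metric.tendsto_nhds.1 (h2 w) 1 one_pos).mono fun i hi => ⟨fun w hw => ?_, fun w => ?_⟩⟩
  · by_cases e : w ∈ T
    · exact Finset.mem_union_left _ e
    · exact Finset.mem_union_right _ (by rwa [Finsupp.mem_support_iff, ← h1 i w e,
        ← Finsupp.mem_support_iff])
  · have := hQ _ ⟨w, rfl⟩
    by_cases e : w ∈ T
    · linarith [abs_sub_abs_le_abs_sub (q i w) (q₀ w), Real.dist_eq _ _ ▸ hi w e]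
    · rw [h1 i w e]; linarith

variable {E : Type} [NormedAddCommGroup E] [NormedSpace ℝ E] [FiniteDimensional ℝ E]
  [MeasurableSpace E] [BorelSpace E]
  {HM : Type} [TopologicalSpace HM] {I : ModelWithCorners ℝ E HM} [I.Boundaryless]
  {Z : Type} [TopologicalSpace Z] [ChartedSpace HM Z] [IsManifold I ∞ Z]
  [MeasurableSpace Z] [BorelSpace Z] [T2Space Z] [SecondCountableTopology Z]
  {E3 : Type} [NormedAddCommGroup E3] [NormedSpace ℝ E3] [FiniteDimensional ℝ E3]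
  [MeasurableSpace E3] [BorelSpace E3]
  {H3 : Type} [TopologicalSpace H3] {I3 : ModelWithCorners ℝ E3 H3} [I3.Boundaryless]
  {Y : Type} [TopologicalSpace Y] [ChartedSpace H3 Y] [IsManifold I3 ∞ Y] [T2Space Y]
  [MeasurableSpace Y] [BorelSpace Y] [SecondCountableTopology Y] [CompactSpace Y]
  {κ : Type} [Fintype κ] {lam : Type} [Fintype lam] {D : YD I3 Y κ lam} {β β' : YC Y κ lam}
  {ζ ζ' : Circle} {N : ND Y lam} {q : YW I3 Y →₀ ℝ} {r m : ℕ} {ν : Type} {𝒰 : Ultrafilter ν}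
  {Ad : (YW I3 Y →₀ ℝ) → Prop}

theorem lm_sub {P : ν → Prop} (hP : ∀ᶠ a in 𝒰, P a) {ρ : ν → ℕ}
    {c : ∀ n, Cfg (Y × ℝ) (Option κ) lam (ρ n)} (h : ∀ l : Ultrafilter {a // P a},
      Tendsto (Subtype.val : {a // P a} → ν) l 𝒰 →
      ∃ γ Sg v, Lm N D q l (fun a : {a // P a} => c a.1) γ Sg v) :
    ∃ γ Sg v, Lm N D q 𝒰 c γ Sg v := by
  classical
  have r : range (Subtype.val : {a // P a} → ν) ∈ 𝒰 := by rwa [Subtype.range_coe_subtype]
  obtain ⟨γ, Sg, v, h⟩ := h (𝒰.comap Subtype.val_injective r) tendsto_comap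
  have e : v = fun a => if h : P a.1 then v ⟨a.1, h⟩ else 0 := funext fun a => by rw [dif_pos a.2]
  rw [e] at h
  have k : Lm N D q (map Subtype.val (comap (Subtype.val : {a // P a} → ν) 𝒰)) c γ Sg
    fun a => if h : P a then v ⟨a, h⟩ else 0 := ⟨h.sol, h.cv, h.conc, h.loss⟩
  rw [map_comap_of_mem r] at k
  exact ⟨γ, Sg, _, k⟩

/-- bounded geometry and bounded representatives, without uniformity -/
def Rich {α : Type} (F : NF I (fun _ : α => Z) D r m) : Prop := ∀ n, (F.B n).OK I ∧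
  (F.G n).OK (F.B n) ∧ (∃ C, (F.G n).F.Tame C) ∧
    ∃ x, Dgr80.Gd (F.B n) (F.G n) x ∧ Cfg.Iso (F.B n) (F.G n).F x (F.y n)

variable (I Z N D r m Ad)

/-- statements on all families of solutions on `Z` with a neck -/
def AllN (P : ∀ (α : Type), Filter α → (YW I3 Y →₀ ℝ) → NF I (fun _ : α => Z) D r m → Prop) :
    Prop := ∀ α l q₀ (F : NF I (fun _ : α => Z) D r m), F.OK N l q₀ → P α l q₀ F

/-- INPUT (73): compactness of windows -/
def CZg : Prop := AllN I Z D N r m fun _ l q₀ F => F.CZ N l q₀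

/-- decay -/
def DCg : Prop := AllN I Z D N r m fun _ l _ F => Rich F → (∀ n, Ad (F.q n)) → DC F N l

/-- INPUT (37): a priori bounds for trajectories -/
def Apt : Prop := ∀ T Q E, ∃ S C, ∀ q c β β' ζ ζ', Ad q → InB T Q q → N.Crit D β → N.Crit D β' →
  N.Traj D q c β β' ζ ζ' → N.tE D c β β' ≤ E → ∃ w, AG D.B D.G c w S C ∧ AN D.nk c w C

/-- the inputs on the cylinder -/
structure XI : Prop where
  lvc : LvC N D
  pos : ∀ q, Ad q → Pos N D q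
  apt : Apt D N Ad
  cz : CZg (IC I3) (Y × ℝ) D N 0 0
  dc : DCg (IC I3) (Y × ℝ) D N 0 0 Ad
  lit : ∀ q c β β' ζ ζ', N.Crit D β → N.Crit D β' → N.Traj D q c β β' ζ ζ' →
    ∃ x, Dgr80.Gd D.B D.G x ∧ Cfg.Iso D.B D.Z x c

variable {I Z N D r m Ad}

theorem XI.ti (h : XI D N Ad) (h3 : Module.finrank ℝ E3 = 3) (con : ConnectedSpace Y) (hD : D.OK)
    (hN : N.OK D) {qn : ν → YW I3 Y →₀ ℝ} (cv : St.Cv (𝒰 : Filter ν) qn q) (ha : ∀ n, Ad (qn n)) :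
    TI N D q 𝒰 qn := by
  refine ⟨.of_forall fun n => h.pos _ (ha n), fun c E hc => ?_⟩
  obtain ⟨T, Q, hq⟩ := inB_ev cv
  obtain ⟨S, C, h1⟩ := h.apt T Q E
  let P : ν → Prop := fun n => (c n).Sol D.B D.G (N.pt D.nk (qn n) : Pt _ _ _ 0 0) ∧
    (∃ w, AG D.B D.G (c n) w S C ∧ AN D.nk (c n) w C) ∧
      ∃ x, Dgr80.Gd D.B D.G x ∧ Cfg.Iso D.B D.Z x (c n)
  have hP : ∀ᶠ n in 𝒰, P n := (hc.and hq).mono fun n ⟨⟨_, _, _, _, a⟩, b⟩ =>
    ⟨a.2.2.1.sol, h1 _ _ _ _ _ _ (ha n) b a.1 a.2.1 a.2.2.1 a.2.2.2,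
      h.lit _ _ _ _ _ _ a.1 a.2.1 a.2.2.1⟩
  choose w hw using fun n : {n // P n} => n.2.2.1
  let F : NF (IC I3) (fun _ : {n // P n} => Y × ℝ) D 0 0 := ⟨fun _ => D.B, fun _ => D.G,
    fun _ => D.nk, fun n => c n, fun n => N.pt D.nk (qn n), fun n => qn n, w⟩
  have hF : F.OK N (comap Subtype.val 𝒰) q := ⟨h3, con, hD, hN, fun n => n.2.1,
    cv.imp fun _ k => ⟨fun n => k.1 n, fun x => (k.2 x).comp tendsto_comap⟩,
    ⟨0, .of_forall fun _ _ _ => ⟨rfl, rfl⟩⟩, S, C, hw⟩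
  obtain ⟨d, hd⟩ := h.dc _ _ _ F hF (fun n => ⟨hD.B, hD.G, (okZ hD h3.le).tame, n.2.2.2⟩)
    fun n => ha n
  refine ⟨hD, fun _ => .of_forall fun _ => univ_nonempty,
    hP.mono fun n a => (admOn_univ.2 a.1.toAdm).mono (subset_univ _),
    ⟨16 * Real.pi ^ 2 * E, hc.mono fun n ⟨_, _, _, _, a⟩ => ?_⟩, fun 𝒱 a _ => lm_sub
      (a.eventually hP) fun l b => ?_, fun β hβ => ?_, frz_crit hD hN h3.le⟩
  · obtain ⟨a1, a2, -⟩ := h.pos _ (ha n) _ _ _ _ _ a.1 a.2.1 a.2.2.1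
    rw [show (Brk64.Nk.line ν).J 0 n = univ from rfl, univ_prod_univ, Measure.restrict_univ]
    exact ⟨a1.integrableOn, a2.trans (mul_le_mul_of_nonneg_left a.2.2.2 (by positivity))⟩
  · let f : {x : ν × ℝ // P x.1} → {n // P n} × ℝ := fun x => (⟨x.1.1, x.2⟩, x.1.2)
    obtain ⟨γ, Sg, v, k⟩ := h.cz _ _ _ F hF (l.map f) (tendsto_map' (tendsto_comap_iff.2
      (a.comp b))) fun R => .of_forall fun _ => by simp [F, YD.nk, Dp]
    exact ⟨γ, Sg, fun x => v (f x), k.sol, k.cv, k.conc, k.loss⟩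
  · obtain ⟨d, p, C, p', k⟩ := hd β hβ
    refine ⟨d, p, C, p', fun j B hB => (k j B hB).imp fun η k => ⟨k.1, ?_⟩⟩
    filter_upwards [eventually_comap.1 k.2, hP] with n a1 a2 a b hab a3
    exact a1 ⟨n, a2⟩ rfl a b hab fun s hs => ⟨fun _ _ => by simp [F, YD.nk, Dp], (a3 s hs).2⟩

/-! ### nondegenerate critical points -/

theorem pos_cd (hp : Dgr80.PosStmt I3 Y κ lam) (S : N.CD D) (hD : D.OK) (hN : N.OK D)
    (h3 : Module.finrank ℝ E3 ≤ 3) : ∃ sz, ∀ q, Sml sz q → Dgr80.Elz S q → Pos N D q :=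
  (Dgr80.ms_pos hp hD h3 hN).imp fun sz H q hq hE c β β' ζ ζ' a a' h => by
    obtain ⟨i, e⟩ := S.cov β a
    obtain ⟨j, e'⟩ := S.cov β' a'
    have b := fun i => crit_adm (S.crit i)
    obtain ⟨ξ, ξ', k⟩ := Dgr80.traj_post hD h (crit_adm a) (crit_adm a') (b i) (b j) e e'
    have t : N.tE D c β β' = N.tE D c (S.β i) (S.β j) := by
      rw [ND.tE, ND.tE, (okZ hD h3).lv_iso hN (ad0 (crit_adm a).adm) (ad0 (b i).adm) e,
        (okZ hD h3).lv_iso hN (ad0 (crit_adm a').adm) (ad0 (b j).adm) e']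
    obtain ⟨h1, h2⟩ := H q hq S hE
    rw [t]
    exact ⟨(h2 i j c _ _ k).1, (h2 i j c _ _ k).2, h1 i j c _ _ k⟩

/-! ### positive scalar curvature -/

section psc
variable {B : Base Z (Option κ) lam} {G : Geo I Z (Option κ) lam} (K : Nk D B G)
  {c : Cfg Z (Option κ) lam r} {τ : Pt Z (Option κ) lam r m}

theorem eqs_pb (h : c.Sol B G τ) {S : Set ℝ} (e : S ⊆ K.J)
    (h0 : ∀ z, K.tm z ∈ S → τ.D c z = 0 ∧ τ.C c z = 0) : Eqs D (K.pb c) (univ ×ˢ S) := fun z hz => by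
  have hs := K.mem_src.2 (e hz.2)
  obtain ⟨a, b⟩ := h0 (K.ψ z) (K.tm_ψ z hs ▸ hz.2)
  have e1 : (K.pb c).m.Fg D.Z (K.pb c).W z = c.m.Fg G.F c.W (K.ψ z) := K.rel.Fg hs c.W
  have e2 : D.B.sd z = B.sd (K.ψ z) := by
    funext s t
    simp only [Base.sd, Base.st, Base.a2, K.o _ _ _ _ z hs, K.P _ _ z hs]
  have e3 : (K.pb c).m.p2 D.B z = c.m.p2 B (K.ψ z) := congrArg (idx · _) e2
  have h1 := h.D (K.ψ z)
  have h2 := h.C (K.ψ z)
  rw [Cfg.eD, a, sub_zero] at h1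
  rw [Cfg.eC, b, sub_zero, sub_eq_zero] at h2
  refine ⟨(K.rel.dir hs (fun _ => rfl) (fun _ => rfl) (.of_forall fun _ => rfl)).trans h1, ?_⟩
  rw [Md.mu, e1, e3]
  exact h2

variable {K} in
/-- **ELIM** at an end of positive scalar curvature -/
theorem elim_psc (hβ : Bs D β) (hc : HC D β) (hP : ∃ c₀ > 0, PS D c₀) : ∃ d > 0,
    ∀ r (c : Cfg (Y × ℝ) (Option κ) lam r) ζ (l : Filter ℝ) (J S₀ : Set ℝ), l = atTop ∨ l = atBot →
      S₀ ∈ l → AdmOn c D.B D.G (univ ×ˢ J) → Eqs D c (univ ×ˢ S₀) →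
      (∃ u, ∀ k, ∀ η > 0, ∃ S ∈ l, S ⊆ J ∧ D.Cls c β u ζ S k η) →
      ∃ u, ∃ S ∈ l, S ⊆ J ∧ D.Cls c β u ζ S 0 1 ∧ ∀ k, ∃ C, ∀ s, Ioo (s - 1) (s + 1) ⊆ S →
        D.Cls c β u ζ (Ioo (s - 1) (s + 1)) k (C * Real.exp (-d * |s|)) := by
  obtain ⟨d, hd, h⟩ := Rdc90.ends D β hβ hc hP
  refine ⟨d, hd, fun r c ζ l J S₀ hl hS ha hs ⟨u, H⟩ => ?_⟩
  obtain ⟨σ, hσ, e⟩ := side hl
  obtain ⟨S₁, a1, a2, -⟩ := H 0 1 one_pos
  obtain ⟨T, hT⟩ := (e _).1 (inter_mem hS a1)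
  have hJ := (hT.trans inter_subset_right).trans a2
  have ha' := ha.mono (prod_mono_right hJ)
  have op : ∀ T : ℝ, IsOpen {s : ℝ | T < σ * s} := fun T => isOpen_lt (by fun_prop) (by fun_prop)
  obtain ⟨v, hv⟩ := h r c σ T ζ hσ ha' (fun x hx => hs x ⟨trivial, (hT hx.2).1⟩) ⟨u, fun k η p =>
    let ⟨S, b1, b2, b3⟩ := H k η p; let ⟨T', b4⟩ := (e _).1 b1
    ⟨T', (cl_of_cls hβ.adm (ha.mono (prod_mono_right b2)) b3).mono (isOpen_univ.prod (op _))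
      (prod_mono_right b4) le_rfl le_rfl⟩⟩
  obtain ⟨C, hC⟩ := hv 0
  obtain ⟨R, r1, r2⟩ := ((eventually_ge_atTop (T + 2)).and (eventually_forall_ge_atTop.2
    ((tendsto_id.const_mul_atTop hd).eventually (Brk64.ev_exp one_pos C)))).exists
  have sub : {s | R < σ * s} ⊆ {s | T < σ * s} := fun s (hs : R < σ * s) => show T < _ by linarith
  refine ⟨v, _, (e _).2 ⟨R, Subset.rfl⟩, sub.trans hJ, Cl.cls hβ.adm (op R)
    (ha'.mono (prod_mono_right sub)) (.of_local (isOpen_univ.prod (op R)) fun x hx => ?_),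
    fun k => (hv k).imp fun C h s hs => ?_⟩
  · have : R < σ * x.2 := hx.2
    have k := hC x.2 (by linarith)
    refine ⟨win Y x.2 1, v, _, ⟨trivial, by simp⟩, .rfl, .rfl, k.mono k.op Subset.rfl le_rfl ?_⟩
    have := r2 |x.2| (this.le.trans (by rcases hσ with rfl | rfl <;> simp [le_abs_self, neg_le_abs]))
    rw [neg_mul, mul_comm]
    exact this.le
  · have : R < σ * s := hs ⟨by simp, by simp⟩
    exact Cl.cls hβ.adm isOpen_Ioo (ha'.mono (prod_mono_right (hs.trans sub))) (h s (by linarith))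

end psc

section psc
variable (hN : Ink3.Nil N) (hB : ∀ β, N.Crit D β → Bs D β ∧ HC D β) (hP : ∃ c₀ > 0, PS D c₀)
include hN hB hP

theorem dcg_psc : DCg I Z D N r m (· = 0) := fun α l q₀ F hF _ h0 => by
  obtain ⟨d, hd⟩ := hF.loc
  have e := fun n => Dp_sub (p := (F.K n).p) (q := (F.K n).q) (lt_max_of_lt_right one_pos (b := d))
  refine ⟨max d 1, dec_psc hB hP (hd.mono fun n h =>
    ⟨(adm_pb (F.K n) (hF.sol n).toAdm).mono (prod_mono_right (e n)),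
      eqs_pb _ (hF.sol n) (e n) fun z hz => ?_⟩)⟩
  have := h z (Dp_mono (le_max_left d 1) hz)
  rwa [h0 n, hN.pt] at this

theorem pos_psc (hp : Dgr80.PosStmt I3 Y κ lam) (hD : D.OK) (hN' : N.OK D)
    (h3 : Module.finrank ℝ E3 ≤ 3) : Pos N D 0 := by
  intro c β β' ζ ζ' a a' h
  obtain ⟨sz, H⟩ := hp N D hD h3 hN'
  have k : ∀ {β ζ l}, N.Crit D β → l = atTop ∨ l = atBot → D.nk.Lim c β ζ l →
      ∃ d > 0, D.nk.ELim d c β ζ l := fun {β ζ l} a hl h' =>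
    (elim_psc (hB β a).1 (hB β a).2 hP).imp fun _ k => ⟨k.1, k.2 _ _ _ _ _ D.nk.J
      hl (mem_of_superset univ_mem fun _ _ => by simp [YD.nk, Jv]) (adm_pb _ h.sol.toAdm)
      (eqs_pb _ h.sol Subset.rfl fun z _ => by rw [hN.pt]; exact ⟨rfl, rfl⟩) h'⟩
  obtain ⟨d, d0, b1⟩ := k a (.inr rfl) h.bot
  obtain ⟨d', d1, b2⟩ := k a' (.inl rfl) h.top
  exact H 0 (sml_zero _) c _ _ ζ ζ' _ (lt_min d0 d1) (crit_adm a) (crit_adm a') h.sol
    (Dgr80.elim_mono b1 (min_le_left _ _)) (Dgr80.elim_mono b2 (min_le_right _ _))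

end psc

end Crest.Agent.X212.Nck90
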