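import Crest.Agent.X212.Lw78.EnD

/-!
# Row 212, EN18-ET (helper90): the smoothed energy in a window, for bounded energy density
-/

set_option autoImplicit false
set_option linter.unusedSectionVars false
noncomputable section
open scoped Manifold ContDiff Topology InnerProductSpace Classical
open MeasureTheory Set Function Filter

namespace Crest.Agent.X212.Nck90.Et
open An Wz78 Nd18 Cyf70 Nka63 Dgr80
open Mp86 (NK Mc)

section time
open Real
variable {ε δ a a' s t u : ℝ}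

/-- a positive weight concentrated on `[a, a']` -/
def Wt (ε a a' s : ℝ) : ℝ := sigmoid (ε * (s - a)) * sigmoid (ε * (a' - s))

theorem sg_add (x u : ℝ) : sigmoid (x + u) ≤ exp |u| * sigmoid x := by
  rw [sigmoid, sigmoid, ← div_eq_mul_inv, inv_eq_one_div,
    div_le_div_iff₀ (by positivity) (by positivity)]
  have h1 : 1 ≤ exp |u| := one_le_exp (abs_nonneg u)
  have h2 : exp (-x) ≤ exp |u| * exp (-(x + u)) := by
    rw [← exp_add]; exact exp_le_exp.2 (by linarith [le_abs_self u])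
  linarith

theorem wt_pos : 0 < Wt ε a a' s := mul_pos (sigmoid_pos _) (sigmoid_pos _)

theorem sm_wt : ContDiff ℝ ∞ (Wt ε a a') :=
  ((contDiff_sg ε).comp (contDiff_id.sub contDiff_const)).mul
    ((contDiff_sg ε).comp (contDiff_const.sub contDiff_id))

theorem dwt_le (hε : 0 ≤ ε) : |deriv (Wt ε a a') s| ≤ ε * Wt ε a a' s := by
  have h := (((hasDerivAt_sg ε (s - a)).comp s ((hasDerivAt_id s).sub_const a)).mul
    ((hasDerivAt_sg ε (a' - s)).comp s ((hasDerivAt_id s).const_sub a'))).deriv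
  have e : deriv (Wt ε a a') s =
      ε * Wt ε a a' s * (sigmoid (ε * (a' - s)) - sigmoid (ε * (s - a))) :=
    h.trans (by simp only [b, Wt, Function.comp, id]; ring)
  rw [e, abs_mul, abs_of_nonneg (mul_nonneg hε wt_pos.le)]
  refine mul_le_of_le_one_right (mul_nonneg hε wt_pos.le) (abs_le.2 ⟨?_, ?_⟩)
  · linarith [sigmoid_pos (ε * (a' - s)), sigmoid_lt_one (ε * (s - a))]
  · linarith [sigmoid_lt_one (ε * (a' - s)), sigmoid_pos (ε * (s - a))]

theorem wt_le (hε : 0 ≤ ε) : Wt ε a a' t ≤ exp (2 * ε * |s - t|) * Wt ε a a' s := by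
  have h1 := sg_add (ε * (s - a)) (-(ε * (s - t)))
  have h2 := sg_add (ε * (a' - s)) (ε * (s - t))
  rw [abs_neg, show ε * (s - a) + -(ε * (s - t)) = ε * (t - a) by ring] at h1
  rw [show ε * (a' - s) + ε * (s - t) = ε * (a' - t) by ring] at h2
  rw [abs_mul, abs_of_nonneg hε] at h1 h2
  refine (mul_le_mul h1 h2 (sigmoid_pos _).le (mul_pos (exp_pos _) (sigmoid_pos _)).le).trans_eq ?_
  rw [show 2 * ε * |s - t| = ε * |s - t| + ε * |s - t| by ring, exp_add, Wt]; ring

theorem th_le (hε : 0 ≤ ε) : θc a a' t ≤ 4 * Wt ε a a' t := by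
  by_cases h : t ∈ Dp (some a) (some a') 3
  · have k : ∀ u, 0 ≤ u → 2⁻¹ ≤ sigmoid (ε * u) := fun u hu =>
      sigmoid_zero ▸ sigmoid_le (mul_nonneg hε hu)
    have := mul_le_mul (k (t - a) (by linarith [h.1 a rfl])) (k (a' - t) (by linarith [h.2 a' rfl]))
      (by norm_num) (sigmoid_pos _).le
    exact ct_mem.2.trans (by rw [Wt]; linarith)
  · rw [show θc a a' t = 0 from ct_zero h]; exact (mul_pos four_pos wt_pos).le

/-- the constant of the tails -/
def cw (ε : ℝ) : ℝ := (ε * sigmoid (-(ε * 4)))⁻¹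

theorem cw_pos (hε : 0 < ε) : 0 < cw ε := inv_pos.2 (mul_pos hε (sigmoid_pos _))

theorem sg_le (hε : 0 < ε) (h : u ≤ 4) : sigmoid (ε * u) ≤ cw ε * b ε u := by
  rw [cw, inv_mul_eq_div, le_div_iff₀ (mul_pos hε (sigmoid_pos _)), b, ← sigmoid_neg, mul_left_comm]
  exact mul_le_mul_of_nonneg_left (mul_le_mul_of_nonneg_left
    (sigmoid_le (by nlinarith)) (sigmoid_pos _).le) hε.le

theorem le_th (hε : 0 < ε) : Wt ε a a' t ≤ θc a a' t + cw ε * lz ε a a' t := by
  have h1 : Wt ε a a' t ≤ sigmoid (ε * (t - a)) :=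
    mul_le_of_le_one_right (sigmoid_pos _).le (sigmoid_le_one _)
  have h2 : Wt ε a a' t ≤ sigmoid (ε * (a' - t)) :=
    mul_le_of_le_one_left (sigmoid_pos _).le (sigmoid_le_one _)
  have p1 := mul_pos (cw_pos hε) (b_pos hε (t - a))
  have p2 := mul_pos (cw_pos hε) (b_pos hε (t - a'))
  have p3 : 0 ≤ θc a a' t := ct_mem.1
  rw [lz, mul_add]
  by_cases h : t ∈ Dp (some a) (some a') (3 + 1)
  · rw [show θc a a' t = 1 from ct_one h]; linarith [sigmoid_le_one (ε * (t - a))]
  rcases not_Dp h with ⟨_, e, k⟩ | ⟨_, e, k⟩ <;> cases e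
  · linarith [sg_le hε (u := t - a) (by linarith)]
  · have := sg_le hε (u := a' - t) (by linarith)
    rw [← b_neg, neg_sub] at this
    linarith

theorem ker_le (hε : 0 ≤ ε) (hδ : 0 < δ) (h : 4 * ε ≤ δ) :
    θc a a' t * b δ (s - t) ≤ 32 * (b (δ / 2) (s - t) * Wt ε a a' s) := by
  have k := mul_le_mul ((th_le hε).trans (mul_le_mul_of_nonneg_left (wt_le (a := a) (a' := a')
    (s := s) (t := t) hε) four_pos.le)) (b_le_exp hδ (s - t)) (b_pos hδ _).le
    (mul_pos four_pos (mul_pos (exp_pos _) wt_pos)).le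
  have k2 : exp (2 * ε * |s - t|) * exp (-(δ * |s - t|)) ≤ exp (-(δ / 2 * |s - t|)) := by
    rw [← exp_add]; exact exp_le_exp.2 (by nlinarith [abs_nonneg (s - t)])
  have k3 := mul_le_mul_of_nonneg_left k2 (mul_pos hδ (wt_pos (ε := ε) (a := a) (a' := a')
    (s := s))).le
  have k4 := mul_le_mul_of_nonneg_right (b_ge (half_pos hδ) (s - t))
    (wt_pos (ε := ε) (a := a) (a' := a') (s := s)).le
  linarith

end time

theorem lbw_res {E : Type} [NormedAddCommGroup E] [NormedSpace ℝ E] [FiniteDimensional ℝ E]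
    [MeasurableSpace E] [BorelSpace E]
    {HM : Type} [TopologicalSpace HM] {I : ModelWithCorners ℝ E HM}
    {M : Type} [TopologicalSpace M] [ChartedSpace HM M] [IsManifold I ∞ M]
    [MeasurableSpace M] [T2Space M] [BorelSpace M] {ι : Type} [Fintype ι] {F : Fr I M ι}
    {V : Type} [NormedAddCommGroup V] [InnerProductSpace ℝ V] {A : ι → M → CL V V} {ϖ W : M → ℝ}
    (h : Amb F ϖ) (hA : Mc I A) (hW : Wg F W) {s : M → V} {a : ℝ}
    (hb : LB F.μ (fun x => W x * ‖s x‖ ^ 2) a) :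
    LB F.μ (fun x => W x * ‖F.res A s x‖ ^ 2) (8 * a) := by
  rcases Mp86.res_cases F A s with k | k
  · exact (h.wk_res hA hW k hb).mono
      (hW.sm.continuous.mul (k.1.continuous.norm.pow 2)).aestronglyMeasurable
      (fun x => mul_nonneg (hW.pos x).le (sq_nonneg _)) fun x => mul_le_mul_of_nonneg_left
        (le_add_of_nonneg_right (g2_nonneg x)) (hW.pos x).le
  · have := hb.nonneg fun x => mul_nonneg (hW.pos x).le (sq_nonneg _)
    rw [k.2]; exact ⟨by simp, by simpa using this⟩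

variable {E3 : Type} [NormedAddCommGroup E3] [NormedSpace ℝ E3] [FiniteDimensional ℝ E3]
  [MeasurableSpace E3] [BorelSpace E3]
  {H3 : Type} [TopologicalSpace H3] {I3 : ModelWithCorners ℝ E3 H3} [I3.Boundaryless]
  {Y : Type} [TopologicalSpace Y] [ChartedSpace H3 Y] [IsManifold I3 ∞ Y] [T2Space Y]
  [MeasurableSpace Y] [BorelSpace Y] [SecondCountableTopology Y] [CompactSpace Y]
  {κ : Type} [Fintype κ] {lam : Type} [Fintype lam] {D : YD I3 Y κ lam} {S : ℝ} {r : ℕ}
  {N : ND Y lam}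

/-- the weighted form of `Dgr80.exists_ew` -/
theorem exists_eww (hD : D.OK) (hN : N.OK D) : ∃ C, 0 ≤ C ∧ ∀ S r (X : NK D S)
    (c : Cfg X.M (Option κ) lam r) ϖ W a, c.Adm X.B X.G → Amb X.G.F ϖ → Wg X.G.F W →
    LB X.G.F.μ (fun x => W x * (X.K.cut 3 (X.K.τ x) * en X.G.F c X.K.τ x)) a →
    LB X.G.F.μ (fun x => W x * N.ew X.K c x) (C * a) := by
  choose C hC using fun i => cbs_D_fn D (g := some (N.y i)) fun _ h => Option.some.inj h ▸ hN.sy i
  refine ⟨∑ i, 8 * (8 * (4 * (Fintype.card (Option κ) * C i 0) ^ 2)) + 1, by positivity,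
    fun S r X c ϖ W a A hϖ hW h => ?_⟩
  have P := pn2 hD X
  have c4 : Continuous X.K.χ4 := contDiff_ct.continuous.comp X.K.cont
  have k : ∀ i, LB X.G.F.μ (fun x => W x * ‖c.sd X.G.F (.cv X.K.χ4 X.K.τ (X.K.ext (N.y i))) x‖ ^ 2)
      (8 * (8 * (4 * (Fintype.card (Option κ) * C i 0) ^ 2 * a))) := fun i => by
    have e : ∀ x, ∑ s : Option κ × Option κ, (X.K.χ4 x * X.G.F.D s.1 X.K.τ x *
        X.G.F.D s.2 (X.K.ext (N.y i)) x) • c.m.Fg X.G.F c.W x s =
        X.K.χ4 x • ∑ b, X.G.F.D b (X.K.ext (N.y i)) x • xA X.G.F c X.K.τ x b := fun x => by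
      rw [Fintype.sum_prod_type, Finset.sum_comm]
      simp only [xA, Finset.smul_sum, smul_smul]
      exact Finset.sum_congr rfl fun _ _ => Finset.sum_congr rfl fun _ _ => by congr 1; ring
    have mc := Mp86.mc_adW A.conn
    refine lbw_res hϖ mc hW (lbw_res hϖ mc hW ?_)
    simp only [e]
    refine (h.mul (by positivity)).mono (hW.sm.continuous.mul ((c4.smul (continuous_finsetSum _
      fun b _ => (X.G.F.sm_D (sm_ext X.K (hN.sy i)) b).continuous.smul
        (sm_app (P.sm_xA A) b).continuous)).norm.pow 2)).aestronglyMeasurable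
      (fun x => mul_nonneg (hW.pos x).le (sq_nonneg _)) fun x => ?_
    have b := pow_le_pow_left₀ (norm_nonneg _) ((norm_sum_le _ _).trans (Finset.sum_le_card_nsmul
      Finset.univ _ _ fun b _ => (norm_smul _ _).trans_le (mul_le_mul ((hC i X.K b).2 0 [] le_rfl x)
        (PiLp.norm_apply_le (xA X.G.F c X.K.τ x) b) (norm_nonneg _)
          ((norm_nonneg _).trans ((hC i X.K b).2 0 [] le_rfl x))))) 2
    rw [nsmul_eq_mul, Finset.card_univ, ← mul_assoc, mul_pow] at b
    rw [mul_left_comm _ (W x)]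
    refine mul_le_mul_of_nonneg_left ?_ (hW.pos x).le
    rw [norm_smul, mul_pow, Real.norm_eq_abs, sq_abs, mul_left_comm]
    refine mul_le_mul (χ4_le X x) (b.trans ?_) (sq_nonneg _) ct_mem.1
    rw [en]
    nlinarith [mul_nonneg (sq_nonneg (Fintype.card (Option κ) * C i 0))
      (sq_nonneg ‖xP X.G.F c X.K.τ x‖)]
  refine (((LB.sum Finset.univ fun i _ => k i).add h).mono
    (hW.sm.continuous.mul (Mp86.ct_ew X A).1).aestronglyMeasurable
    (fun x => mul_nonneg (hW.pos x).le ((Mp86.ct_ew X A).2 x)) fun x => ?_).le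
      (le_of_eq (by simp only [add_mul, Finset.sum_mul, mul_assoc, one_mul]))
  rw [← Finset.mul_sum, ← mul_add]
  refine mul_le_mul_of_nonneg_left ((mul_le_of_le_one_left (by unfold ew; positivity)
    ct_mem.2).trans (add_le_add le_rfl ?_)) (hW.pos x).le
  rw [norm_smul, mul_pow, Real.norm_eq_abs, sq_abs]
  exact mul_le_mul (χ4_le X x) (le_add_of_nonneg_left (by positivity)) (sq_nonneg _) ct_mem.1

/-- the weight is admissible on every neck -/
theorem exists_wg {δ : ℝ} (hδ : 0 < δ) : ∃ ε > 0, 4 * ε ≤ δ ∧ ∀ S (X : NK D S) a a',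
    Wg X.G.F fun x => Wt ε a a' (X.K.τ x) := by
  obtain ⟨C, hC⟩ := bd_dtf
  have C0 := (hC none none).nonneg 0
  refine ⟨min (δ / 4) (2 * C 0 + 1)⁻¹, by positivity, by linarith [min_le_left (δ / 4) (2 * C 0 + 1)⁻¹],
    fun S X a a' => ⟨sm_time X.K sm_wt, fun _ => wt_pos, fun x => ?_⟩⟩
  generalize he : min (δ / 4) (2 * C 0 + 1)⁻¹ = ε
  have e0 : 0 ≤ ε := by rw [← he]; positivity
  have e1 : ε * (2 * C 0 + 1) ≤ 1 := by
    rw [← le_div_iff₀ (by positivity), one_div, ← he]; exact min_le_right _ _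
  have k := pow_le_pow_left₀ (abs_nonneg _) ((abs_mul _ _).trans_le (mul_le_mul
    (show |deriv (tf X.K.p X.K.q) (X.K.tm x)| ≤ C 0 from (hC _ _).2 0 0 le_rfl _)
    (dwt_le (a := a) (a' := a') (s := X.K.τ x) e0) (abs_nonneg _) C0)) 2
  rw [Finset.sum_eq_single none (fun i _ h => by rw [D_time_ne X.K sm_wt i x h]; simp) (by simp),
    D_time_none X.K sm_wt, smul_eq_mul, ← sq_abs]
  have k2 := pow_le_pow_left₀ (by positivity) (show 2 * (C 0 * ε) ≤ 1 by nlinarith) 2
  nlinarith [mul_le_mul_of_nonneg_right k2 (sq_nonneg (Wt ε a a' (X.K.τ x)))]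

variable (X : NK D S) {c : Cfg X.M (Option κ) lam r} {ε β a a' e : ℝ}

/-- the weighted energy -/
theorem lb_en (hD : D.OK) (A : c.Adm X.B X.G) (hε : 0 < ε) (hb : ∀ x, en X.G.F c X.K.τ x ≤ β)
    (b0 : 0 ≤ β) (T : Sb X.K.p X.K.q a a') :
    LB X.G.F.μ (fun x => Wt ε a a' (X.K.τ x) * (X.K.cut 3 (X.K.τ x) * en X.G.F c X.K.τ x))
      (∫ x, θc a a' (X.K.τ x) * en X.G.F c X.K.τ x ∂X.G.F.μ + β * (vY D * (2 * cw ε))) := by
  have P := pn2 hD X
  have c1 : Continuous fun s => cw ε * lz ε a a' s * X.K.cut 3 s :=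
    (continuous_const.mul (((continuous_b ε).comp (continuous_sub_right a)).add
      ((continuous_b ε).comp (continuous_sub_right a')))).mul contDiff_ct.continuous
  have p : ∀ s, 0 ≤ cw ε * lz ε a a' s := fun s => (mul_pos (cw_pos hε) (lz_pos hε)).le
  obtain ⟨i1, i2⟩ := int_of_lz hε c1.aestronglyMeasurable (C := cw ε) (a := a) (a' := a') fun s => by
    rw [abs_of_nonneg (mul_nonneg (p s) ct_mem.1)]; exact mul_le_of_le_one_right (p s) ct_mem.2
  have l := ((int_time X.K i1 fun s h => mul_eq_zero_of_right _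
    (ct_zero fun k => h (Dp_mono (by norm_num) k))).le
      (mul_le_mul_of_nonneg_left i2 (vY_nonneg D))).mul b0
  refine LB.mono (LB.add ⟨((T.tf (G := X.G)).ts.mul (P.sm_en A)).int X.G.F, le_rfl⟩ l)
    ((sm_time X.K sm_wt).continuous.mul ((sm_time X.K contDiff_ct).continuous.mul
      (P.sm_en A).continuous)).aestronglyMeasurable
    (fun x => mul_nonneg wt_pos.le (mul_nonneg ct_mem.1 (en_nonneg _ _ _ x))) fun x => ?_
  have e0 : 0 ≤ en X.G.F c X.K.τ x := en_nonneg _ _ _ x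
  have k0 : 0 ≤ X.K.cut 3 (X.K.τ x) := ct_mem.1
  have k1 := mul_le_mul_of_nonneg_right (le_th (a := a) (a' := a') (t := X.K.τ x) hε)
    (mul_nonneg k0 e0)
  have k2 := mul_le_mul_of_nonneg_left (mul_le_of_le_one_left e0 (show X.K.cut 3 (X.K.τ x) ≤ 1 from
    ct_mem.2)) (show 0 ≤ θc a a' (X.K.τ x) from ct_mem.1)
  have k3 := mul_le_mul_of_nonneg_left (hb x) (mul_nonneg (p (X.K.τ x)) k0)
  rw [abs_of_nonneg (mul_nonneg (p _) k0)]
  linarith

/-- the smoothed energy in the window is bounded by the weighted energy -/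
theorem lb_eT (hδ : 0 < N.δ) (A : c.Adm X.B X.G) (hε : 0 ≤ ε) (h4 : 4 * ε ≤ N.δ)
    (T : Sb X.K.p X.K.q a a') (h : LB X.G.F.μ (fun x => Wt ε a a' (X.K.τ x) * N.ew X.K c x) e) :
    LB X.G.F.μ (fun x => θc a a' (X.K.τ x) * eT N X c (X.K.τ x)) (vY D * (32 * e)) := by
  have := sfin X.G.F.toPre
  have ct := X.K.sm_τ.continuous
  obtain ⟨ce, e0⟩ := Mp86.ct_ew (N := N) X A
  obtain ⟨i, k⟩ := integral_wn (half_pos hδ) ct.aestronglyMeasurable h.1
  have p := wn_nonneg (μ := X.G.F.μ) (τ := X.K.τ) hδ e0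
  have m : StronglyMeasurable (eT N X c) :=
    (Measurable.stronglyMeasurable (f := fun z : X.M × ℝ => b N.δ (X.K.τ z.1 - z.2) • N.ew X.K c z.1)
      (((continuous_b _).measurable.comp ((ct.measurable.comp measurable_fst).sub
        measurable_snd)).smul (ce.measurable.comp measurable_fst))).integral_prod_left'
  have l : LB volume (fun t => θc a a' t * eT N X c t) (32 * e) :=
    (LB.mul ⟨i, k.trans_le h.2⟩ (by norm_num)).mono
      (contDiff_ct.continuous.aestronglyMeasurable.mul m.aestronglyMeasurable)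
      (fun t => mul_nonneg ct_mem.1 (p t)) fun t => by
        rw [eT, wn, wn, ← integral_const_mul, ← integral_const_mul]
        refine integral_mono_of_nonneg (.of_forall fun x => mul_nonneg ct_mem.1
          (mul_nonneg (b_pos hδ _).le (e0 x))) (((WI.of_integrable (half_pos hδ)
            ct.aestronglyMeasurable h.1).int (half_pos hδ) t).const_mul _) (.of_forall fun x => ?_)
        have := mul_le_mul_of_nonneg_right (ker_le (a := a) (a' := a') (s := X.K.τ x) (t := t)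
          hε hδ h4) (e0 x)
        simp only [smul_eq_mul]
        linarith
  have := int_time X.K l.1 (T.off (d := 3) (by norm_num) fun _ h => mul_eq_zero_of_left (ct_zero h) _)
  simp only [fun t => abs_of_nonneg (mul_nonneg (ct_mem (p := some a) (q := some a') (d := 3)
    (s := t)).1 (p t))] at this
  exact this.le (mul_le_mul_of_nonneg_left l.2 (vY_nonneg D))

end Crest.Agent.X212.Nck90.Et

namespace Crest.Agent.X212.Nck90
open An Nd18 Nka63 Dgr80 Et

/-- **EN18-ET** -/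
theorem et {E3 : Type} [NormedAddCommGroup E3] [NormedSpace ℝ E3] [FiniteDimensional ℝ E3]
    [MeasurableSpace E3] [BorelSpace E3]
    {H3 : Type} [TopologicalSpace H3] (I3 : ModelWithCorners ℝ E3 H3) [I3.Boundaryless]
    (Y : Type) [TopologicalSpace Y] [ChartedSpace H3 Y] [IsManifold I3 ∞ Y] [T2Space Y]
    [MeasurableSpace Y] [BorelSpace Y] [SecondCountableTopology Y] [CompactSpace Y]
    (κ : Type) [Fintype κ] (lam : Type) [Fintype lam] : Lw78.En.EtStmt I3 Y κ lam :=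
    fun N D hD hN => by
  obtain ⟨C, C0, hC⟩ := exists_eww hD hN
  obtain ⟨ε, hε, h4, hW⟩ := exists_wg (D := D) hN.δ0
  have v0 := vY_nonneg D
  have w0 := (cw_pos hε).le
  refine ⟨vY D * (32 * (C * (1 + vY D * (2 * cw ε)))), by positivity,
    fun S r X c ϖ β a a' A hϖ hb T => ?_⟩
  rcases isEmpty_or_nonempty X.M with h | ⟨⟨x⟩⟩
  · have : IsEmpty Y := ⟨fun y => isEmptyElim (X.K.ψ (y, 0))⟩
    have v : vY D = 0 := by simp [vY, univ_eq_empty_iff.2 this]
    exact ⟨.of_isEmpty, by rw [integral_of_isEmpty, v, zero_mul, zero_mul]⟩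
  have b0 := (en_nonneg _ _ _ x).trans (hb x)
  have i0 : 0 ≤ ∫ x, θc a a' (X.K.τ x) * en X.G.F c X.K.τ x ∂X.G.F.μ :=
    integral_nonneg fun x => mul_nonneg ct_mem.1 (en_nonneg _ _ _ x)
  refine (lb_eT X hN.δ0 A hε.le h4 T (hC S r X c ϖ _ _ A hϖ (hW S X a a')
    (lb_en X hD A hε hb b0 T))).le ?_
  rw [mul_assoc (vY D), mul_assoc 32, mul_assoc C]
  refine mul_le_mul_of_nonneg_left (mul_le_mul_of_nonneg_left (mul_le_mul_of_nonneg_left ?_ C0)
    (by norm_num)) v0
  nlinarith [mul_nonneg (mul_nonneg v0 (mul_nonneg zero_le_two w0)) i0]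

end Crest.Agent.X212.Nck90
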