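import Crest.Agent.X212.Nck90.Lv2
import Crest.Agent.X212.Nck90.Xc
import Crest.Agent.X212.Idg99.Chr
import Crest.Agent.X212.Nd18.Aps
import Crest.Agent.X212.One97.Ext

/-!
# X212, necks (helper90), part 17: MS-LEV and CHH
-/

set_option autoImplicit false
set_option linter.unusedSectionVars false
noncomputable section
open scoped Manifold ContDiff Topology InnerProductSpace
open MeasureTheory Set Function Filter

namespace Crest.Agent.X212.Nck90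
open An An.Job M Sob92 Cyf70 Neck67 Pj41 Tmp64 Nd18 Bki64

section gen
variable {E3 : Type} [NormedAddCommGroup E3] [NormedSpace ℝ E3] [FiniteDimensional ℝ E3]
  [MeasurableSpace E3] [BorelSpace E3]
  {H3 : Type} [TopologicalSpace H3] {I3 : ModelWithCorners ℝ E3 H3} [I3.Boundaryless]
  {Y : Type} [TopologicalSpace Y] [ChartedSpace H3 Y] [IsManifold I3 ∞ Y] [T2Space Y]
  [MeasurableSpace Y] [BorelSpace Y] [SecondCountableTopology Y] [CompactSpace Y]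
  {κ : Type} [Fintype κ] {lam : Type} [Fintype lam] {D : YD I3 Y κ lam} {β β' : YC Y κ lam}

/-- **integrality on a band** -/
theorem ci (hD : D.OK) (h3 : Module.finrank ℝ E3 = 3) : CI D :=
  ci_of (fun _ _ hB hG _ _ _ _ H H' C C' => Idg99.kap_sub hB hG H C (by simp [h3]) H' C') hD

theorem exists_path (hD : D.OK) (h3 : Module.finrank ℝ E3 = 3) (hβ : D.Adm β) (hβ' : D.Adm β') :
    ∃ c, D.Path c β β' := by
  obtain ⟨W, Φ, a, b, e⟩ := (One97.ext D hD h3 _ _ _ _ _ _ D.nk hD.B hD.G 0 (cy β) β' 1 0 hβ.adm hβ'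
    (by simp [YD.nk, Jv])).1 rfl
  have o : IsOpen (univ ×ˢ Iio 0 : Set (Y × ℝ)) := isOpen_univ.prod isOpen_Iio
  have k := (admOn_univ.2 hβ.adm).mono (subset_univ (univ ×ˢ Iio 0))
  have e' := fun x (hx : x ∈ (univ ×ˢ Iio 0 : Set (Y × ℝ))) => e x (not_lt.2 (le_of_lt hx.2))
  refine ⟨_, a, ⟨1, (cy β).m.p, Iio 0, Iio_mem_atBot 0, fun _ _ => by simp [YD.nk, Jv],
    Cl.cls hβ isOpen_Iio ((admOn_univ.2 a).mono (subset_univ _)) (Cl.of_eq o (.refl k.ok)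
      (fun i x hx => ?_) (fun x hx => ?_) le_rfl)⟩, 1, b⟩
  · exact (congrArg (fun T : En (Fin (cy β).m.N) => D.Z.D i (cy β).m.p x + (cy β).W i x ∘L (cy β).m.p x -
      (cy β).m.p x ∘L T) ((e' x hx).1 i)).trans (k.conn.par0_refl x hx i)
  · refine (congrArg (fun v : (cy β).m.V => cs (cy β).m.J (1 : Circle) ((cy β).m.p x v) -
      (cy β).Φ x)
      (e' x hx).2).trans ?_
    rw [k.pΦ hx, Circle.coe_one, Eqv71.cs_one, sub_self]

theorem eq_std (hD : D.OK) (hβ : D.Adm β) {c : Cfg (Y × ℝ) (Option κ) lam 0} (hc : c.Adm D.B D.G)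
    {u ζ} {S T : Set ℝ} (h : D.Cls c β u ζ S 0 0) (e : T ⊆ S) :
    Mod61.EqOn D.B D.Z (univ ×ˢ T) c (cy β) u ζ :=
  have a := (admOn_univ.2 hc).mono (subset_univ (univ ×ˢ S))
  have k := cl_of_cls hβ a h
  have i := prod_mono_right (s := univ) e
  ⟨(k.iso.mono i).mEq (a.ok.mono i) (OK.on hβ.adm.ok _),
    (par0_iff ((IsConn.on hβ.adm.conn _).proj' hD.B)).1 fun x hx b =>
      (dA_u (G := D.G) k.iso k.op a (i hx) b).symm.trans
        ((congrArg (· ∘L u x) (norm_le_zero_iff.1 ((k.A b).le (i hx)))).trans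
          (ContinuousLinearMap.zero_comp _)),
    fun _ hx => (sub_eq_zero.1 (norm_le_zero_iff.1 (k.P.le (i hx)))).symm, Subsingleton.elim _ _⟩

end gen

section lev
variable {κ lam : Type} [Fintype κ] [Fintype lam] {Y : Mf 3} [CompactSpace Y.M]
  {D : YD Y.I Y.M κ lam} {N : ND Y.M lam}

theorem std_path (hD : D.OK) {β β' : YC Y.M κ lam} (hβ : D.Adm β) (hβ' : D.Adm β') {c}
    (h : D.Path c β β') : (XD.mk Y D N).bg.Std c fun o => bif o then β' else β := by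
  obtain ⟨ζ, u, S, s1, -, s2⟩ := h.bot
  obtain ⟨ζ', u', S', t1, -, t2⟩ := h.top
  obtain ⟨a, ha⟩ := mem_atBot_sets.1 s1
  obtain ⟨b, hb⟩ := mem_atTop_sets.1 t1
  refine ⟨h.adm, fun o => ?_⟩
  cases o
  · exact ⟨u, ζ, -a, hβ, fun _ _ => by simp [YD.nk, Jv], eq_std hD hβ h.adm s2 fun t ht =>
      ha t (by have : -a < -1 * t := ht; linarith)⟩
  · exact ⟨u', ζ', b, hβ', fun _ _ => by simp [YD.nk, Jv], eq_std hD hβ' h.adm t2 fun t ht =>
      hb t (by have : b < 1 * t := ht; linarith)⟩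

/-- **MS-LEV** -/
theorem lev (hD : D.OK) {S : N.CD D} {H : Hd D} (hL : H.Lvl S) {q : YW Y.I Y.M →₀ ℝ}
    (hE : Dgr80.Elz S q) : S.Lev (H.gr S) q := fun i j c ζ ζ' t => by
  have a := fun i => crit_adm (S.crit i)
  obtain ⟨c', p⟩ := exists_path hD Y.dim (a i) (a j)
  obtain ⟨n, e⟩ := hL.path c' i j (std_path hD (a i) (a j) p)
  obtain ⟨n', e'⟩ := lvl_int (ci hD Y.dim) hD Y.dim (a i) (a j) t.sol.toAdm (int_elim hD (a i) (a j)
    t.sol.toAdm (hE i j c ζ ζ' t).1 (hE i j c ζ ζ' t).2) t.bot t.top p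
  exact ⟨n + n', by push_cast; linarith⟩

/-- levels without a reference -/
theorem lev' (hD : D.OK) (S : N.CD D) : ∃ Γ : Gr S.C, ∀ q, Dgr80.Elz S q → S.Lev Γ q :=
  let ⟨ℓ, h⟩ := exists_lv (ci hD Y.dim) hD Y.dim
  have a := fun i => crit_adm (S.crit i)
  ⟨⟨fun i => ℓ (S.β i), 0, 0⟩, fun _ hE i j c ζ ζ' t => h.traj hD (a i) (a j) t.sol.toAdm
    (int_elim hD (a i) (a j) t.sol.toAdm (hE i j c ζ ζ' t).1 (hE i j c ζ ζ' t).2) t.bot t.top⟩

end lev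

variable {Wi : Type} {X : Mf 4} {A κ lam : Type} [Fintype A] [Fintype κ] [Fintype lam]
  [DecidableEq lam] {M : Mark X A κ} {W : World M} {N : ML M lam}
  {Λ : Lns W N} {A' h : Type} [Fintype A'] [DecidableEq A'] [Fintype h] {r n : ℕ}
  {J : Job Wi Λ A' h r n} {Adm : (Wi →₀ ℝ) → Prop} {a : A} (hJ : J.OK)
include hJ

/-- **CHH at positive scalar curvature** -/
theorem chX_psc (cz : CZC J) (h : PW (J.xs a)) : Fin37.ChX Adm (J.xs a) := by
  have hD := (hJ.xs a).1.yd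
  have p := pos_psc h.nil h.bs h.ps Dgr80.posStmt hD (hJ.xs a).2 (J.xs a).Y.dim.le
  obtain ⟨Ad, h1, h2, -⟩ := wi_psc (Adm := fun _ => True) hJ cz h
  obtain ⟨V, h3, h4⟩ := ch_psc h.nil h.bs h.ps (ci hD (J.xs a).Y.dim) hD (J.xs a).Y.dim p
    (h2.ti (J.xs a).Y.dim (conn_xs J a) hD (hJ.xs a).2
      ⟨∅, fun _ _ _ => rfl, fun _ => tendsto_const_nhds⟩ fun _ => h.q0 0 ▸ h1 0 trivial)
  refine ⟨0, V, h3, fun q β ζ β' ζ' k j _ b b' c => ?_⟩
  obtain ⟨e, k⟩ := h4 _ _ _ _ _ _ b b' (h.q0 q ▸ c)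
  rw [show Fin37.cE (J.xs a) β β' _ = _ from e]
  exact ⟨k.1, by simp, k.2⟩

/-- **CHH at walls with nondegenerate critical points** -/
theorem chX_cd (h : CW J a) : An.Sml fun Adm => Fin37.ChX Adm (J.xs a) := by
  obtain ⟨S, hE, -⟩ := h
  have hD := (hJ.xs a).1.yd
  obtain ⟨sz, p⟩ := Dgr80.ms_pos Dgr80.posStmt hD (J.xs a).Y.dim.le (hJ.xs a).2
  obtain ⟨Γ, k⟩ := lev' hD S
  exact (Fin37.sml_q sz (J.xs a).ty 1).mono fun Adm e => Dgr80.chX hD (hJ.xs a).2 S Γ fun q hq =>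
    ⟨k _ (hE _), (p _ (one_smul ℝ ((J.xs a).q q) ▸ e q hq 1 abs_one.le) S (hE _)).1⟩

end Crest.Agent.X212.Nck90
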