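import Crest.Agent.X212.Lix26.Defs
import Crest.Agent.X212.Rr71.Mov
import Crest.Agent.X212.Nck90.Lev
import Crest.Agent.X212.Wl34.Wl

/-!
# Row 212, LIX-CAT (helper90): a chain is appended to an end
-/

set_option autoImplicit false
set_option linter.unusedSectionVars false
noncomputable section
open scoped Manifold ContDiff Topology InnerProductSpace
open MeasureTheory Set Function Filter

namespace Crest.Agent.X212.Nck90
open An Nd18 Mod61 Rdc90 Pj41 Tmp64 Cyf70 Rf65 Bki64 Rr71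

section fmt
variable {E3 : Type} [NormedAddCommGroup E3] [NormedSpace ℝ E3] [FiniteDimensional ℝ E3]
  [MeasurableSpace E3] [BorelSpace E3]
  {H3 : Type} [TopologicalSpace H3] {I3 : ModelWithCorners ℝ E3 H3} [I3.Boundaryless]
  {Y : Type} [TopologicalSpace Y] [ChartedSpace H3 Y] [IsManifold I3 ∞ Y] [T2Space Y]
  [MeasurableSpace Y] [BorelSpace Y] [SecondCountableTopology Y] [CompactSpace Y]
  {κ : Type} [Fintype κ] {lam : Type} [Fintype lam]
  {E : Type} [NormedAddCommGroup E] [NormedSpace ℝ E] [FiniteDimensional ℝ E]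
  [MeasurableSpace E] [BorelSpace E]
  {HM : Type} [TopologicalSpace HM] {I : ModelWithCorners ℝ E HM} [I.Boundaryless]
  {M : Type} [TopologicalSpace M] [ChartedSpace HM M] [IsManifold I ∞ M] [MeasurableSpace M]
  [T2Space M] [BorelSpace M] [SecondCountableTopology M]
  {D : YD I3 Y κ lam} {B : Base M (Option κ) lam} {G : Geo I M (Option κ) lam} {K : Nk D B G}
  {m : Md M (Option κ) lam} {W W' : m.Cn} {β γ : YC Y κ lam} {S : Set ℝ} {d p q ε : ℝ}
  {ℓ : YC Y κ lam → ℝ}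

theorem cls_congr {u : Y × ℝ → CL m.V β.m.V} {k η} (hS : S ⊆ K.J)
    (e : ∀ x, K.tm x ∈ S → ∀ a, W' a x = W a x) (h : D.Cls (K.pb (cf W)) β u 1 S k η) :
    D.Cls (K.pb (cf W')) β u 1 S k η :=
  ⟨h.op, h.m, fun a w hw x hx => (congrArg _ (dw_congr w
    (((isOpen_univ.prod h.op).eventually_mem hx).mono fun y hy => congrArg
      (fun t : En (Fin m.N) => (D.Z.D a u y + β.W a y.1 ∘L u y - u y ∘L t) ∘L trn (u y))
      (e _ ((K.tm_ψ y (K.mem_src.2 (hS hy.2))).symm ▸ hy.2) a)))).trans_le (h.A a w hw x hx), h.P⟩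

theorem int_band (h : Icc p q ⊆ K.J) : ∫ x in K.tm ⁻¹' Icc p q, m.kd B G.F W x ∂G.F.μ =
    ∫ z in Bn Y p q, kZ D (K.pb (cf W)) z ∂D.Z.μ := by
  have e := Nka63.setIntegral_comp K.iso ((K.tm ⁻¹' Icc p q).indicator (m.kd B G.F W))
  rw [setIntegral_indicator (isClosed_Icc.preimage K.cont).measurableSet,
    inter_eq_right.2 (K.tgt ▸ preimage_mono h)] at e
  rw [← e, ← inter_eq_right.2 (show Bn Y p q ⊆ K.ψ.source from fun z hz => K.mem_src.2 (h hz.2)),
    ← setIntegral_indicator (bn_cpt p q).measurableSet]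
  refine setIntegral_congr_fun K.ψ.open_source.measurableSet fun z hz => ?_
  by_cases k : z.2 ∈ Icc p q
  · exact (indicator_of_mem (show K.ψ z ∈ K.tm ⁻¹' Icc p q from by rwa [mem_preimage, K.tm_ψ z hz]) _).trans
      ((indicator_of_mem (show z ∈ Bn Y p q from ⟨trivial, k⟩) _).trans
        (Dgr80.kd_pb K (c := cf W) hz)).symm
  · exact (indicator_of_notMem (fun e : K.ψ z ∈ K.tm ⁻¹' Icc p q => k (K.tm_ψ z hz ▸ e)) _).trans
      (indicator_of_notMem (fun e : z ∈ Bn Y p q => k e.2) _).symm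

/-- the limit is changed far out on an end -/
theorem cat_end (hℓ : Lv D ℓ) (hm : m.OK I B) (hW : m.IsConn B G W) (hB : B.OK I) (hG : G.OK B)
    (hβ : D.Adm β) (hγ : Bs D γ) (hp : K.p = some 0) (hq : K.q = none) (d0 : 0 < d)
    (H : K.ELim d (cf W) β 1 atTop) {O : Set M} (hs : K.ψ.target ⊆ O)
    (i : IntegrableOn (m.kd B G.F W) O G.F.μ) (hε : 0 < ε) :
    ∃ W' : m.Cn, m.IsConn B G W' ∧ (∀ d, K.ELim d (cf W') γ 1 atTop) ∧
      (∀ x ∉ K.ψ.target, ∀ a, W' a x = W a x) ∧ IntegrableOn (m.kd B G.F W') O G.F.μ ∧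
      ∃ n : ℤ, |∫ x in O, m.kd B G.F W' x ∂G.F.μ - ∫ x in O, m.kd B G.F W x ∂G.F.μ -
        (ℓ γ - ℓ β + n)| < ε := by
  have J : ∀ s, 0 < s → s ∈ K.J := fun s hs => by simpa [Jv, hp, hq] using hs
  have AO : ∀ s, 0 < s → K.tm ⁻¹' Ici s ⊆ K.ψ.target := fun s h x hx => K.tgt ▸ J _ (h.trans_le hx)
  have mA : ∀ s, MeasurableSet (K.tm ⁻¹' Ici s) := fun s =>
    (isClosed_Ici.preimage K.cont).measurableSet
  obtain ⟨k, k0, hK⟩ := hℓ.apx hγ.ok
  obtain ⟨C, c0, e1⟩ := exists_ek hγ.ok hβ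
  obtain ⟨C', c1, e2⟩ := exists_ek hγ.ok hγ.adm
  obtain ⟨u, S, s1, -, -, H⟩ := H
  obtain ⟨R, H⟩ := H 1
  obtain ⟨T, hT⟩ := mem_atTop_sets.1 s1
  have t1 : Tendsto (fun s : ℝ => ∫ x in K.tm ⁻¹' Ici (s + 1), m.kd B G.F W x ∂G.F.μ) atTop (𝓝 0) := by
    have := tendsto_setIntegral_of_antitone (s := fun s : ℝ => K.tm ⁻¹' Ici (s + 1))
      (fun s => mA _) (fun s s' h => preimage_mono (Ici_subset_Ici.2 (by linarith)))
      ⟨0, i.mono_set ((AO _ (by norm_num)).trans hs)⟩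
    rwa [show ⋂ s : ℝ, K.tm ⁻¹' Ici (s + 1) = ∅ from eq_empty_of_forall_notMem fun x hx => by
      have : K.tm x + 1 ≤ K.tm x := mem_iInter.1 hx (K.tm x)
      linarith, setIntegral_empty] at this
  have t2 : Tendsto (fun s : ℝ => |R| * Real.exp (-d * |s|)) atTop (𝓝 0) := by
    simpa using (Real.tendsto_exp_neg_atTop_nhds_zero.comp
      (tendsto_abs_atTop_atTop.const_mul_atTop d0)).const_mul |R|
  obtain ⟨s, ⟨r1, r2⟩, ⟨r3, r4⟩, r5⟩ := (((Metric.tendsto_nhds.1 t1 _ (half_pos hε)).and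
    ((t2.const_mul k).eventually (ge_mem_nhds (show k * 0 < 1 by simp)))).and
      ((((t2.const_mul (k * (C + C'))).eventually (gt_mem_nhds (show _ * 0 < ε / 2 by
        simpa using hε))).and (eventually_ge_atTop (T + 1))).and (eventually_gt_atTop 1))).exists
  obtain ⟨V, Φ, a, ⟨v, S', v1, v2, v3⟩, e⟩ := (One97.ext D hγ.ok hγ.dim E HM I M B G K hB hG 0 (cf W)
    γ 1 (s + 1) (adm_cf hm hW) hγ.adm (J _ (by linarith))).1 hq
  obtain ⟨T', hT'⟩ := mem_atTop_sets.1 v1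
  set q := max (s + 1) T'
  have q1 : s + 1 ≤ q := le_max_left _ _
  have q2 : T' ≤ q := le_max_right _ _
  have e' : ∀ x, K.tm x ∉ Ici (s + 1) → ∀ a, V a x = W a x := fun x hx =>
    (e x fun k => hx (Ioi_subset_Ici_self k)).1
  have hJ : Icc (s + 1) q ⊆ K.J := fun t ht => J t (by linarith [ht.1])
  have i' := int_std hm a.conn hγ v2 v3 hB hG isClosed_Ici isCompact_Icc hJ
    (fun t ht => (le_total t q).imp (⟨ht, ·⟩) fun k => hT' t (q2.trans k)) e' i
  have o := fun a b : ℝ => (isOpen_univ (X := Y)).prod (isOpen_Ioo (a := a) (b := b))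
  have jo : ∀ {a b}, 0 ≤ a → Ioo a b ⊆ K.J := fun h t ht => J t (h.trans_lt ht.1)
  have d1 : 0 ≤ |R| * Real.exp (-d * |s|) := by positivity
  obtain ⟨n, hn⟩ := hK β γ (C + C') 0 (K.pb (cf V)) (s + 1) q u v 1 1 _ hβ hγ.adm
    (e1.mono (by linarith)) (e2.mono (by linarith)) (by linarith) q1
    (admJ hm a.conn (jo (by linarith)))
    ((cl_of_cls hβ (admJ hm a.conn (jo (by linarith))) (cls_congr (jo (by linarith))
      (fun x hx => e' x (not_le.2 hx.2)) (H s fun t ht => hT t (by linarith [ht.1])))).mono (o _ _)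
        (prod_mono_right (Ioo_subset_Ioo_left (by linarith))) le_rfl
        (mul_le_mul_of_nonneg_right (le_abs_self R) (Real.exp_pos _).le))
    ((Cl.of_eq (F := D.Z) (c := K.pb (cf V)) (c' := cy γ) (isOpen_univ.prod v3.op)
      (iso_std hm a.conn hγ v2 v3) (fun b x hx => par_std hm a.conn hγ v2 v3 x hx b) (fun x _ => by
        show cs γ.m.J _ (v x 0) - γ.Φ x.1 = 0
        simp [hγ.zr, cs]) d1).mono (o _ _)
          (prod_mono_right fun t ht => hT' t (q2.trans ht.1.le)) le_rfl le_rfl) d1 r2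
  refine ⟨V, a.conn, fun d => elim_std hm a.conn hγ v2 v3 v1, fun x hx =>
    e' x fun k => hx (AO _ (by linarith) k), i', n, ?_⟩
  rw [← integral_add_compl (mA (s + 1)) i, ← integral_add_compl (mA (s + 1)) i',
    Measure.restrict_restrict_of_subset ((AO _ (by linarith)).trans hs),
    setIntegral_congr_fun (mA (s + 1)).compl (g := m.kd B G.F W) fun x hx => Loc66.kd_congr fun a =>
      ((isClosed_Ici.preimage K.cont).isOpen_compl.eventually_mem hx).mono fun y hy => e' y hy a,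
    setIntegral_eq_of_subset_of_forall_sdiff_eq_zero (f := m.kd B G.F V)
      (s := K.tm ⁻¹' Icc (s + 1) q) (mA (s + 1)) (preimage_mono Icc_subset_Ici_self) fun x hx => kd_std hm a.conn hγ v2 v3
        (hT' _ (q2.trans (not_le.1 fun k => hx.2 ⟨hx.1, k⟩).le)), int_band hJ]
  rw [Real.dist_eq, sub_zero] at r1
  exact abs_lt.2 ⟨by linarith [(abs_le.1 hn).1, (abs_lt.1 r1).2],
    by linarith [(abs_le.1 hn).2, (abs_lt.1 r1).1]⟩

theorem brk_crit {N : ND Y lam} {q ζ ζ' k j} (h : N.Brk D q β ζ γ ζ' k j) (a : N.Crit D β) :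
    N.Crit D γ := by
  induction h with
  | nil => exact a
  | bub _ ih => exact ih a
  | mov _ _ _ a' _ ih => exact ih a'

end fmt

open M Cht98

variable {Wi : Type} {X : Mf 4} {A κ lam : Type} [Fintype A] [Fintype κ] [Fintype lam]
  [DecidableEq lam] {M : Mark X A κ} {W : World M} {N : ML M lam} {Λ : Lns W N}
  {A' h : Type} [Fintype A'] [DecidableEq A'] [Fintype h] {r n : ℕ}

/-- **LIX-CAT** -/
theorem cat (J : Job Wi Λ A' h r n) (c : M.Cl) : Lix26.Cat J c :=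
    fun hJ a ha hN _ py δ y ρ γ ζ ζ' k j d0 hρ e g cr br ε hε => by
  classical
  have hD := (hJ.xs a).1.yd
  have h3 := (J.xs a).Y.dim
  have bs := fun β => Wl34.bs (β := β) hD h3 hN py
  have hγ := bs γ (brk_crit br cr)
  obtain ⟨ℓ, hℓ⟩ := exists_lv (ci hD h3) hD h3
  obtain ⟨n₀, e₀⟩ := hℓ.brk hD (int_psc hN (fun β h => ⟨bs β h, Wl34.hc py (bs β h)⟩) py.ps) br cr
  have ac : Act J.m c a (some false) (J.Θ y.s) := ⟨ha.2, g.br, g.O, ha.1⟩
  have k := hJ.nk c a _ _ ac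
  obtain ⟨d, hd, H⟩ := g.lim ⟨⟨a, ha⟩, false⟩ ⟨ρ, rfl, e⟩ ac
  obtain ⟨V, h1, h2, h3, h4, m, h5⟩ := cat_end (K := J.K c a _ _ ac) (W := y.x.W) hℓ g.adm.ok
    g.adm.conn (Λ.B_ok _ c) (Λ.G_ok _ g.O) (crit_adm cr) hγ (by simpa using k.lo)
    (by simpa using k.hi) (d0.trans hd) H (O := W.pc c ρ) (fun x hx => (J.K c a _ _ ac).ψ.right_inv hx ▸
      k.end_mem ac hρ e ((J.K c a _ _ ac).mem_src.1 ((J.K c a _ _ ac).ψ.map_target hx)))
    (un_one W.toCaps c ρ ▸ g.int) hε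
  have en : ∀ i ∈ EdP c {ρ}, i.1.1 = a → i.2 = false := fun i ⟨_, k, hi⟩ e' => by
    obtain rfl : _ = ρ := k
    exact Option.some.inj (hi.symm.trans (e' ▸ e))
  refine ⟨{ y with x := ⟨y.x.m, V, 0, y.x.z⟩, β := update y.β a fun _ => γ }, m - n₀, rfl,
    ⟨g.br, g.O, ⟨g.adm.ok, h1, g.adm.sm, g.adm.pos⟩, fun i hi => ?_, fun i hi hb => ?_,
      (un_one W.toCaps c ρ).symm ▸ h4⟩, ?_, lt_of_eq_of_lt ?_ h5⟩
  · obtain ⟨⟨a', h'⟩, b'⟩ := i
    by_cases e' : a' = a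
    · subst e'
      simpa using hγ
    · simpa [update_of_ne e'] using g.bs _ hi
  · obtain ⟨⟨a', h'⟩, b'⟩ := i
    by_cases e' : a' = a
    · subst e'
      obtain rfl : b' = false := en _ hi rfl
      exact ⟨δ + 1, lt_add_one δ, by simpa using h2 (δ + 1)⟩
    · obtain ⟨d, hd, H⟩ := g.lim _ hi hb
      refine ⟨d, hd, ?_⟩
      simp only [update_of_ne e']
      refine elim_congr (W := y.x.W) (fun x hx => h3 x fun hx' => disjoint_left.1 (disjoint_hZ W.toCaps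
        (.inl h') (.inl ha) (c.2 h'.1 ha.1 e')) (show _ < (3 : ℝ) from lt_trans
          (isNk_sub hb (hJ.nk c a' _ _ hb) hx) (by norm_num)) (show _ < (3 : ℝ) from lt_trans
          (isNk_sub ac k hx') (by norm_num))) H
  · simp only [update_self]
    exact ⟨_, 1, Eqv71.ceq_refl (c := cy γ) hγ.ok.B hγ.ok.G hγ.adm.adm isOpen_univ⟩
  · rw [e₀, Int.cast_sub]
    exact congrArg _ (by simp only [Job.Obc.kap]; ring)

end Crest.Agent.X212.Nck90
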