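import Crest.Agent.X212.Bki64.Brk
import Crest.Agent.X212.Sw21.Tool

/-!
# X212, necks (helper90), part 1: rigidity in `C⁰`
-/

set_option autoImplicit false
set_option linter.unusedSectionVars false
noncomputable section
open scoped Manifold ContDiff Topology InnerProductSpace
open MeasureTheory Set Function Filter

namespace Crest.Agent.X212.Nck90
open An Sob92 Cyf70 Neck67 Cmp73 Pj41 Eqv71 Tmp64 Nd18 Std94 Bki64

section gen
variable {E : Type} [NormedAddCommGroup E] [NormedSpace ℝ E] [FiniteDimensional ℝ E]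
  [MeasurableSpace E] [BorelSpace E]
  {HM : Type} [TopologicalSpace HM] {I : ModelWithCorners ℝ E HM}
  {M : Type} [TopologicalSpace M] [ChartedSpace HM M] [IsManifold I ∞ M]
  [MeasurableSpace M] {ι : Type} [Fintype ι] {lam : Type} [Fintype lam] {r r' r'' : ℕ}
  {B : Base M ι lam} {G : Geo I M ι lam}

/-- almost parallel sections have a parallel limit -/
theorem par0 [I.Boundaryless] [CompactSpace M] [T2Space M] [BorelSpace M] (F : Pre I M ι) {N α : Type} [NormedAddCommGroup N]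
    [NormedSpace ℝ N] [FiniteDimensional ℝ N] {𝒰 : Ultrafilter α} {f : α → M → N}
    {A : ι → M → N →L[ℝ] N} (hA : ∀ a, Sm I (A a))
    (hf : ∀ᶠ n in 𝒰, ∀ x, FSm I (f n) x ∧ ‖f n x‖ ≤ 1)
    (h : ∀ ε > 0, ∀ᶠ n in 𝒰, ∀ a x, ‖F.D a (f n) x - A a x (f n x)‖ ≤ ε) :
    ∃ g, Sm I g ∧ (∀ a x, F.D a g x = A a x (g x)) ∧
      ∀ x, Tendsto (fun n => f n x) 𝒰 (𝓝 (g x)) := by
  have := FiniteDimensional.proper_real N
  choose g hg0 hg using fun x => (isCompact_closedBall (0 : N) 1).ultrafilter_le_nhds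
    (𝒰.map fun n => f n x) (le_principal_iff.2 (hf.mono fun n hn =>
      mem_closedBall_zero_iff.2 (hn x).2))
  obtain ⟨C, b1, b0⟩ := ((exists_bd (I := I) isCompact_univ fun a x _ => hA a x).and
    (eventually_ge_atTop 0)).exists
  have hu : ∀ x, TendstoUniformlyOnFilter f g 𝒰 (𝓝 x) := fun x =>
    Sw21.unif_loc F univ_mem (C := 1 + C * 1) ((hf.and (h 1 one_pos)).mono fun n hn z _ =>
      ⟨(hn.1 z).1.md, fun a => (norm_le_norm_sub_add _ _).trans (add_le_add (hn.2 a z)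
        (ContinuousLinearMap.le_of_opNorm_le_of_le _ (b1 a z trivial) (hn.1 z).2))⟩)
      fun z _ => hg z
  have hd : ∀ x, MDifferentiableAt I 𝓘(ℝ, N) g x ∧ ∀ a, F.D a g x = A a x (g x) := fun x => by
    refine Sw21.mdiff_loc F (l := 𝒰) (u := f) (g := fun a y => A a y (g y))
      ((hf.prod_inl _).mono fun p hp => (hp _).1.md) (Eventually.of_forall hg) fun a => ?_
    rw [Metric.tendstoUniformlyOnFilter_iff]
    intro ε hε
    obtain ⟨δ, p, -, e⟩ := exists_small hε (1 + C)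
    filter_upwards [(h δ p).prod_inl _, Metric.tendstoUniformlyOnFilter_iff.1 (hu x) δ p]
      with z h1 h2
    rw [dist_eq_norm] at h2 ⊢
    have := ContinuousLinearMap.le_of_opNorm_le_of_le _ (b1 a z.2 trivial) h2.le
    rw [map_sub] at this
    linarith [norm_sub_le_norm_sub_add_norm_sub (A a z.2 (g z.2)) (A a z.2 (f z.1 z.2))
      (F.D a (f z.1) z.2), norm_sub_rev (A a z.2 (f z.1 z.2)) (F.D a (f z.1) z.2), h1 a z.2]
  refine ⟨g, contMDiff_infty.2 fun n => contMDiff_of_class F.sm (span_coef F)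
    (fun _ u => ∃ L : M → N →L[ℝ] N, Sm I L ∧ u = fun x => L x (g x)) ?_ ?_ n g
    ⟨fun _ => 1, contMDiff_const, rfl⟩, fun a x => (hd x).2 a, hg⟩
  · rintro _ ⟨L, h1, rfl⟩
    exact h1.continuous.clm_apply (continuous_iff_continuousAt.2 fun x => (hd x).1.continuousAt)
  · rintro _ _ ⟨L, h1, rfl⟩
    refine ⟨fun x => (FSm.md (h1 x)).clm_apply (hd x).1, fun a =>
      ⟨fun x => F.D a L x + L x ∘L A a x, (F.sm_D h1 a).add (h1.clm_comp (hA a)), funext fun x => ?_⟩⟩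
    rw [dv_app (FSm.md (h1 x)) (hd x).1, ← Pre.D_def, ← Pre.D_def, (hd x).2]
    rfl

theorem nrm_ad {κ κ' : Type} [Fintype κ] [Fintype κ'] (u : CL (Eu κ) (Eu κ')) : ‖ad u‖ = ‖u‖ := by
  rw [ad_eq_adjoint]; exact ContinuousLinearMap.adjoint.norm_map u

theorem nrm_cc {U V W : Type} [NormedAddCommGroup U] [NormedSpace ℝ U] [NormedAddCommGroup V]
    [NormedSpace ℝ V] [NormedAddCommGroup W] [NormedSpace ℝ W] {a : V →L[ℝ] W} {b : U →L[ℝ] V}
    {x y : ℝ} (ha : ‖a‖ ≤ x) (hb : ‖b‖ ≤ y) : ‖a ∘L b‖ ≤ x * y :=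
  (a.opNorm_comp_le b).trans (mul_le_mul ha hb (norm_nonneg _) ((norm_nonneg _).trans ha))

/-- the quotient of two gauges in `C⁰` -/
theorem cl0_quot {c : Cfg M ι lam r} {c' : Cfg M ι lam r'} {c'' : Cfg M ι lam r''}
    {u : M → CL c.m.V c'.m.V} {u' : M → CL c.m.V c''.m.V} {ζ ζ' : Circle} {O : Set M} {ε ε' : ℝ}
    (H : Cl G.F c c' u (fun _ => ζ) O 0 ε) (H' : Cl G.F c c'' u' (fun _ => ζ') O 0 ε')
    (h0 : AdmOn c B G O) (h1 : AdmOn c' B G O) (h2 : AdmOn c'' B G O) :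
    Cl G.F c' c'' (fun x => u' x ∘L ad (u x)) (fun _ => ζ' / ζ) O 0 (ε' + ε) := by
  have ht : Iso0 I c'.m c''.m O fun x => u' x ∘L ad (u x) := (H.iso.symm h0.ok h1.ok).trans H'.iso
  refine ⟨H.op, ht, fun a x hx => ⟨fsm_dA (ht.su x hx) (h1.conn.sm a x hx) (h2.conn.sm a x hx), ?_⟩,
    fun x hx => ?_⟩
  · have n1 := norm_iso (ht.iso x hx)
    have n2 := (nrm_ad _).trans_le n1
    rw [dA, cov_quot H.iso H'.iso H.op h0 h1 hx, ← ad_trn, ContinuousLinearMap.add_comp]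
    refine norm_add_le_of_le ?_ ?_
    · simpa using nrm_cc (nrm_cc (H'.A a x hx).2 n1) n2
    · simpa using nrm_cc (nrm_cc n1 ((nrm_ad _).trans_le (H.A a x hx).2)) n2
  · have e : ∀ y ∈ O, _ := fun y hy => dP_quot h2.ok.Jsq H.iso H'.iso ht hy ζ ζ'
    refine ⟨((H'.P x hx).1.sub (Wz78.SA.clm (csB c''.m.J (ζ' / ζ : Circle))
      ((ht.su x hx).clm_apply (H.P x hx).1))).congr_of_eventuallyEq
      (Eventually.mono (H.op.mem_nhds hx) e), ?_⟩
    beta_reduce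
    rw [e x hx]
    refine norm_sub_le_of_le (H'.P x hx).2 ?_
    rw [csB_apply, Mp86.norm_cs h2.ok.Jsq h2.ok.Jsk, Circle.norm_coe, one_mul]
    simpa using ContinuousLinearMap.le_of_opNorm_le_of_le _ (norm_iso (ht.iso x hx)) (H.P x hx).2

end gen

variable {E3 : Type} [NormedAddCommGroup E3] [NormedSpace ℝ E3] [FiniteDimensional ℝ E3]
  [MeasurableSpace E3] [BorelSpace E3]
  {H3 : Type} [TopologicalSpace H3] {I3 : ModelWithCorners ℝ E3 H3} [I3.Boundaryless]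
  {Y : Type} [TopologicalSpace Y] [ChartedSpace H3 Y] [IsManifold I3 ∞ Y] [T2Space Y]
  [MeasurableSpace Y] [BorelSpace Y] [SecondCountableTopology Y] [CompactSpace Y]
  {κ : Type} [Fintype κ] {lam : Type} [Fintype lam] {D : YD I3 Y κ lam} {β β' : YC Y κ lam}

theorem tcc {α U V W : Type} [NormedAddCommGroup U] [NormedSpace ℝ U] [NormedAddCommGroup V]
    [NormedSpace ℝ V] [NormedAddCommGroup W] [NormedSpace ℝ W] {l : Filter α} {a : α → V →L[ℝ] W}
    {b : α → U →L[ℝ] V} {a₀ : V →L[ℝ] W} {b₀ : U →L[ℝ] V} (h1 : Tendsto a l (𝓝 a₀))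
    (h2 : Tendsto b l (𝓝 b₀)) : Tendsto (fun n => a n ∘L b n) l (𝓝 (a₀ ∘L b₀)) :=
  ((ContinuousLinearMap.compL ℝ U V W).continuous₂.tendsto (a₀, b₀)).comp (h1.prodMk_nhds h2)

theorem lim_ciso {α V W : Type} [NormedAddCommGroup V] [InnerProductSpace ℝ V]
    [FiniteDimensional ℝ V] [NormedAddCommGroup W] [InnerProductSpace ℝ W] [FiniteDimensional ℝ W]
    {l : Filter α} [l.NeBot] {a : α → V →L[ℝ] W} {a₀ : V →L[ℝ] W} {p : V →L[ℝ] V} {q : W →L[ℝ] W}
    (h : Tendsto a l (𝓝 a₀)) (k : ∀ n, CIso (a n) p q) : CIso a₀ p q :=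
  have ga := ((adL (V := V) (W := W)).continuous.tendsto _).comp h
  ⟨tendsto_nhds_unique (tcc ga h) (tendsto_const_nhds.congr fun n => (k n).src.symm),
    tendsto_nhds_unique (tcc h ga) (tendsto_const_nhds.congr fun n => (k n).tgt.symm),
    tendsto_nhds_unique (tcc h tendsto_const_nhds) (h.congr fun n => (k n).idem.symm)⟩

theorem lim_itw {α V W : Type} [NormedAddCommGroup V] [NormedSpace ℝ V] [NormedAddCommGroup W]
    [NormedSpace ℝ W] {l : Filter α} [l.NeBot] {a : α → V →L[ℝ] W} {a₀ : V →L[ℝ] W}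
    {p : V →L[ℝ] V} {q : W →L[ℝ] W} (h : Tendsto a l (𝓝 a₀)) (k : ∀ n, q ∘L a n = a n ∘L p) :
    q ∘L a₀ = a₀ ∘L p :=
  tendsto_nhds_unique (tcc tendsto_const_nhds h) ((tcc h tendsto_const_nhds).congr fun n =>
    (k n).symm)

/-- the commutator -/
def cmm {V W : Type} [NormedAddCommGroup V] [NormedSpace ℝ V] [NormedAddCommGroup W]
    [NormedSpace ℝ W] (p : V →L[ℝ] V) (q : W →L[ℝ] W) : (V →L[ℝ] W) →L[ℝ] V →L[ℝ] W :=
  (ContinuousLinearMap.compL ℝ V V W).flip p - ContinuousLinearMap.compL ℝ V W W q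

theorem cmm_eq {V W : Type} [NormedAddCommGroup V] [NormedSpace ℝ V] [NormedAddCommGroup W]
    [NormedSpace ℝ W] (p : V →L[ℝ] V) (q : W →L[ℝ] W) (T d : V →L[ℝ] W) :
    d - cmm p q T = d + q ∘L T - T ∘L p := by
  show d - (T ∘L p - q ∘L T) = _
  abel

/-- **rigidity in `C⁰`** -/
theorem rig0 (hβ : D.Adm β) (hβ' : D.Adm β') (h : ∀ ε > 0, ∃ (g : Y × ℝ → CL β.m.V β'.m.V)
    (ξ : Circle), Cl D.Z (cy β) (cy β') g (fun _ => ξ) (win Y 0 1) 0 ε) :
    ∃ g ξ, Stb D β β' g ξ := by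
  choose t ξ H using fun n : ℕ => h _ (Nat.one_div_pos_of_nat (n := n))
  have h0 : ∀ y : Y, (y, (0 : ℝ)) ∈ win Y 0 1 := fun y => ⟨trivial, by simp, by simp⟩
  have s1 : ∀ a, Sm I3 (β.W a) := fun a _ => sm_slice (t := 0) (hβ.adm.conn.cc.sm a _)
  have s2 : ∀ a, Sm I3 (β'.W a) := fun a _ => sm_slice (t := 0) (hβ'.adm.conn.cc.sm a _)
  have ac := (admOn_univ.2 hβ.adm).mono (subset_univ (win Y 0 1))
  obtain ⟨g, g1, g2, g3⟩ := par0 D.F.toPre (𝒰 := hyperfilter ℕ) (f := fun n y => t n (y, 0))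
    (A := fun a y => cmm (β.W (some a) y) (β'.W (some a) y))
    (fun a y => (Wz78.SA.clm _ (s1 _ y)).sub (Wz78.SA.clm _ (s2 _ y)))
    (Eventually.of_forall fun n y => ⟨sm_slice ((H n).iso.su _ (h0 y)),
      norm_iso ((H n).iso.iso _ (h0 y))⟩) fun ε hε => (ev_eta 0 hε).mono fun n hn a y => by
      have e := dA_u (G := D.G) (H n).iso (H n).op ac (h0 y) (some a)
      have e2 := nrm_cc ((H n).A (some a) _ (h0 y)).2 (norm_iso ((H n).iso.iso _ (h0 y)))
      rw [mul_one] at e2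
      refine le_trans (le_of_eq ?_) (e2.trans hn.2)
      refine congrArg norm (Eq.trans ?_ e.symm)
      rw [cmm_eq]
      exact congrArg (fun T : CL β.m.V β'.m.V => T + β'.W (some a) y ∘L t n (y, 0) -
        t n (y, 0) ∘L β.W (some a) y)
        (D_some_at D.F.toPre (x := (y, 0)) ((H n).iso.su _ (h0 y)).md a).symm
  obtain ⟨ξ0, -, hξ⟩ := isCompact_univ.ultrafilter_le_nhds ((hyperfilter ℕ).map ξ) (by simp)
  have hξ' : Tendsto (fun n => (ξ n : ℂ)) (hyperfilter ℕ) (𝓝 ξ0) :=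
    (continuous_subtype_val.tendsto _).comp hξ
  refine ⟨g, ξ0, ⟨fun x _ => sm_fst g1 x, fun x _ => lim_ciso (g3 x.1) fun n => (H n).iso.iso _ (h0 _),
    fun x _ => lim_itw (g3 x.1) fun n => (H n).iso.J _ (h0 _),
    fun x _ b => lim_itw (g3 x.1) fun n => (H n).iso.ρ _ (h0 _) b,
    fun x _ s => lim_itw (g3 x.1) fun n => (H n).iso.j _ (h0 _) s⟩, fun a x => ?_, fun y => ?_⟩
  · cases a with
    | none =>
      show D.Z.D none (fun x => g x.1) x + β'.W none x.1 ∘L g x.1 - g x.1 ∘L β.W none x.1 = 0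
      rw [hβ'.tmp, hβ.tmp, ContinuousLinearMap.zero_comp, ContinuousLinearMap.comp_zero, add_zero,
        sub_zero]
      exact congrFun (D_none_fst D.F.toPre g1) x
    | some a =>
      refine Eq.trans ?_ ((cmm_eq _ _ _ _).symm.trans (sub_eq_zero.2 (g2 a x.1)))
      exact congrArg (fun T : CL β.m.V β'.m.V => T + β'.W (some a) x.1 ∘L g x.1 -
        g x.1 ∘L β.W (some a) x.1) (congrFun (D_some_fst D.F.toPre g1 a) x)
  · have e1 : Tendsto (fun n => csB β'.m.J (ξ n) (t n (y, 0) (β.Φ y)) - β'.Φ y) (hyperfilter ℕ)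
        (𝓝 (csB β'.m.J ξ0 (g y (β.Φ y)) - β'.Φ y)) :=
      (((csB β'.m.J).continuous₂.tendsto (_, _)).comp (hξ'.prodMk_nhds
        (((ContinuousLinearMap.apply ℝ _ (β.Φ y)).continuous.tendsto _).comp (g3 y)))).sub_const _
    exact sub_eq_zero.1 (tendsto_nhds_unique e1 (tendsto_zero_iff_norm_tendsto_zero.2
      (tendsto_eta (fun _ => norm_nonneg _) fun n => ((H n).P _ (h0 y)).2)))

end Crest.Agent.X212.Nck90
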