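import Crest.Agent.X212.Nck90.End
import Crest.Agent.X212.Nka63.B
import Crest.Agent.X212.Dgr80.Fen

/-!
# X212, necks (helper90), part 9: transport to a neck, chains through broken trajectories
-/

set_option autoImplicit false
set_option linter.unusedSectionVars false
noncomputable section
open scoped Manifold ContDiff Topology InnerProductSpace
open MeasureTheory Set Function Filter

namespace Crest.Agent.X212.Nck90
open An Sob92 Cyf70 Neck67 Cmp73 Pj41 Eqv71 Tmp64 Nd18 Std94 Bki64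
open Nka63 (Dq O)

theorem ae_Dq (p q : Option ℝ) (R : ℝ) : Dq p q R =ᵐ[volume] Dp p q R := by
  filter_upwards [Measure.ae_ne volume (p.getD 0 + R), Measure.ae_ne volume (q.getD 0 - R)]
    with s h1 h2
  refine propext ⟨fun h => Nka63.Dq_sub_Dp h, fun h => Nka63.mem_Dq.2 ⟨fun a ha => ?_, fun a ha => ?_⟩⟩
  · rw [show p = some a from ha] at h1
    exact (h.1 a ha).lt_of_ne' h1
  · rw [show q = some a from ha] at h2
    exact (h.2 a ha).lt_of_ne h2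

theorem basis_Dp (e : Bool) : (eF e).HasBasis (fun _ => True)
    (Dp (bif e then none else some 0) (bif e then some 0 else none)) := by
  cases e
  · exact (atTop_basis (α := ℝ)).to_hasBasis (fun a _ => ⟨a, trivial, fun _ => by simp [Dp]⟩)
      fun a _ => ⟨a, trivial, fun _ => by simp [Dp]⟩
  · exact (atBot_basis (α := ℝ)).to_hasBasis (fun a _ => ⟨-a, trivial, fun _ => by simp [Dp]⟩)
      fun a _ => ⟨-a, trivial, fun _ => by simp [Dp]⟩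

variable {E3 : Type} [NormedAddCommGroup E3] [NormedSpace ℝ E3] [FiniteDimensional ℝ E3]
  [MeasurableSpace E3] [BorelSpace E3]
  {H3 : Type} [TopologicalSpace H3] {I3 : ModelWithCorners ℝ E3 H3} [I3.Boundaryless]
  {Y : Type} [TopologicalSpace Y] [ChartedSpace H3 Y] [IsManifold I3 ∞ Y] [T2Space Y]
  [MeasurableSpace Y] [BorelSpace Y] [SecondCountableTopology Y] [CompactSpace Y]
  {κ : Type} [Fintype κ] {lam : Type} [Fintype lam] {D : YD I3 Y κ lam} {β β' : YC Y κ lam}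
  {ζ ζ' : Circle} {N : ND Y lam} {q : YW I3 Y →₀ ℝ} {r : ℕ} {ν : Type} {𝒰 : Ultrafilter ν}

theorem Dec.mono {ρ : ν → ℕ} {c : ∀ n, Cfg (Y × ℝ) (Option κ) lam (ρ n)} {l : Filter ν}
    {J J' : ν → Set ℝ} (h : Dec N D l J c) (e : ∀ n, J' n ⊆ J n) : Dec N D l J' c := fun β hβ =>
  let ⟨d, p, C, p', h⟩ := h β hβ
  ⟨d, p, C, p', fun k B hB => (h k B hB).imp fun _ h => ⟨h.1, h.2.mono fun n h a b hab k =>
    h a b hab fun s hs => ⟨(k s hs).1.trans (e n), (k s hs).2⟩⟩⟩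

theorem Ch.en0 {𝒜 𝒜' : Pc Y κ lam} {x : ℝ} (h : Ch N D q 𝒜 𝒜' x 0) (hp : Pos N D q) (hl : LvC N D)
    (hc : Cs N D 𝒜) (a : 𝒜 β ζ) (a' : 𝒜' β' ζ') : cE N D β β' x = 0 := by
  obtain ⟨-, -, h1, h2⟩ := h.en hp hl hc a a'
  rcases h1 rfl with rfl | rfl
  · simp [cE, h2 rfl, hl.cs hc a a']
  · simp [cE, h2 rfl]

/-- **a chain through broken trajectories** -/
theorem TI.thru {qn : ν → YW I3 Y →₀ ℝ} (T : TI N D q 𝒰 qn) (hp : Pos N D q) (hl : LvC N D)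
    {𝒜 𝒜' : Pc Y κ lam} {b b' : ν → YC Y κ lam} {z z' : ν → Circle} {k : ν → ℝ} {j : ν → ℕ}
    {x x' C : ℝ} {i i' : ℕ} (c0 : Cs N D 𝒜) (c1 : Cs N D (Lc N D 𝒰 b z))
    (c2 : Cs N D (Lc N D 𝒰 b' z')) (c3 : Cs N D 𝒜') (h0 : Ch N D q 𝒜 (Lc N D 𝒰 b z) x i)
    (h1 : Ch N D q (Lc N D 𝒰 b' z') 𝒜' x' i') (h : ∀ n, N.Crit D (b n) ∧ N.Crit D (b' n) ∧
      N.Brk D (qn n) (b n) (z n) (b' n) (z' n) (k n) (j n) ∧ k n ≤ C) :
    ∃ β ζ β' ζ' y m δ, 𝒜 β ζ ∧ 𝒜' β' ζ' ∧ N.Brk D q β ζ β' ζ' (x + y + x') (i + m + i') ∧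
      Tendsto k 𝒰 (𝓝 y) ∧ (∀ᶠ n in 𝒰, (j n = 0 ↔ m = 0)) ∧
      Tendsto (fun n => cE N D (b n) (b' n) (k n)) 𝒰 (𝓝 (cE N D β β' (x + y + x') - δ)) ∧
      (i = 0 → i' = 0 → δ = 0) ∧ (i ≠ 0 ∨ i' ≠ 0 → 0 < δ) := by
  obtain ⟨β₁, ζ₁, a1⟩ := c1.ne
  obtain ⟨β₂, ζ₂, a2⟩ := c2.ne
  have e : ∀ᶠ n in 𝒰, cE N D β₁ β₂ (k n) = cE N D (b n) (b' n) (k n) :=
    ((hl.lc (.of_forall fun n => (h n).1) a1).and (hl.lc (.of_forall fun n => (h n).2.1) a2)).mono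
      fun n e => by rw [cE, cE, e.1, e.2]
  obtain ⟨y, m, h2, h3, h4⟩ := T.lim (E := cE N D β₁ β₂ C) (e.mono fun n e =>
    ⟨(h n).1, (h n).2.2.1, e ▸ add_le_add_left (h n).2.2.2 _⟩) c1
  obtain ⟨β, ζ, β', ζ', a, a', h5⟩ := ((h0.trans h2 c1.ne).trans h1 c2.ne).brk c0.ne c3.ne
  have k0 := h0.en hp hl c0 a a1
  have k1 := h1.en hp hl c2 a2 a'
  refine ⟨β, ζ, β', ζ', y, m, cE N D β β₁ x + cE N D β₂ β' x', a, a', h5, h3, h4, ?_, ?_,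
    fun e => e.elim (fun e => add_pos_of_pos_of_nonneg (k0.2.1 e) k1.1)
      fun e => add_pos_of_nonneg_of_pos k0.1 (k1.2.1 e)⟩
  · rw [cE_add (β' := β₂), cE_add (β' := β₁), show ∀ a b c : ℝ, a + b + c - (a + c) = b from
      fun _ _ _ => by ring]
    exact (h3.add_const _).congr' e
  · rintro rfl rfl
    rw [h0.en0 hp hl c0 a a1, h1.en0 hp hl c2 a2 a', add_zero]

/-! ### a neck -/

variable {E : Type} [NormedAddCommGroup E] [NormedSpace ℝ E] [FiniteDimensional ℝ E]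
  [MeasurableSpace E] [BorelSpace E]
  {HM : Type} [TopologicalSpace HM] {I : ModelWithCorners ℝ E HM} [I.Boundaryless]
  {M : Type} [TopologicalSpace M] [ChartedSpace HM M] [IsManifold I ∞ M]
  [MeasurableSpace M] [BorelSpace M] [T2Space M] [SecondCountableTopology M]
  {B : Base M (Option κ) lam} {G : Geo I M (Option κ) lam} (K : Nk D B G)
  {c : Cfg M (Option κ) lam r}

theorem adm_pb (hc : c.Adm B G) : AdmOn (K.pb c) D.B D.G (univ ×ˢ K.J) :=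
  K.src ▸ (nk_gRel K).admOn_iff.2 ((admOn_univ.2 hc).mono (subset_univ _))

theorem int_pb {S : Set ℝ} (hS : MeasurableSet S) (e : S ⊆ K.J) {f : M → ℝ} {g : Y × ℝ → ℝ}
    (h : ∀ z, z.2 ∈ S → g z = f (K.ψ z)) :
    (IntegrableOn g (univ ×ˢ S) D.Z.μ ↔ IntegrableOn f (K.tm ⁻¹' S) G.F.μ) ∧
      ∫ z in univ ×ˢ S, g z ∂D.Z.μ = ∫ x in K.tm ⁻¹' S, f x ∂G.F.μ := by
  have m0 := K.ψ.open_source.measurableSet
  have m1 : MeasurableSet (K.tm ⁻¹' S) := K.cont.measurable hS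
  have m2 : MeasurableSet (univ ×ˢ S : Set (Y × ℝ)) := .prod .univ hS
  have s1 : K.tm ⁻¹' S ⊆ K.ψ.target := K.tgt ▸ preimage_mono e
  have s2 : univ ×ˢ S ⊆ K.ψ.source := K.src ▸ prod_mono_right e
  have k : EqOn (fun z => (K.tm ⁻¹' S).indicator f (K.ψ z)) ((univ ×ˢ S).indicator g) K.ψ.source :=
    fun z hz => by
      by_cases m : z.2 ∈ S
      · rw [indicator_of_mem (show z ∈ univ ×ˢ S from ⟨trivial, m⟩), h z m]
        exact indicator_of_mem (by rwa [mem_preimage, K.tm_ψ z hz]) _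
      · rw [indicator_of_notMem (show z ∉ univ ×ˢ S from fun e => m e.2)]
        exact indicator_of_notMem (by rwa [mem_preimage, K.tm_ψ z hz]) _
  have a := Nka63.integrableOn_comp_iff K.iso (g := (K.tm ⁻¹' S).indicator f)
  have b := Nka63.setIntegral_comp K.iso ((K.tm ⁻¹' S).indicator f)
  rw [integrableOn_congr_fun k m0, integrableOn_indicator_iff m1, integrableOn_indicator_iff m2,
    inter_eq_left.2 s1, inter_eq_left.2 s2] at a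
  rw [setIntegral_congr_fun m0 k, setIntegral_indicator m1, setIntegral_indicator m2,
    inter_eq_right.2 s1, inter_eq_right.2 s2] at b
  exact ⟨a, b⟩

theorem kd_O {R : ℝ} (hR : 0 ≤ R) :
    (IntegrableOn (kZ D (K.pb c)) (univ ×ˢ Dp K.p K.q R) D.Z.μ ↔
      IntegrableOn (c.m.kd B G.F c.W) (O K R) G.F.μ) ∧
    ∫ z in univ ×ˢ Dp K.p K.q R, kZ D (K.pb c) z ∂D.Z.μ = ∫ x in O K R, c.m.kd B G.F c.W x ∂G.F.μ := by
  have e : (univ ×ˢ Dp K.p K.q R : Set (Y × ℝ)) =ᵐ[D.Z.μ] (univ ×ˢ Dq K.p K.q R : Set (Y × ℝ)) :=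
    Measure.set_prod_ae_eq (μ := D.F.μ) .rfl (ae_Dq _ _ _).symm
  rw [integrableOn_congr_set_ae e, setIntegral_congr_set e]
  exact int_pb K Nka63.isOpen_Dq.measurableSet (Nka63.Dq_sub hR) fun z hz =>
    Dgr80.kd_pb K (K.mem_src.2 (Nka63.Dq_sub hR hz))

theorem en_dp {C d : ℝ} (hd : 4 ≤ d)
    (h : Dgr80.LB G.F.μ (fun z => K.cut 3 (K.τ z) * Dgr80.en G.F c K.τ z) C) :
    IntegrableOn (eZ D (K.pb c)) (univ ×ˢ Dp K.p K.q d) D.Z.μ ∧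
      ∫ x in univ ×ˢ Dp K.p K.q d, eZ D (K.pb c) x ∂D.Z.μ ≤ C := by
  obtain ⟨a, b⟩ := int_pb K (isClosed_Dp (d := d)).measurableSet (Dp_sub (by linarith))
    (f := fun z => K.cut 3 (K.τ z) * Dgr80.en G.F c K.τ z) (g := eZ D (K.pb c)) fun z hz => by
      have o : K.ψ z ∈ O K 1 := Nka63.ψ_mem_O K zero_le_one (Nka63.Dp_sub_Dq (by linarith) hz)
      have s := K.mem_src.2 (Dp_sub (by linarith) hz)
      rw [Nka63.cut_τ_one K (by norm_num) (show K.tm (K.ψ z) ∈ Dp _ _ _ from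
        K.tm_ψ z s ▸ Dp_mono (by linarith) hz), one_mul]
      exact Dgr80.en_pb K s o
  exact ⟨a.2 h.1.integrableOn, b.trans_le ((setIntegral_le_integral h.1 (.of_forall fun z =>
    mul_nonneg ct_mem.1 (Dgr80.en_nonneg _ _ _ _))).trans h.2)⟩

variable {K} in
/-- the end `e` of the limit -/
theorem EL.nk {ρ : ν → ℕ} {c' : ∀ n, Cfg (Y × ℝ) (Option κ) lam (ρ n)} {𝒜 : Pc Y κ lam} {a : ν → ℝ}
    {e : Bool} (h : EL D 𝒰 c' 𝒜 a (eF e)) (hp : K.p = bif e then none else some 0)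
    (hq : K.q = bif e then some 0 else none) (hc : c.Adm B G) {S : Set M}
    (hv : ∃ v, CvC D.Z 𝒰 (fun n => sh (a n) (c' n)) (K.pb c) v (univ ×ˢ K.J \ K.ψ ⁻¹' S) ∧
      ∀ z ∈ univ ×ˢ Dp K.p K.q 3 ∩ K.ψ ⁻¹' S, ∃ ε > 0, ∀ L ∈ 𝓝 z, IsCompact L →
        L ⊆ univ ×ˢ Dp K.p K.q 2 → ∀ᶠ n in 𝒰, ε ≤ ∫ x in L, eZ D (sh (a n) (c' n)) x ∂D.Z.μ) :
    (∃ R, IntegrableOn (c.m.kd B G.F c.W) (O K R) G.F.μ ∧ Disjoint S (O K R)) ∧
      ∀ β ζ, 𝒜 β ζ → K.Lim c β ζ (eF e) := by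
  obtain ⟨v, h1, h2⟩ := hv
  obtain ⟨⟨R, p, h3, h4⟩, h5⟩ := h _ _ v _ K.p K.q (hp ▸ hq ▸ basis_Dp e) (adm_pb K hc) h1 h2
  refine ⟨⟨R, (kd_O K p.le).1.1 h4, disjoint_left.2 fun x a1 a2 => ?_⟩, h5⟩
  have t := Nka63.O_sub K p.le a2
  exact disjoint_left.1 h3 (show K.ψ.symm x ∈ K.ψ ⁻¹' S by rwa [mem_preimage, K.ψ.right_inv t])
    ⟨trivial, K.snd_symm t ▸ Nka63.Dq_sub_Dp a2⟩

end Crest.Agent.X212.Nck90
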