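import Crest.Agent.X212.Nck90.In

/-!
# X212, necks (helper90), part 3: the centres and the critical points of the gaps
-/

set_option autoImplicit false
set_option linter.unusedSectionVars false
noncomputable section
open scoped Manifold ContDiff Topology InnerProductSpace
open MeasureTheory Set Function Filter

namespace Crest.Agent.X212.Nck90
open An Sob92 Cyf70 Neck67 Cmp73 Pj41 Eqv71 Tmp64 Nd18 Std94 Bki64
open Brk64 (eI Gd wI)

theorem gap_ne {ν : Type*} {A : Brk64.Nk ν} {𝒰 : Ultrafilter ν} {w : ν → ℝ → ℝ} {k : ℕ}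
    {t : Fin k → ν → ℝ} (h : A.Cen 𝒰 w k t) (hne : ∀ R, ∀ᶠ n in 𝒰, (A.J R n).Nonempty)
    (g : Fin (k + 1)) (R : ℝ) : ∀ᶠ n in 𝒰, (A.Gap t g R n).Nonempty := by
  rcases k with _ | k
  · exact (hne R).mono fun n ⟨s, hs⟩ => ⟨s, hs, fun i => i.elim0⟩
  refine Fin.cases ((h.mem_left 0 (le_refl R)).mono fun n hn => ⟨_, hn⟩)
    (fun i => (h.mem_right i (le_refl R)).mono fun n hn => ⟨_, hn⟩) g

theorem far_of_gap {ν : Type*} {A : Brk64.Nk ν} {k : ℕ} {t : Fin k → ν → ℝ} {g : Fin (k + 1)}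
    {R s : ℝ} {n : ν} (h : s ∈ A.Gap t g R n) (i : Fin k) : R ≤ |s - t i n| := by
  rcases lt_or_ge i.castSucc g with e | e
  · linarith [(h.2 i).1 e, le_abs_self (s - t i n)]
  · linarith [(h.2 i).2 e, neg_abs_le (s - t i n)]

variable {E3 : Type} [NormedAddCommGroup E3] [NormedSpace ℝ E3] [FiniteDimensional ℝ E3]
  [MeasurableSpace E3] [BorelSpace E3]
  {H3 : Type} [TopologicalSpace H3] {I3 : ModelWithCorners ℝ E3 H3} [I3.Boundaryless]
  {Y : Type} [TopologicalSpace Y] [ChartedSpace H3 Y] [IsManifold I3 ∞ Y] [T2Space Y]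
  [MeasurableSpace Y] [BorelSpace Y] [SecondCountableTopology Y] [CompactSpace Y]
  {κ : Type} [Fintype κ] {lam : Type} [Fintype lam] {D : YD I3 Y κ lam} {β β' : YC Y κ lam}
  {N : ND Y lam} {q : YW I3 Y →₀ ℝ} {r : ℕ}
  {ν : Type} {𝒰 : Ultrafilter ν} {A : Brk64.Nk ν} {ρ : ν → ℕ}
  {c : ∀ n, Cfg (Y × ℝ) (Option κ) lam (ρ n)}

/-- the energy of the middle of a long piece -/
theorem Dc.int_le {c : Cfg (Y × ℝ) (Option κ) lam r} {s R L d C B : ℝ} {k : ℕ}
    (h : Dc D c β (s - R) (s + R) d C k B) (hd : 0 < d) (hC : 0 < C) (hL : |L| ≤ R) :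
    ∫ x in win Y s L, eZ D c x ∂D.Z.μ ≤
      Real.exp (-(d * (R - |L|))) * (C * (D.F.μ.real univ * (2 * |L|))) := by
  rw [← mul_assoc, mul_comm _ C]
  refine Bki64.int_le (s := s) (abs_nonneg L) (by positivity)
    ((win_sub (by simpa using le_abs_self L)).trans (win_cw _ _)) fun x hx => ?_
  have a1 := hx.2.1
  have a2 := hx.2.2
  have a3 := le_abs_self L
  rw [abs_of_nonneg (Dgr80.en_nonneg _ _ _ _)]
  refine (h.den x ⟨by linarith, by linarith⟩).1.trans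
    (mul_le_mul_of_nonneg_left (Real.exp_le_exp.2 ?_) hC.le)
  rw [neg_mul, neg_le_neg_iff]
  exact mul_le_mul_of_nonneg_left (le_min (by linarith) (by linarith)) hd.le

namespace NI
variable (H : NI N D q 𝒰 A c)
include H

/-- **the quantum of energy** -/
theorem quant : ∃ ε₁ > 0, ∀ s, A.Deep 𝒰 s → ∀ ε > 0, ∀ L,
    (∀ᶠ n in 𝒰, ε ≤ ∫ x in win Y (s n) L, eZ D (c n) x ∂D.Z.μ) → ∃ R, 0 ≤ R ∧
      ∀ᶠ n in 𝒰, ε₁ ≤ eI D.Z.μ Prod.snd (eZ D (c n)) (Ioc (s n - R) (s n + R)) := by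
  by_contra hc
  push Not at hc
  choose s h1 ε h2 L h3 h4 using fun m : ℕ => hc _ (Nat.one_div_pos_of_nat (n := m))
  have := curry_ne (atTop : Filter ℝ) (𝒰 : Filter ν)
  have := curry_ne (atTop : Filter ℕ) ((atTop : Filter ℝ).curry (𝒰 : Filter ν))
  have ev : ∀ {P : ℕ × ℝ × ν → Prop}, (∀ᶠ m in atTop, ∀ᶠ R in atTop, ∀ᶠ n in 𝒰, P (m, R, n)) →
      ∀ᶠ a in (atTop : Filter ℕ).curry ((atTop : Filter ℝ).curry (𝒰 : Filter ν)), P a := fun h => h
  obtain ⟨E, hE⟩ := H.en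
  obtain ⟨β, b1, b2⟩ := H.drift' (l := (atTop : Filter ℕ).curry ((atTop : Filter ℝ).curry 𝒰))
    (e := fun a => a.2.2) (T := fun a => Icc (s a.1 a.2.2 - a.2.1) (s a.1 a.2.2 + a.2.1))
    (fun U hU => ev (.of_forall fun _ => .of_forall fun _ => hU))
    (ev (.of_forall fun m => (eventually_ge_atTop 0).mono fun R h => .of_forall fun n =>
      ⟨nonempty_Icc.2 (by linarith), ordConnected_Icc⟩))
    (fun R' => ev (.of_forall fun m => .of_forall fun R => (h1 m (R' + R)).mono fun n h =>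
      A.icc_sub h)) fun L' ε' hε => ev ((tendsto_one_div_add_atTop_nhds_zero_nat.eventually
        (ge_mem_nhds hε)).mono fun m hm => (eventually_ge_atTop 0).mono fun R h => by
      have a0 := abs_nonneg L'
      have a1 := le_abs_self L'
      filter_upwards [h4 m (R + |L'|) (by linarith), hE,
        h1 m (0 + (R + |L'|))] with n a2 a3 a4 x hx
      refine le_trans ?_ (a2.le.trans hm)
      rw [eI, snd_pre]
      refine setIntegral_mono_set (a3.1.mono_set (prod_mono_right (Ioc_subset_Icc_self.trans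
        (A.icc_sub a4)))) (Eventually.of_forall (Dgr80.en_nonneg _ _ _))
        (LE.le.eventuallyLE fun y hy => ⟨trivial, ?_, ?_⟩)
      · linarith [hy.2.1, hx.1]
      · linarith [hy.2.2, hx.2])
  obtain ⟨d, p1, C, p2, k1⟩ := H.dec β b1
  obtain ⟨η, p3, k2⟩ := k1 0 1 one_pos
  refine (b2 η p3) (ev (.of_forall fun m => ?_))
  filter_upwards [((tendsto_atTop_add_const_right _ (-|L m|) tendsto_id).const_mul_atTop p1).eventually
    (Brk64.ev_exp (h2 m) (C * (D.F.μ.real univ * (2 * |L m|)))), eventually_ge_atTop |L m|]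
    with R a1 a2
  filter_upwards [k2, h3 m] with n a3 a4 a5
  have := (a3 _ _ (by linarith [abs_nonneg (L m)]) a5).int_le p1 p2 a2
  simp only [id, ← sub_eq_add_neg] at a1
  linarith

/-- the centres and the critical points of the gaps -/
theorem exists_cen : ∃ (w : ν → ℝ → ℝ) (k : ℕ) (t : Fin k → ν → ℝ)
    (b : Fin (k + 1) → YC Y κ lam), A.Cen 𝒰 w k t ∧ (∀ g, N.Crit D (b g)) ∧
      A.Chain 𝒰 (fun n s β η => Nr D (c n) (A.J 0 n) s β η) t b ∧ ∀ i, ∃ ε > 0, ∃ L,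
        ∀ᶠ n in 𝒰, ε ≤ ∫ x in win Y (t i n) L, eZ D (c n) x ∂D.Z.μ := by
  classical
  obtain ⟨E, hE'⟩ := H.en
  have hτ : Measurable (Prod.snd : Y × ℝ → ℝ) := measurable_snd
  have hf : ∀ᶠ n in 𝒰, Gd D.Z.μ Prod.snd (eZ D (c n)) (A.J 0 n) E := hE'.mono fun n hn =>
    ⟨Dgr80.en_nonneg _ _ _, by rw [snd_pre]; exact hn.1, by rw [eI, snd_pre]; exact hn.2⟩
  have hE : 0 ≤ E := hf.exists.choose_spec.nonneg
  let w : ν → ℝ → ℝ := fun n => wI D.Z.μ Prod.snd
    (if Gd D.Z.μ Prod.snd (eZ D (c n)) (A.J 0 n) E then eZ D (c n) else 0) (A.J 0 n)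
  have hw : ∀ᶠ n in 𝒰, Gd D.Z.μ Prod.snd (eZ D (c n)) (A.J 0 n) E ∧
      w n = wI D.Z.μ Prod.snd (eZ D (c n)) (A.J 0 n) :=
    hf.mono fun n hn => ⟨hn, by simp only [w, if_pos hn]⟩
  have hsel : A.Sel 𝒰 w := Or.inr fun n ε hε => by
    refine Gd.cpt (E := E) ?_ hτ (A.cl 0 n) hε
    split_ifs with h
    exacts [h, Gd.zero hE]
  have sub : ∀ {n s R}, s ∈ A.J (0 + R) n → Ioo (s - R) (s + R) ⊆ A.J 0 n := fun h =>
    Ioo_subset_Icc_self.trans (A.icc_sub h)
  have car : ∀ s, A.Deep 𝒰 s → Brk64.Carry 𝒰 w s → ∃ ε > 0,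
      ∃ L, ∀ᶠ n in 𝒰, ε ≤ ∫ x in win Y (s n) L, eZ D (c n) x ∂D.Z.μ := fun s hs ⟨ε, hε, h⟩ => by
    obtain ⟨L, hL⟩ := (Brk64.ev_exp (half_pos hε) E).exists
    refine ⟨_, half_pos hε, L, ?_⟩
    filter_upwards [h, hw, hs (0 + L)] with n a1 a2 a3
    rw [a2.2] at a1
    have := a2.1.w_le hτ measurableSet_Ioo (sub a3) Subset.rfl
    rw [eI, snd_pre] at this
    linarith
  obtain ⟨ε₁, p1, h1⟩ := H.quant
  obtain ⟨k, t, -, h2⟩ := A.exists_cen (en := fun n s t => eI D.Z.μ Prod.snd (eZ D (c n)) (Ioc s t))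
    hE p1 (hf.mono fun n hn => ⟨fun s t t' u hs hu h2 h3 h4 => by
      have h5 := Ioc_subset_Icc_self.trans ((A.oc 0 n).out hs hu)
      have h6 : Ioc s t ⊆ Ioc s u := Ioc_subset_Ioc_right (h3.trans h4)
      have h7 : Ioc t' u ⊆ Ioc s u := Ioc_subset_Ioc_left (h2.trans h3)
      refine le_trans (le_of_eq ?_) (hn.e_mono (union_subset h6 h7) h5)
      simp only [eI, preimage_union]
      exact (setIntegral_union ((Ioc_disjoint_Ioc_of_le h3).preimage _) (hτ measurableSet_Ioc)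
        (hn.int.mono_set (preimage_mono (h6.trans h5)))
        (hn.int.mono_set (preimage_mono (h7.trans h5)))).symm, fun s t hs ht _ =>
      ⟨hn.e_nn, (hn.e_mono (Ioc_subset_Icc_self.trans ((A.oc 0 n).out hs ht)) Subset.rfl).trans
        hn.le⟩⟩) hsel fun s hs hc => let ⟨ε, hε, L, h⟩ := car s hs hc; h1 s hs ε hε L h
  have := curry_ne (atTop : Filter ℝ) (𝒰 : Filter ν)
  have ev : ∀ {P : ℝ × ν → Prop}, (∀ᶠ R in atTop, ∀ᶠ n in 𝒰, P (R, n)) →
      ∀ᶠ a in (atTop : Filter ℝ).curry (𝒰 : Filter ν), P a := fun h => h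
  have key : ∀ g, ∃ β, N.Crit D β ∧ ∀ η > 0, ∃ᶠ a in (atTop : Filter ℝ).curry (𝒰 : Filter ν),
      ∀ s ∈ A.Gap t g a.1 a.2, Nr D (c a.2) (A.J 0 a.2) s β η := fun g => by
    refine H.drift' (e := Prod.snd) (T := fun a => A.Gap t g a.1 a.2)
      (tendsto_snd.mono_left curry_le_prod)
      (ev (.of_forall fun R => (gap_ne h2 H.ne g R).mono fun n h => ⟨h, A.gap_oc _ _ _ _⟩))
      (fun R' => ev ((eventually_ge_atTop R').mono fun R h => .of_forall fun n s hs =>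
        A.anti h n hs.1)) fun L ε hε => ?_
    obtain ⟨R₀, h3⟩ := h2.gap _ (mul_pos (Real.exp_pos (-L)) hε)
    refine ev (((eventually_ge_atTop R₀).and (eventually_ge_atTop (0 + L))).mono fun R h => ?_)
    filter_upwards [h3, hw] with n a1 a2 s hs
    have a3 := a1 s (A.anti h.1 n hs.1) fun i => h.1.trans (far_of_gap hs i)
    rw [a2.2] at a3
    have := lt_of_mul_lt_mul_left ((a2.1.le_w hτ (sub (A.anti h.2 n hs.1))).trans_lt a3)
      (Real.exp_pos _).le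
    rw [eI, snd_pre] at this
    exact this.le
  choose b h3 h4 using key
  refine ⟨w, k, t, b, h2, h3, fun η hη => ?_, fun i => car _ (h2.deep i) (h2.carry i)⟩
  choose R h5 using fun g => ((frequently_curry_iff _).1 (h4 g η hη)).exists
  obtain ⟨R', a1, a2⟩ := ((eventually_ge_atTop 0).and (eventually_all.2 fun g =>
    eventually_ge_atTop (R g))).exists
  exact ⟨R', a1, eventually_all.2 fun g => (Ultrafilter.frequently_iff_eventually.1 (h5 g)).mono
    fun n h s hs => h s (A.gap_anti _ _ (a2 g) n hs)⟩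

end NI

end Crest.Agent.X212.Nck90
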