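import Crest.Agent.X212.Nck90.Out

/-!
# X212, necks (helper90), part 6: compactness of broken trajectories
-/

set_option autoImplicit false
set_option linter.unusedSectionVars false
noncomputable section
open scoped Manifold ContDiff Topology InnerProductSpace
open MeasureTheory Set Function Filter

namespace Crest.Agent.X212.Nck90
open An Sob92 Cyf70 Neck67 Cmp73 Pj41 Eqv71 Tmp64 Nd18 Std94 Bki64

theorem nat_ult {ν : Type*} (𝒰 : Ultrafilter ν) (j : ν → ℕ) :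
    (∃ j₀, ∀ᶠ n in 𝒰, j n = j₀) ∨ Tendsto j 𝒰 atTop := by
  refine or_iff_not_imp_left.2 fun h => tendsto_atTop.2 fun m => ?_
  exact ((eventually_all_finset (Finset.range m)).2 fun i _ =>
    Ultrafilter.eventually_not.2 fun e => h ⟨i, e⟩).mono fun n hn =>
      not_lt.1 fun e => hn _ (Finset.mem_range.2 e) rfl

variable {E3 : Type} [NormedAddCommGroup E3] [NormedSpace ℝ E3] [FiniteDimensional ℝ E3]
  [MeasurableSpace E3] [BorelSpace E3]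
  {H3 : Type} [TopologicalSpace H3] {I3 : ModelWithCorners ℝ E3 H3} [I3.Boundaryless]
  {Y : Type} [TopologicalSpace Y] [ChartedSpace H3 Y] [IsManifold I3 ∞ Y] [T2Space Y]
  [MeasurableSpace Y] [BorelSpace Y] [SecondCountableTopology Y] [CompactSpace Y]
  {κ : Type} [Fintype κ] {lam : Type} [Fintype lam] {D : YD I3 Y κ lam} {β β' β'' : YC Y κ lam}
  {ζ ζ' ζ'' : Circle} {N : ND Y lam} {q : YW I3 Y →₀ ℝ} {r : ℕ} {ν : Type} {𝒰 : Ultrafilter ν}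

/-- the energy of trajectories -/
def Pos (N : ND Y lam) (D : YD I3 Y κ lam) (q : YW I3 Y →₀ ℝ) : Prop :=
  ∀ c β β' ζ ζ', N.Crit D β → N.Crit D β' → N.Traj D q c β β' ζ ζ' → Integrable (eZ D c) D.Z.μ ∧
    ∫ x, eZ D c x ∂D.Z.μ ≤ 16 * Real.pi ^ 2 * N.tE D c β β' ∧ (D.Moves c → 0 < N.tE D c β β')

/-- the functional is locally constant on the critical set -/
def LvC (N : ND Y lam) (D : YD I3 Y κ lam) : Prop :=
  ∀ β, N.Crit D β → ∃ η > 0, ∀ β' g ζ, N.Crit D β' → Cn D (cy β') β g ζ (win Y 0 7) η →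
    N.lv D β' = N.lv D β

/-- the energy of a chain of level `x` -/
def cE (N : ND Y lam) (D : YD I3 Y κ lam) (β β' : YC Y κ lam) (x : ℝ) : ℝ :=
  x + (N.lv D β - N.lv D β') / (8 * Real.pi ^ 2)

theorem cE_add (x y : ℝ) : cE N D β β'' (x + y) = cE N D β β' x + cE N D β' β'' y := by
  simp only [cE]; ring

theorem cE_self (x : ℝ) : cE N D β β x = x := by simp [cE]

theorem LvC.lc (h : LvC N D) {l : Filter ν} {b : ν → YC Y κ lam} {z : ν → Circle}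
    (hb : ∀ᶠ n in l, N.Crit D (b n)) (h' : Lc N D l b z β ζ) :
    ∀ᶠ n in l, N.lv D (b n) = N.lv D β :=
  let ⟨η, h0, h1⟩ := h β h'.1
  (hb.and (h'.2 η h0)).mono fun _ ⟨a, g, b⟩ => h1 _ g _ a b

theorem LvC.cs (h : LvC N D) {𝒜 : Pc Y κ lam} (hc : Cs N D 𝒜) (a : 𝒜 β ζ) (a' : 𝒜 β' ζ') :
    N.lv D β = N.lv D β' :=
  let ⟨η, h0, h1⟩ := h β' (hc.crit a')
  let ⟨_, hg⟩ := hc.stb a a'
  h1 _ _ _ (hc.crit a) (hg.cl (win_op _ _) h0.le)

section one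
variable {x : ℝ} {j : ℕ}

theorem brk_zero (h : N.Brk D q β ζ β' ζ' x 0) : β = β' ∧ ζ = ζ' ∧ x = 0 := by
  generalize e : 0 = j at h
  cases h with
  | nil => exact ⟨rfl, rfl, rfl⟩
  | bub => omega
  | mov => omega

theorem brk_succ (h : N.Brk D q β ζ β'' ζ'' x (j + 1)) :
    (∃ y, x = y + 1 ∧ N.Brk D q β ζ β'' ζ'' y j) ∨ ∃ c β' ζ' y, N.Traj D q c β β' ζ ζ' ∧
      D.Moves c ∧ N.Crit D β' ∧ N.Brk D q β' ζ' β'' ζ'' y j ∧ x = c.kap D.B D.G + y := by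
  generalize e : j + 1 = i at h
  cases h with
  | nil => omega
  | bub h => obtain rfl := Nat.succ.inj e; exact .inl ⟨_, rfl, h⟩
  | mov c h1 h2 h3 h => obtain rfl := Nat.succ.inj e; exact .inr ⟨c, _, _, _, h1, h2, h3, h, rfl⟩

/-- every step costs energy -/
theorem brk_min (h : N.Brk D q β ζ β' ζ' x j) (hβ : N.Crit D β) {ε : ℝ} (h1 : ε ≤ 1)
    (h2 : ∀ c β β' ζ ζ', N.Crit D β → N.Crit D β' → N.Traj D q c β β' ζ ζ' → D.Moves c →
      ε ≤ N.tE D c β β') : ε * j ≤ cE N D β β' x := by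
  induction h with
  | nil => simp [cE]
  | bub _ ih => have := ih hβ; simp only [cE] at this ⊢; push_cast; linarith
  | mov c a1 a2 a3 _ ih =>
    rw [cE_add, Nat.cast_succ, mul_add, mul_one, add_comm]
    exact add_le_add (h2 c _ _ _ _ hβ a3 a1 a2) (ih a3)

theorem brk_nn (hp : Pos N D q) (h : N.Brk D q β ζ β' ζ' x j) (hβ : N.Crit D β) :
    0 ≤ cE N D β β' x := by
  simpa using brk_min h hβ zero_le_one fun c _ _ _ _ a1 a2 a3 a4 =>
    ((hp c _ _ _ _ a1 a2 a3).2.2 a4).le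

theorem brk_pos (hp : Pos N D q) (h : N.Brk D q β ζ β' ζ' x j) (hβ : N.Crit D β) (hj : j ≠ 0) :
    0 < cE N D β β' x := by
  obtain ⟨j, rfl⟩ := Nat.exists_eq_succ_of_ne_zero hj
  rcases brk_succ h with ⟨y, rfl, h'⟩ | ⟨c, β₁, ζ₁, y, a1, a2, a3, h', rfl⟩
  · have := brk_nn hp h' hβ
    simp only [cE] at this ⊢; linarith
  · rw [cE_add (β' := β₁)]
    exact add_pos_of_pos_of_nonneg ((hp c _ _ _ _ hβ a3 a1).2.2 a2) (brk_nn hp h' a3)

/-- the energy of a chain between classes -/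
theorem Ch.en {𝒜 𝒜' : Pc Y κ lam} (h : Ch N D q 𝒜 𝒜' x j) (hp : Pos N D q) (hl : LvC N D)
    (hc : Cs N D 𝒜) (a : 𝒜 β ζ) (a' : 𝒜' β' ζ') :
    0 ≤ cE N D β β' x ∧ (j ≠ 0 → 0 < cE N D β β' x) ∧ (j = 0 → 𝒜 = 𝒜' ∨ β = β') ∧
      (j = 0 → x = 0) := by
  rcases h with h | ⟨rfl, h⟩
  · exact ⟨brk_nn hp (h _ _ _ _ a a') (hc.crit a), brk_pos hp (h _ _ _ _ a a') (hc.crit a),
      by rintro rfl; exact .inr (brk_zero (h _ _ _ _ a a')).1,
      by rintro rfl; exact (brk_zero (h _ _ _ _ a a')).2.2⟩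
  · have e : cE N D β β' x = cE N D β β x := by rw [cE, cE, ← hl.cs hc a a']
    rw [e]
    exact ⟨brk_nn hp (h _ ζ) (hc.crit a), brk_pos hp (h _ ζ) (hc.crit a), fun _ => .inl rfl,
      by rintro rfl; exact (brk_zero (h β ζ)).2.2⟩

end one

/-! ### families of trajectories -/

section line
variable {c : ν → Cfg (Y × ℝ) (Option κ) lam 0}
  (o : NO N D q 𝒰 (Brk64.Nk.line ν) (ρ := fun _ => 0) c)
  (H : NI N D q 𝒰 (Brk64.Nk.line ν) (ρ := fun _ => 0) c)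
include H

theorem NO.k_ne (h : ∀ᶠ n in 𝒰, D.Moves (c n)) : o.k ≠ 0 := fun e => by
  obtain ⟨d, p1, C, p2, R, -, h1⟩ := o.decay H
  obtain ⟨n, ⟨x, a1⟩, a2⟩ := (h.and h1).exists
  have : IsEmpty (Fin o.k) := ⟨fun i => by have := i.2; omega⟩
  refine a1 (le_antisymm (le_of_forall_pos_le_add fun ε hε => ?_) (Dgr80.en_nonneg _ _ _ _))
  obtain ⟨T, a3, a4⟩ := (((tendsto_id.const_mul_atTop p1).eventually (Brk64.ev_exp hε C)).and
    (eventually_ge_atTop 0)).exists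
  have := (a2 0 (x.2 - T) (x.2 + T) (by linarith) (fun s _ => ⟨trivial, fun i => isEmptyElim i⟩) x
    ⟨by linarith, by linarith⟩).1
  rw [sub_sub_cancel, add_sub_cancel_left, min_self, neg_mul, mul_comm] at this
  exact this.trans (by simpa using a3.le)

theorem NO.kap_line : Tendsto (fun n => (c n).kap D.B D.G) 𝒰 (𝓝 o.lev) :=
  Metric.tendsto_nhds.2 fun ε hε => by
    obtain ⟨R, h⟩ := (o.level H (half_pos hε)).exists
    refine h.mono fun n hn => lt_of_le_of_lt ?_ (half_lt_self hε)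
    have := hn.2
    rwa [show (Brk64.Nk.line ν).J R n = univ from rfl, univ_prod_univ, Measure.restrict_univ] at this

theorem NO.ends_line {b b' : ν → YC Y κ lam} {z z' : ν → Circle} {qn : ν → YW I3 Y →₀ ℝ}
    (h : ∀ᶠ n in 𝒰, N.Crit D (b n) ∧ N.Crit D (b' n) ∧
      N.Traj D (qn n) (c n) (b n) (b' n) (z n) (z' n)) :
    o.P 0 = Lc N D 𝒰 b z ∧ o.P (Fin.last _) = Lc N D 𝒰 b' z' :=
  ⟨o.end_gap H isEnd_bot (fun _ => .of_forall fun _ => o.gap_bot univ_mem) (h.mono fun n h =>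
      ⟨crit_adm h.1, _, (admOn_univ.2 h.2.2.sol.toAdm).mono (subset_univ _), h.2.2.bot⟩),
    o.end_gap H isEnd_top (fun _ => .of_forall fun _ => o.gap_top univ_mem) (h.mono fun n h =>
      ⟨crit_adm h.2.1, _, (admOn_univ.2 h.2.2.sol.toAdm).mono (subset_univ _), h.2.2.top⟩)⟩

end line

/-- the inputs for families of trajectories of the perturbations `qn` -/
structure TI (N : ND Y lam) (D : YD I3 Y κ lam) (q : YW I3 Y →₀ ℝ) (𝒰 : Ultrafilter ν)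
    (qn : ν → YW I3 Y →₀ ℝ) : Prop where
  pos : ∀ᶠ n in 𝒰, Pos N D (qn n)
  inn : ∀ (c : ν → Cfg (Y × ℝ) (Option κ) lam 0) (E : ℝ), (∀ᶠ n in 𝒰, ∃ β β' ζ ζ', N.Crit D β ∧
    N.Crit D β' ∧ N.Traj D (qn n) (c n) β β' ζ ζ' ∧ N.tE D (c n) β β' ≤ E) →
      NI N D q 𝒰 (Brk64.Nk.line ν) (ρ := fun _ => 0) c

namespace TI
variable {qn : ν → YW I3 Y →₀ ℝ} (T : TI N D q 𝒰 qn) {b b' : ν → YC Y κ lam} {z z' : ν → Circle}
  {x : ν → ℝ} {E : ℝ}
include T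

/-- **the length of chains of bounded energy is bounded** -/
theorem len_bd {j : ν → ℕ} (h : ∀ᶠ n in 𝒰, N.Crit D (b n) ∧
    N.Brk D (qn n) (b n) (z n) (b' n) (z' n) (x n) (j n) ∧ cE N D (b n) (b' n) (x n) ≤ E) :
    ∃ j₀, ∀ᶠ n in 𝒰, j n = j₀ := by
  refine (nat_ult 𝒰 j).resolve_right fun hj => ?_
  have h1 : Tendsto (fun n => (|E| + 1) / (j n : ℝ)) 𝒰 (𝓝 0) :=
    tendsto_const_nhds.div_atTop (tendsto_natCast_atTop_atTop.comp hj)
  obtain ⟨c, hc⟩ : ∃ c : ν → Cfg (Y × ℝ) (Option κ) lam 0, ∀ᶠ n in 𝒰, ∃ β β' ζ ζ', N.Crit D β ∧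
      N.Crit D β' ∧ N.Traj D (qn n) (c n) β β' ζ ζ' ∧ D.Moves (c n) ∧
        N.tE D (c n) β β' < (|E| + 1) / (j n : ℝ) := by
    have : Nonempty (Cfg (Y × ℝ) (Option κ) lam 0) := ⟨cy (b h.exists.choose)⟩
    refine ev_choice (X := fun _ => Cfg (Y × ℝ) (Option κ) lam 0) (P := fun n c => ∃ β β' ζ ζ',
      N.Crit D β ∧ N.Crit D β' ∧ N.Traj D (qn n) c β β' ζ ζ' ∧ D.Moves c ∧
        N.tE D c β β' < (|E| + 1) / (j n : ℝ)) ?_
    filter_upwards [h, h1.eventually (ge_mem_nhds one_pos), hj.eventually_gt_atTop 0]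
      with n a1 a2 a3
    by_contra e
    push Not at e
    have := brk_min a1.2.1 a1.1 a2 e
    rw [div_mul_cancel₀ _ (Nat.cast_ne_zero.2 a3.ne')] at this
    linarith [a1.2.2, le_abs_self E]
  have H := T.inn c 1 ((hc.and (h1.eventually (ge_mem_nhds one_pos))).mono
    fun n ⟨⟨β, β', ζ, ζ', a⟩, e⟩ => ⟨β, β', ζ, ζ', a.1, a.2.1, a.2.2.1, a.2.2.2.2.le.trans e⟩)
  obtain ⟨o⟩ := H.out
  obtain ⟨ε, p, L, h2⟩ := o.car ⟨0, Nat.pos_of_ne_zero (o.k_ne H (hc.mono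
    fun n ⟨_, _, _, _, a⟩ => a.2.2.2.1))⟩
  have h3 := h1.const_mul (16 * Real.pi ^ 2)
  rw [mul_zero] at h3
  obtain ⟨n, ⟨a1, a2⟩, ⟨β, β', ζ, ζ', a3⟩, a4⟩ := ((h2.and (h3.eventually (gt_mem_nhds p))).and
    (hc.and T.pos)).exists
  obtain ⟨a5, a6, -⟩ := a4 _ _ _ _ _ a3.1 a3.2.1 a3.2.2.1
  linarith [setIntegral_le_integral (s := win Y (o.t ⟨0, Nat.pos_of_ne_zero (o.k_ne H (hc.mono
    fun n ⟨_, _, _, _, a⟩ => a.2.2.2.1))⟩ n) L) a5 (.of_forall (Dgr80.en_nonneg _ _ _)),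
    mul_le_mul_of_nonneg_left a3.2.2.2.2.le (by positivity : 0 ≤ 16 * Real.pi ^ 2)]

theorem lim_aux (j : ℕ) : ∀ {b : ν → YC Y κ lam} {z : ν → Circle} {x : ν → ℝ},
    (∀ᶠ n in 𝒰, N.Crit D (b n) ∧ N.Brk D (qn n) (b n) (z n) (b' n) (z' n) (x n) j ∧
      cE N D (b n) (b' n) (x n) ≤ E) → Cs N D (Lc N D 𝒰 b z) → Cs N D (Lc N D 𝒰 b' z') ∧
    ∃ y i, Ch N D q (Lc N D 𝒰 b z) (Lc N D 𝒰 b' z') y i ∧ Tendsto x 𝒰 (𝓝 y) ∧ (j = 0 ↔ i = 0) := by
  induction j with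
  | zero =>
    intro b z x h hc
    have e := Lc.congr (N := N) (D := D) (h.mono fun n h =>
      ⟨(brk_zero h.2.1).1, (brk_zero h.2.1).2.1⟩)
    exact ⟨e ▸ hc, 0, 0, e ▸ Ch.nil _, tendsto_const_nhds.congr'
      (h.mono fun n h => (brk_zero h.2.1).2.2.symm), .rfl⟩
  | succ j ih =>
    intro b z x h hc
    rcases Ultrafilter.eventually_or.1 (h.mono fun n h => brk_succ h.2.1) with h1 | h1
    · obtain ⟨h2, y, i, h3, h4, -⟩ := ih (x := fun n => x n - 1) ((h.and h1).mono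
        fun n ⟨a, y, e, a'⟩ => ⟨a.1, by simpa [e] using a', by
          have := a.2.2; simp only [cE] at this ⊢; linarith⟩) hc
      exact ⟨h2, y + 1, i + 1, by simpa using h3.trans (Ch.bubs _ 1) h2.ne,
        by simpa using h4.add_const 1, by simp⟩
    · have : Nonempty (YC Y κ lam) := ⟨b h.exists.choose⟩
      have : Nonempty (Cfg (Y × ℝ) (Option κ) lam 0) := ⟨cy (b h.exists.choose)⟩
      obtain ⟨c, h1⟩ := ev_choice h1
      obtain ⟨b₁, h1⟩ := ev_choice h1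
      obtain ⟨z₁, h1⟩ := ev_choice h1
      obtain ⟨y, h1⟩ := ev_choice h1
      have h2 : ∀ᶠ n in 𝒰, N.tE D (c n) (b n) (b₁ n) ≤ E ∧ cE N D (b₁ n) (b' n) (y n) ≤ E := by
        filter_upwards [h, h1, T.pos] with n a1 a2 a3
        have a4 := a1.2.2
        rw [a2.2.2.2.2, cE_add (β' := b₁ n)] at a4
        have a5 := ((a3 _ _ _ _ _ a1.1 a2.2.2.1 a2.1).2.2 a2.2.1).le
        have a6 : cE N D (b n) (b₁ n) _ = N.tE D (c n) (b n) (b₁ n) := rfl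
        constructor <;> linarith [brk_nn a3 a2.2.2.2.1 a2.2.2.1]
      have H := T.inn c E ((h.and (h1.and h2)).mono fun n a =>
        ⟨_, _, _, _, a.1.1, a.2.1.2.2.1, a.2.1.1, a.2.2.1⟩)
      obtain ⟨o⟩ := H.out
      obtain ⟨e1, e2⟩ := o.ends_line H ((h.and h1).mono fun n a => ⟨a.1.1, a.2.2.2.1, a.2.1⟩)
      have h3 := e2 ▸ o.cs H (Fin.last _)
      obtain ⟨h4, y', i, h5, h6, -⟩ := ih ((h1.and h2).mono fun n a =>
        ⟨a.1.2.2.1, a.1.2.2.2.1, a.2.2⟩) h3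
      have h7 := o.ch H
      rw [e1, e2] at h7
      have h8 := o.k_ne H (h1.mono fun n a => a.2.1)
      have h9 := o.k_le H
      exact ⟨h4, _, _, h7.trans h5 h3.ne, ((o.kap_line H).add h6).congr'
        (h1.mono fun n a => a.2.2.2.2.symm), by omega⟩

/-- **compactness of broken trajectories** -/
theorem lim {j : ν → ℕ} (h : ∀ᶠ n in 𝒰, N.Crit D (b n) ∧
    N.Brk D (qn n) (b n) (z n) (b' n) (z' n) (x n) (j n) ∧ cE N D (b n) (b' n) (x n) ≤ E)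
    (hc : Cs N D (Lc N D 𝒰 b z)) : ∃ y i, Ch N D q (Lc N D 𝒰 b z) (Lc N D 𝒰 b' z') y i ∧
      Tendsto x 𝒰 (𝓝 y) ∧ ∀ᶠ n in 𝒰, (j n = 0 ↔ i = 0) := by
  obtain ⟨j₀, h1⟩ := T.len_bd h
  obtain ⟨-, y, i, h2, h3, h4⟩ := T.lim_aux j₀ ((h.and h1).mono fun n a =>
    ⟨a.1.1, a.2 ▸ a.1.2.1, a.1.2.2⟩) hc
  exact ⟨y, i, h2, h3, h1.mono fun n e => e ▸ h4⟩

end TI

end Crest.Agent.X212.Nck90
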