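import Crest.Agent.X212.Nck90.Cen

/-!
# X212, necks (helper90), part 4: classes of critical points with phases, chains between classes
-/

set_option autoImplicit false
set_option linter.unusedSectionVars false
noncomputable section
open scoped Manifold ContDiff Topology InnerProductSpace
open MeasureTheory Set Function Filter

namespace Crest.Agent.X212.Nck90
open An Sob92 Cyf70 Neck67 Cmp73 Pj41 Eqv71 Tmp64 Nd18 Std94 Bki64

section gen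
variable {E : Type} [NormedAddCommGroup E] [NormedSpace ℝ E] [FiniteDimensional ℝ E]
  [MeasurableSpace E] [BorelSpace E]
  {HM : Type} [TopologicalSpace HM] {I : ModelWithCorners ℝ E HM}
  {M : Type} [TopologicalSpace M] [ChartedSpace HM M] [IsManifold I ∞ M]
  [MeasurableSpace M] {ι : Type} [Fintype ι] {lam : Type} [Fintype lam] {r r' r'' : ℕ}
  {B : Base M ι lam} {G : Geo I M ι lam} {α : Type} {ρ : α → ℕ} {l : Filter α}
  {S : α → Set M} {k : ℕ} {c : ∀ n, Cfg M ι lam (ρ n)} {c' : Cfg M ι lam r'}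
  {c'' : Cfg M ι lam r''} {u : ∀ n, M → CL (c n).m.V c'.m.V}
  {u' : ∀ n, M → CL (c n).m.V c''.m.V}

/-- closeness passes to a limit -/
theorem quot_ph {ζ ξ : α → Circle} {η δ : ℝ} (H : CZ G.F l S k c c' u fun n _ => ξ n)
    (H' : ∀ᶠ n in l, Cl G.F (c n) c'' (u' n) (fun _ => ζ n) (S n) k η)
    (h0 : ∀ᶠ n in l, AdmOn (c n) B G (S n)) (h1 : Fx B G l S k c') (h2 : Fx B G l S k c'')
    (hδ : 0 < δ) : ∀ᶠ n in l,
      Cl G.F c' c'' (fun x => u' n x ∘L ad (u n x)) (fun _ => ζ n / ξ n) (S n) k (η + δ) := by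
  have ht : ∀ᶠ n in l, Iso0 I c'.m c''.m (S n) fun x => u' n x ∘L ad (u n x) := by
    filter_upwards [H.iso, H', h0, h1.adm] with n a b d e using (a.symm d.ok e.ok).trans b.iso
  have e1 : ∀ a, ∀ᶠ n in l, ∀ x ∈ S n, Bki64.cov G.F c' c'' (fun x => u' n x ∘L ad (u n x)) a x =
      dA G.F (c n) c'' (u' n) a x ∘L (u' n x ∘L ad (u n x)) +
        (u' n x ∘L ad (u n x)) ∘L ad (dA G.F (c n) c' (u n) a x) := fun a => by
    filter_upwards [H.iso, H', h0, h1.adm] with n a' b d e x hx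
      using cov_quot a' b.iso b.op d e hx a
  have b1 : ∀ a, BB G.F.toPre l S k fun n => dA G.F (c n) c'' (u' n) a := fun a =>
    ⟨η, H'.mono fun _ h => ⟨h.op, h.A a⟩⟩
  have hb := (bb_of_cov H.op ht h1 h2 fun j hj hb a => ((((b1 a).of_le hj).comp hb).add
    (hb.comp ((H.A a).of_le hj).bb.ad)).congr (e1 a)).of_le k.le_succ
  have z1 := eventually_all.2 fun a => ((hb.compZ (H.A a).ad).comp hb.ad) δ hδ
  have z2 := ((bb_circ H.op fun n => ζ n / ξ n).clm (csB c''.m.J)).appZ (hb.appZ H.P) δ hδ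
  filter_upwards [H.iso, H', ht, h2.adm, eventually_all.2 e1, z1, z2] with n a b d e f g h
  refine ⟨b.op, d, fun i => (Lb.add b.op (b.A i) (g i).2).congr b.op fun x hx => ?_,
    ((Lb.sub' b.op b.P h.2).mono (by rw [abs_of_pos hδ])).congr b.op fun x hx =>
      dP_quot e.ok.Jsq a b.iso d hx (ξ n) (ζ n)⟩
  rw [dA, f i x hx, ← ad_trn, ContinuousLinearMap.add_comp, ContinuousLinearMap.comp_assoc,
    (d.iso x hx).tgt, dA, ContinuousLinearMap.comp_assoc, ← ad_trn, (b.iso.iso x hx).symm.idem]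

end gen

variable {E3 : Type} [NormedAddCommGroup E3] [NormedSpace ℝ E3] [FiniteDimensional ℝ E3]
  [MeasurableSpace E3] [BorelSpace E3]
  {H3 : Type} [TopologicalSpace H3] {I3 : ModelWithCorners ℝ E3 H3} [I3.Boundaryless]
  {Y : Type} [TopologicalSpace Y] [ChartedSpace H3 Y] [IsManifold I3 ∞ Y] [T2Space Y]
  [MeasurableSpace Y] [BorelSpace Y] [SecondCountableTopology Y] [CompactSpace Y]
  {κ : Type} [Fintype κ] {lam : Type} [Fintype lam] {D : YD I3 Y κ lam}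
  {β β' β'' : YC Y κ lam} {ζ ζ' ζ'' : Circle} {N : ND Y lam} {q : YW I3 Y →₀ ℝ} {r : ℕ}

theorem exists_cn (k : ℕ) {ε : ℝ} (hε : 0 < ε) : ∃ η > 0, k ≤ ⌈η⁻¹⌉₊ ∧ η ≤ ε :=
  let ⟨_, h⟩ := (ev_eta k hε).exists
  ⟨_, Nat.one_div_pos_of_nat, h⟩

theorem cz_of_cn {α : Type} {l : Filter α} {ρ : α → ℕ} {c : ∀ n, Cfg (Y × ℝ) (Option κ) lam (ρ n)}
    {S : α → Set (Y × ℝ)} {u : ∀ n, Y × ℝ → CL (c n).m.V β.m.V} {ζ : α → Circle}
    (h : ∀ η > 0, ∀ᶠ n in l, Cn D (c n) β (u n) (ζ n) (S n) η) (k : ℕ) :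
    CZ D.Z l S k c (cy β) u fun n _ => ζ n := fun _ hε =>
  let ⟨η, h0, h1, h2⟩ := exists_cn k hε
  (h η h0).mono fun _ h => Cl.mono h h.op Subset.rfl h1 h2

theorem stb_div (hβ : D.Adm β) (hβ' : D.Adm β') (hβ'' : D.Adm β'') {g g'} (h : Stb D β β' g ζ)
    (h' : Stb D β β'' g' ζ') : ∃ w, Stb D β' β'' w (ζ' / ζ) :=
  stb_of_eta hβ' hβ'' one_pos fun η hη => ⟨_, cy β, 0, _, _, ζ, ζ', (admOn_univ.2
    hβ.adm).mono (subset_univ _), h.cl (win_op _ _) hη.le, h'.cl (win_op _ _) hη.le,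
      by simpa using hη.le, by simpa using hη.le⟩

/-! ### chains -/

theorem brk_trans {x x' : ℝ} {j j' : ℕ} (h : N.Brk D q β ζ β' ζ' x j)
    (h' : N.Brk D q β' ζ' β'' ζ'' x' j') : N.Brk D q β ζ β'' ζ'' (x + x') (j + j') := by
  induction h with
  | nil => simpa using h'
  | bub _ ih => simpa [add_assoc, add_comm, add_left_comm] using (ih h').bub
  | mov c h1 h2 h3 _ ih =>
    simpa [add_assoc, add_comm, add_left_comm] using ND.Brk.mov c h1 h2 h3 (ih h')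

theorem brk_bubs (β : YC Y κ lam) (ζ : Circle) : ∀ m : ℕ, N.Brk D q β ζ β ζ m m
  | 0 => by simpa using ND.Brk.nil β ζ
  | m + 1 => by simpa using (brk_bubs β ζ m).bub

variable (Y κ lam) in
/-- sets of configurations with phases -/
abbrev Pc : Type := YC Y κ lam → Circle → Prop

variable {𝒜 𝒜' 𝒜'' : Pc Y κ lam}

/-- an isomorphism class of critical points with phases -/
structure Cs (N : ND Y lam) (D : YD I3 Y κ lam) (𝒜 : Pc Y κ lam) : Prop where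
  ne : ∃ β ζ, 𝒜 β ζ
  crit : ∀ {β ζ}, 𝒜 β ζ → N.Crit D β
  stb : ∀ {β ζ β' ζ'}, 𝒜 β ζ → 𝒜 β' ζ' → ∃ g, Stb D β β' g (ζ' / ζ)
  act : ∀ {β ζ β' g ξ}, 𝒜 β ζ → N.Crit D β' → Stb D β β' g ξ → 𝒜 β' (ξ * ζ)

theorem Cs.ext (h : Cs N D 𝒜) (h' : Cs N D 𝒜') (a : 𝒜 β ζ) (a' : 𝒜' β ζ) : 𝒜 = 𝒜' := by
  have key : ∀ {𝒜 𝒜' : Pc Y κ lam}, Cs N D 𝒜 → Cs N D 𝒜' → 𝒜 β ζ → 𝒜' β ζ → ∀ β' ζ', 𝒜 β' ζ' →
      𝒜' β' ζ' := fun h h' a a' β' ζ' b => by
    obtain ⟨g, hg⟩ := h.stb a b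
    simpa using h'.act a' (h.crit b) hg
  exact funext₂ fun β' ζ' => propext ⟨key h h' a a' β' ζ', key h' h a' a β' ζ'⟩

/-- a chain between classes -/
def Ch (N : ND Y lam) (D : YD I3 Y κ lam) (q : YW I3 Y →₀ ℝ) (𝒜 𝒜' : Pc Y κ lam) (x : ℝ) (j : ℕ) :
    Prop :=
  (∀ β ζ β' ζ', 𝒜 β ζ → 𝒜' β' ζ' → N.Brk D q β ζ β' ζ' x j) ∨
    (𝒜 = 𝒜' ∧ ∀ β ζ, N.Brk D q β ζ β ζ x j)

variable {x x' : ℝ} {j j' : ℕ}

theorem Ch.bubs (𝒜 : Pc Y κ lam) (m : ℕ) : Ch N D q 𝒜 𝒜 m m := .inr ⟨rfl, fun β ζ => brk_bubs β ζ m⟩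

theorem Ch.nil (𝒜 : Pc Y κ lam) : Ch N D q 𝒜 𝒜 0 0 := by simpa using Ch.bubs (q := q) 𝒜 0

theorem Ch.trans (h : Ch N D q 𝒜 𝒜' x j) (h' : Ch N D q 𝒜' 𝒜'' x' j') (ne : ∃ β ζ, 𝒜' β ζ) :
    Ch N D q 𝒜 𝒜'' (x + x') (j + j') := by
  obtain ⟨β, ζ, a⟩ := ne
  rcases h with h | ⟨rfl, h⟩ <;> rcases h' with h' | ⟨rfl, h'⟩
  · exact .inl fun _ _ _ _ b b' => brk_trans (h _ _ _ _ b a) (h' _ _ _ _ a b')
  · exact .inl fun _ _ _ _ b b' => brk_trans (h _ _ _ _ b b') (h' _ _)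
  · exact .inl fun _ _ _ _ b b' => brk_trans (h _ _) (h' _ _ _ _ b b')
  · exact .inr ⟨rfl, fun _ _ => brk_trans (h _ _) (h' _ _)⟩

/-- a chain of configurations -/
theorem Ch.brk (h : Ch N D q 𝒜 𝒜' x j) (ne : ∃ β ζ, 𝒜 β ζ) (ne' : ∃ β ζ, 𝒜' β ζ) :
    ∃ β ζ β' ζ', 𝒜 β ζ ∧ 𝒜' β' ζ' ∧ N.Brk D q β ζ β' ζ' x j := by
  obtain ⟨β, ζ, a⟩ := ne
  obtain ⟨β', ζ', a'⟩ := ne'
  rcases h with h | ⟨rfl, h⟩
  exacts [⟨_, _, _, _, a, a', h _ _ _ _ a a'⟩, ⟨_, _, _, _, a, a, h _ _⟩]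

/-! ### limits of critical points -/

variable {ν : Type} {𝒰 : Ultrafilter ν} {b : ν → YC Y κ lam} {z : ν → Circle}

/-- the limits of the family `(b n, z n)` -/
def Lc (N : ND Y lam) (D : YD I3 Y κ lam) (l : Filter ν) (b : ν → YC Y κ lam) (z : ν → Circle) :
    Pc Y κ lam := fun β ζ =>
  N.Crit D β ∧ ∀ η > 0, ∀ᶠ n in l, ∃ g, Cn D (cy (b n)) β g (ζ / z n) (win Y 0 7) η

theorem Lc.cs (hb : ∀ᶠ n in 𝒰, D.Adm (b n)) (h : Lc N D 𝒰 b z β ζ) : Cs N D (Lc N D 𝒰 b z) := by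
  refine ⟨⟨_, _, h⟩, fun h => h.1, fun {β ζ β' ζ'} h h' => ?_, fun {β ζ β' g ξ} h h1 h2 =>
    ⟨h1, fun η hη => ?_⟩⟩
  · obtain ⟨ξ, -, hξ⟩ := isCompact_univ.ultrafilter_le_nhds (𝒰.map z) (by simp)
    have k : ∀ ζ : Circle, Tendsto (fun n => ζ / z n) 𝒰 (𝓝 (ζ / ξ)) := fun ζ =>
      tendsto_const_nhds.div' hξ
    simpa using stb_of_eta (crit_adm h.1) (crit_adm h'.1) (L := 7) (ξ := ζ / ξ) (ξ' := ζ' / ξ)
      (by norm_num) fun η hη => by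
        obtain ⟨n, ⟨a1, ⟨g, a2⟩, g', a3⟩, a4, a5⟩ := ((hb.and ((h.2 η hη).and (h'.2 η hη))).and
          (((k ζ).eventually (Metric.closedBall_mem_nhds _ hη)).and
            ((k ζ').eventually (Metric.closedBall_mem_nhds _ hη)))).exists
        exact ⟨_, cy (b n), 0, g, g', _, _, (admOn_univ.2 a1.adm).mono (subset_univ _), a2, a3, a4, a5⟩
  · obtain ⟨η', h3, h4⟩ := act_eta (crit_adm h.1) (crit_adm h1) hη
    exact (h.2 η' h3).mono fun n ⟨w, hw⟩ => ⟨_, mul_div_assoc ξ ζ (z n) ▸ h4 _ _ _ w _ _ _ h2 hw⟩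

/-- a constant family -/
theorem Lc.const {l : Filter ν} (h : N.Crit D β) : Lc N D l (fun _ => β) (fun _ => ζ) β ζ :=
  ⟨h, fun _ hη => .of_forall fun _ => ⟨_, (div_self' ζ).symm ▸
    (Stb.refl (crit_adm h)).cl (win_op _ _) hη.le⟩⟩

theorem Lc.congr {b' : ν → YC Y κ lam} {z' : ν → Circle} {l : Filter ν}
    (h : ∀ᶠ n in l, b n = b' n ∧ z n = z' n) : Lc N D l b z = Lc N D l b' z' :=
  funext₂ fun β ζ => propext (and_congr_right fun _ => forall₂_congr fun η _ =>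
    eventually_congr (h.mono fun n hn => by rw [hn.1, hn.2]))

/-- the limit at an end of a configuration which is close to `β` -/
theorem cn_end (hβ : D.Adm β) (hβ' : D.Adm β') {l : Filter ℝ} [l.NeBot] (hl : IsEnd l)
    {c : Cfg (Y × ℝ) (Option κ) lam r} {u : Y × ℝ → CL c.m.V β'.m.V} {T : Set ℝ}
    (hc : AdmOn c D.B D.G (univ ×ˢ T))
    (h : ∀ k, ∀ η > 0, ∃ S ∈ l, S ⊆ T ∧ D.Cls c β' u ζ' S k η) {η : ℝ} (hη : 0 < η)
    (h' : ∀ᶠ s in l, ∃ w, Cn D c β w ζ (win Y s 7) (η / 2)) :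
    ∃ g, Cn D (cy β') β g (ζ / ζ') (win Y 0 7) η := by
  obtain ⟨w, hw⟩ := ev_choice h'
  have k := cz_of_cn (c := fun _ => c) (ρ := fun _ => r) (u := fun _ => u) (ζ := fun _ => ζ')
    (fun η hη => cn_of_lim hβ' hl hc h hη 7) ⌈η⁻¹⌉₊
  obtain ⟨S, h1, h2, -⟩ := h 0 1 one_pos
  obtain ⟨s, hs⟩ := (quot_ph (G := D.G) (ζ := fun _ => ζ) k (hw.mono fun _ h => Cl.mono h h.op
    Subset.rfl (Nat.ceil_mono (inv_anti₀ (half_pos hη) (half_le_self hη.le))) le_rfl)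
    ((hl.ev h1 7).mono fun s hs => hc.mono (prod_mono_right (Ioo_subset_Icc_self.trans
      (hs.trans h2)))) (fx_cy hβ' k.op) (fx_cy hβ k.op) (half_pos hη)).exists
  have := hs.sh s
  rw [win_tr (zero_add _).symm, add_halves] at this
  exact ⟨_, this⟩

end Crest.Agent.X212.Nck90
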