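import Crest.Agent.X212.Loc66.Tor
import Crest.Agent.X212.Spn45.Conn
import Crest.Agent.X212.Nd18.Defs

/-!
# X212, necks (helper90), part 13: integrality on a band of the cylinder
-/

set_option autoImplicit false
set_option linter.unusedSectionVars false

open Set Function Filter Topology MeasureTheory Metric
open scoped ContDiff Manifold InnerProductSpace

namespace Crest.Agent.X212.Nck90

open An Sob92 Pj41 Met55 R219.Torus Loc66 Cyf70 Nd18

noncomputable section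

section gen
variable {E : Type} [NormedAddCommGroup E] [NormedSpace ℝ E] [FiniteDimensional ℝ E]
  [MeasurableSpace E] [BorelSpace E]
  {HM : Type} [TopologicalSpace HM] {I : ModelWithCorners ℝ E HM} [I.Boundaryless]
  {M : Type} [TopologicalSpace M] [ChartedSpace HM M] [IsManifold I ∞ M]
  [MeasurableSpace M] [BorelSpace M] [T2Space M] [SecondCountableTopology M]
  {E' : Type} [NormedAddCommGroup E'] [NormedSpace ℝ E'] [FiniteDimensional ℝ E']
  [MeasurableSpace E'] [BorelSpace E']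
  {HT : Type} [TopologicalSpace HT] {I' : ModelWithCorners ℝ E' HT} [I'.Boundaryless]
  {T : Type} [TopologicalSpace T] [ChartedSpace HT T] [IsManifold I' ∞ T]
  [MeasurableSpace T] [BorelSpace T] [T2Space T] [SecondCountableTopology T] [CompactSpace T]
  {ι : Type} [Fintype ι] {lam : Type} [Fintype lam]
  {B : Base M ι lam} {G : Geo I M ι lam} {m m' : Md M ι lam} {O : Set M}
  {u : M → CL m.V m'.V} {W : m.Cn} {W' : m'.Cn}

/-- transplanting into a closed manifold (after `Loc66.locint`) -/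
theorem tint (ki : ∀ (B : Base T ι lam) (G : Geo I' T ι lam), B.OK I' → G.OK B → KI B G)
    {r : T → M} (r1 : ContMDiff I' I ∞ r) {F : Fr I' T ι} {U : Set T} (f1 : F.IsVol)
    (f2 : FRel F G.F r U) (f3 : ∀ a b z, F.P a b z = G.F.P a b (r z)) (e2 : InjOn r U)
    (hB : B.OK I) (hG : G.OK B) {K : Set T} (hK' : IsCompact K) (k1 : K ⊆ U) (hO : IsOpen O)
    (hKO : MapsTo r K O) (hm : OKOn I B m O) (hm' : m'.OK I B) (hW : ConnOn B G m W O)
    (hW' : ConnOn B G m' W' O) (h : Iso0 I m m' (O \ r '' K) u)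
    (hp : Par0 G.F W W' (O \ r '' K) u) :
    ∃ k : ℤ, ∫ x in r '' K, m.kd B G.F W x ∂G.F.μ - ∫ x in r '' K, m'.kd B G.F W' x ∂G.F.μ = k := by
  have hB' := cmB_ok r1 hB
  obtain ⟨a, g1, g2⟩ := geo_patch (F := F) hB'
    (by funext a b z; rw [f3, hG.P]) f1 hK' f2.op k1 (a := fun b z => G.a b (r z))
    (fun b z _ => ContMDiffAt.comp z (hG.con.sm b (r z)) (r1 z)) (fun b z _ => hG.con.proj b _)
    (fun b z _ => hG.sk b _) (fun b z _ => hG.il b _) fun b z hz => by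
      rw [f2.D hz b (u' := B.l) (.of_forall fun _ => rfl)]; exact hG.par b _
  let O₁ : Set T := (U ∩ r ⁻¹' O) ∩ {z | ∀ᶠ y in 𝓝 z, ∀ b, a b y = G.a b (r y)}
  have o1 : IsOpen O₁ := (f2.op.inter (hO.preimage r1.continuous)).inter
    isOpen_setOfPred_eventually_nhds
  have k2 : K ⊆ O₁ := fun z hz => ⟨⟨k1 hz, hKO hz⟩, g2 z hz⟩
  have f4 : FRel (Geo.mk F a).F G.F r O₁ := f2.mono o1 fun _ h => h.1.1
  have mO : MapsTo r O₁ O := fun _ h => h.1.2
  have n1 : (cmM r m').OK I' (cmB r B) := cmM_ok r1 hm'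
  obtain ⟨V, hV⟩ := Spn45.exists_conn hB' g1 n1
  obtain ⟨χ, c1, -, c3, -, c5⟩ := exists_cut (I := I') hK' o1 k2
  have c6 := f4.connOn (fun b z hz => hz.2.self_of_nhds b) mO hW
  have c7 := f4.connOn (fun b z hz => hz.2.self_of_nhds b) mO hW'
  have c8 := (connOn_mix (O := univ) c1 isOpen_univ o1 (IsConn.on hV univ) c7
    (fun _ _ => .inl trivial) fun z _ => (em _).imp_left fun h => c3 h).isConn n1
  let O₂ : Set T := O₁ ∩ {z | ∀ᶠ y in 𝓝 z, χ y = 1}
  have o2 : IsOpen O₂ := o1.inter isOpen_setOfPred_eventually_nhds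
  have k3 : K ⊆ O₂ := fun z hz => ⟨k2 hz, c5 z hz⟩
  have mD : MapsTo r (O₂ \ K) (O \ r '' K) := fun z hz =>
    ⟨hz.1.1.1.2, fun ⟨y, h4, h5⟩ => hz.2 (e2 (k1 h4) hz.1.1.1.1 h5 ▸ h4)⟩
  obtain ⟨k, hk⟩ := int_closed hB' g1 (ki _ _ hB' g1) hK'.isClosed o2 k3
    (cmM_okOn (fun z _ => r1 z) (fun z hz => mO hz.1) hm) (c6.mono inter_subset_left) n1 c8
    (cm_iso0 (fun z _ => r1 z) mD h) fun z hz b => by
      rw [(mix_one hz.1.2 _ _ b).eq_of_nhds]
      exact (f4.mono (o2.sdiff hK'.isClosed) fun _ h => h.1.1).par0 mD hp z hz b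
  refine ⟨k, ?_⟩
  rw [← hk, frel_int f2 f1 hG.vol hK'.measurableSet k1 (e2.mono k1),
    frel_int f2 f1 hG.vol hK'.measurableSet k1 (e2.mono k1)]
  congr 1
  · exact setIntegral_congr_fun hK'.measurableSet fun z hz => (f2.kd (k1 hz) W).symm
  · exact setIntegral_congr_fun hK'.measurableSet fun z hz =>
      ((kd_congr (mix_one (c5 z hz) _ _)).trans (f2.kd (k1 hz) W')).symm

/-- the frame of a quotient -/
theorem quot {π : M → T} (hπ : ∀ x, IsLocalDiffeomorphAt I I' ∞ π x) (hs : Surjective π)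
    (F : Fr I M ι) {e : ι → VF I' T} (he : ∀ a x, mfderiv I I' π x (F.e a x) = e a (π x))
    {r : T → M} (r1 : ContMDiff I' I ∞ r) {V : Set M} (hV : IsOpen V) (r2 : ∀ x ∈ V, r (π x) = x)
    (r3 : ∀ a b x, F.P a b (r (π x)) = F.P a b x) : ∃ F' : Fr I' T ι, F'.IsVol ∧
      FRel F' F r (π '' V) ∧ ∀ a b z, F'.P a b z = F.P a b (r z) := by
  have f0 : ∀ x, FAt F.e x := fun x => ⟨fun a => F.sm a _, pre_sp F.toPre _⟩
  have f1 : ∀ z, FAt e z := hs.forall.2 fun x =>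
    (fAt_rel (hπ x) fun a => .of_forall (he a)).1 (f0 x)
  have ev : ∀ x ∈ V, r ∘ π =ᶠ[𝓝 x] id := fun x hx => (hV.eventually_mem hx).mono r2
  refine ⟨rFr e f1, rFr_vol _ _, ⟨IsLocalDiffeomorph.isOpenMap hπ _ hV, ?_, ?_⟩,
    fun a b => hs.forall.2 fun x => ?_⟩
  · rintro _ ⟨x, hx, rfl⟩
    exact Cyl58.ld_of_comp (hπ x) (Cyl58.ld_congr (Cyl58.ld_id x) (ev x hx))
  · rintro a _ ⟨x, hx, rfl⟩
    have := (ev x hx).mfderiv_eq (I := I) (I' := I)
    rw [mfderiv_comp x ((r1 _).mdifferentiableAt (by simp))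
      ((hπ x).contMDiffAt.mdifferentiableAt (by simp)), mfderiv_id] at this
    have key : ∀ z, z = x → (mfderiv I' I r (π x) (mfderiv I I' π x (F.e a x)) : E) = F.e a z := by
      rintro _ rfl; exact DFunLike.congr_fun this _
    rw [rFr_e, ← he]
    exact key _ (r2 x hx)
  · rw [r3, rFr_P, fr_P F, fP_rel (hπ x) (f0 x).sp fun a => he a x]

end gen

/-! ### the circle -/

abbrev E1 : Type := EE 1
abbrev T1 : Type := Tor 1

instance : MeasurableSpace T1 := borel _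
instance : BorelSpace T1 := ⟨rfl⟩
instance : SecondCountableTopology T1 := ChartedSpace.secondCountable_of_sigmaCompact E1 T1

theorem ld_ball1 (c : E1) {y : E1} (hy : y ∈ ball c (1 / 2)) :
    IsLocalDiffeomorphAt (𝓡 1) (𝓡 1) ∞ (proj : E1 → T1) y ∧
      ContMDiffAt (𝓡 1) (𝓡 1) ∞ (ballHomeo c).symm (proj y) := by
  have h : (ballHomeo c).symm ∈ IsManifold.maximalAtlas (𝓡 1) ∞ T1 :=
    IsManifold.subset_maximalAtlas ⟨c, rfl⟩
  exact ⟨ld_of_oph (φ := ballHomeo c) (contMDiffOn_symm_of_mem_maximalAtlas h)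
    (contMDiffOn_of_mem_maximalAtlas h) hy, contMDiffAt_of_mem_maximalAtlas h ⟨y, hy, rfl⟩⟩

theorem mf_proj1 (y : E1) :
    HasMFDerivAt (𝓡 1) (𝓡 1) (proj : E1 → T1) y (ContinuousLinearMap.id ℝ E1) := by
  refine ⟨continuous_proj.continuousAt, ?_⟩
  obtain ⟨c, -, hc⟩ := trans_eventually (x := y) (x' := rep (proj y))
    (mem_ball_self (by norm_num)) (mem_chart_source E1 (proj y : T1))
  exact (((hasFDerivAt_id y).add_const c).congr_of_eventuallyEq hc).hasFDerivWithinAt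

/-- the circle of length `4 L` -/
theorem circ {L : ℝ} (hL : 0 < L) : ∃ (p : ℝ → T1) (s : T1 → ℝ) (v : E1),
    (∀ t, IsLocalDiffeomorphAt 𝓘(ℝ, ℝ) (𝓡 1) ∞ p t) ∧ Surjective p ∧
    (∀ t, mfderiv 𝓘(ℝ, ℝ) (𝓡 1) p t = ContinuousLinearMap.toSpanSingleton ℝ v) ∧
    ContMDiff (𝓡 1) 𝓘(ℝ, ℝ) ∞ s ∧ ∀ t ∈ Ioo (-L) L, s (p t) = t := by
  obtain ⟨χ, h1, -, h3, -, h5⟩ := exists_cut (I := 𝓡 1)
    ((isCompact_closedBall (0 : E1) (1 / 4)).image continuous_proj) (ballHomeo (0 : E1)).open_target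
    (image_mono (closedBall_subset_ball (by norm_num)))
  let v : E1 := EuclideanSpace.single 0 (4 * L)⁻¹
  let A := ContinuousLinearMap.toSpanSingleton ℝ v
  let A' : E1 →L[ℝ] ℝ := (4 * L) • EuclideanSpace.proj 0
  have a1 : ∀ t, A' (A t) = t := fun t => by simp [A, A', v]; field_simp
  have a2 : ∀ y, A (A' y) = y := fun y => by
    ext i; obtain rfl : i = 0 := Subsingleton.elim _ _; simp [A, A', v]; field_simp
  refine ⟨proj ∘ A, fun z => A' (χ z • (ballHomeo 0).symm z), v, fun t => Cyl58.ld_comp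
    (ld_ball1 _ (mem_ball_self (by norm_num))).1 (Cyl58.ld_of_inverse isOpen_univ isOpen_univ
      A.contDiff.contMDiff.contMDiffOn A'.contDiff.contMDiff.contMDiffOn (mapsTo_univ _ _)
      (mapsTo_univ _ _) (fun t _ => a1 t) (fun y _ => a2 y) trivial),
    surjective_proj.comp fun y => ⟨_, a2 y⟩,
    fun t => ((mf_proj1 _).comp t A.hasMFDerivAt).mfderiv, A'.contDiff.comp_contMDiff
      (sm_cut h1 h3 ?_), fun t ht => ?_⟩
  · rintro _ ⟨y, hy, rfl⟩; exact (ld_ball1 0 hy).2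
  · have hy : A t ∈ ball (0 : E1) (1 / 4) := by
      have : |t| * (L⁻¹ * 4⁻¹) < L * (L⁻¹ * 4⁻¹) :=
        mul_lt_mul_of_pos_right (abs_lt.2 ht) (by positivity)
      rw [mul_inv_cancel_left₀ hL.ne'] at this
      simpa [A, v, norm_smul, abs_of_pos hL] using this
    simp only [comp_apply, (h5 _ ⟨_, ball_subset_closedBall hy, rfl⟩).eq_of_nhds, Pi.one_apply,
      one_smul, ballHomeo_symm_proj (ball_subset_ball (by norm_num) hy), a1]

variable {E3 : Type} [NormedAddCommGroup E3] [NormedSpace ℝ E3] [FiniteDimensional ℝ E3]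
  [MeasurableSpace E3] [BorelSpace E3]
  {H3 : Type} [TopologicalSpace H3] {I3 : ModelWithCorners ℝ E3 H3} [I3.Boundaryless]
  {Y : Type} [TopologicalSpace Y] [ChartedSpace H3 Y] [IsManifold I3 ∞ Y] [T2Space Y]
  [MeasurableSpace Y] [BorelSpace Y] [SecondCountableTopology Y] [CompactSpace Y]
  {κ : Type} [Fintype κ] {lam : Type} [Fintype lam] (D : YD I3 Y κ lam)

/-- the band -/
abbrev Bn (Y : Type) (a b : ℝ) : Set (Y × ℝ) := univ ×ˢ Icc a b

/-- **integrality on a band** -/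
def CI : Prop := ∀ (m m' : Md (Y × ℝ) (Option κ) lam) (W : m.Cn) (W' : m'.Cn) (u : Y × ℝ → CL m.V m'.V)
  (O : Set (Y × ℝ)) (a b : ℝ), IsOpen O → Bn Y a b ⊆ O → OKOn (IC I3) D.B m O → m'.OK (IC I3) D.B →
  ConnOn D.B D.G m W O → ConnOn D.B D.G m' W' O → Iso0 (IC I3) m m' (O \ Bn Y a b) u →
  Par0 D.Z W W' (O \ Bn Y a b) u → ∃ k : ℤ, ∫ x in Bn Y a b, m.kd D.B D.Z W x ∂D.Z.μ -
    ∫ x in Bn Y a b, m'.kd D.B D.Z W' x ∂D.Z.μ = k

variable {D}

theorem ci_of (ki : ∀ (B : Base (Y × T1) (Option κ) lam)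
    (G : Geo (I3.prod (𝓡 1)) (Y × T1) (Option κ) lam), B.OK (I3.prod (𝓡 1)) → G.OK B → KI B G)
    (hD : D.OK) :
    CI D := by
  intro m m' W W' u O a b hO hK hm hm' hW hW' h hp
  obtain ⟨p, s, v, p1, p2, p3, s1, s2⟩ := circ (L := |a| + |b| + 1) (by positivity)
  let V : Set (Y × ℝ) := univ ×ˢ Ioo (-(|a| + |b| + 1)) (|a| + |b| + 1)
  have kV : Bn Y a b ⊆ V := prod_mono_right fun t ht =>
    ⟨by linarith [neg_abs_le a, abs_nonneg b, ht.1], by linarith [le_abs_self b, abs_nonneg a, ht.2]⟩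
  have r2 : ∀ x ∈ V, Prod.map id s (Prod.map id p x) = x := fun x hx => Prod.ext rfl (s2 _ hx.2)
  have r1 : ContMDiff (I3.prod (𝓡 1)) (IC I3) ∞ (Prod.map id s : Y × T1 → Y × ℝ) :=
    contMDiff_id.prodMap s1
  obtain ⟨F, f1, f2, f3⟩ := quot (I' := I3.prod (𝓡 1)) (π := (Prod.map id p : Y × ℝ → Y × T1))
    (fun x => Cyl58.ld_prodMap (Cyl58.ld_id x.1) (p1 x.2)) (surjective_id.prodMap p2) D.Z
    (e := fun a z => a.elim (0, v) fun a => (D.F.e a z.1, 0)) (fun a x => by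
      rw [mfderiv_prodMap mdifferentiableAt_id ((p1 _).contMDiffAt.mdifferentiableAt (by simp)),
        mfderiv_id, p3]
      cases a
      · exact Prod.ext rfl (one_smul ℝ v)
      · exact Prod.ext rfl (zero_smul ℝ v)) r1 (isOpen_univ.prod isOpen_Ioo) r2
    fun a b x => by cases a <;> cases b <;> rfl
  have e : Prod.map id s '' (Prod.map id p '' Bn Y a b) = Bn Y a b := by
    rw [image_image]; exact (image_congr fun x hx => r2 x (kV hx)).trans (image_id _)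
  have := tint (G := D.G) ki r1 f1 f2 f3 (by
      rintro _ ⟨x, hx, rfl⟩ _ ⟨y, hy, rfl⟩ h
      rw [r2 x hx, r2 y hy] at h; rw [h]) hD.B hD.G
    ((isCompact_univ.prod isCompact_Icc).image (continuous_id.prodMap
      (continuous_iff_continuousAt.2 fun t => (p1 t).contMDiffAt.continuousAt)))
    (image_mono kV) hO (fun _ hz => hK (e ▸ mem_image_of_mem _ hz)) hm hm' hW hW' (e.symm ▸ h)
    (e.symm ▸ hp)
  rwa [e] at this

end

end Crest.Agent.X212.Nck90
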