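import Crest.Agent.X212.Nck90.Chn
import Crest.Agent.X212.Nd18.Api

/-!
# X212, necks (helper90), part 8: one family of necks
-/

set_option autoImplicit false
set_option linter.unusedSectionVars false
noncomputable section
open scoped Manifold ContDiff Topology InnerProductSpace
open MeasureTheory Set Function Filter

namespace Crest.Agent.X212.Nck90
open An Sob92 Cyf70 Neck67 Cmp73 Pj41 Eqv71 Tmp64 Nd18 Std94 Bki64

theorem oc_Dp (p q : Option ℝ) (d : ℝ) : (Dp p q d).OrdConnected :=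
  ⟨fun _ hx _ hy _ hz => ⟨fun a ha => (hx.1 a ha).trans hz.1, fun a ha => hz.2.trans (hy.2 a ha)⟩⟩

/-- the necks `(p n, p' n)` from the depth `d` on -/
def dpN {ν : Type} (p p' : ν → Option ℝ) (d : ℝ) : Brk64.Nk ν where
  J R n := Dp (p n) (p' n) (R + d)
  lip h h' := ⟨fun a ha => by linarith [h.1 a ha, (abs_le.1 h').1],
    fun a ha => by linarith [h.2 a ha, (abs_le.1 h').2]⟩
  oc _ _ := oc_Dp _ _ _
  cl _ _ := isClosed_Dp

/-- the end on the side `e` -/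
abbrev eF (e : Bool) : Filter ℝ := bif e then atBot else atTop

theorem isEnd_eF (e : Bool) : IsEnd (eF e) := by cases e; exacts [isEnd_top, isEnd_bot]

instance (e : Bool) : (eF e).NeBot := by cases e <;> simp only [eF, cond] <;> infer_instance

variable {E3 : Type} [NormedAddCommGroup E3] [NormedSpace ℝ E3] [FiniteDimensional ℝ E3]
  [MeasurableSpace E3] [BorelSpace E3]
  {H3 : Type} [TopologicalSpace H3] {I3 : ModelWithCorners ℝ E3 H3} [I3.Boundaryless]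
  {Y : Type} [TopologicalSpace Y] [ChartedSpace H3 Y] [IsManifold I3 ∞ Y] [T2Space Y]
  [MeasurableSpace Y] [BorelSpace Y] [SecondCountableTopology Y] [CompactSpace Y]
  {κ : Type} [Fintype κ] {lam : Type} [Fintype lam] {D : YD I3 Y κ lam} {β β' : YC Y κ lam}
  {ζ ζ' : Circle} {N : ND Y lam} {q : YW I3 Y →₀ ℝ} {r : ℕ} {ν : Type} {𝒰 : Ultrafilter ν}
  {A : Brk64.Nk ν} {ρ : ν → ℕ} {c : ∀ n, Cfg (Y × ℝ) (Option κ) lam (ρ n)}

/-- limits seen from the points `a n` converge to the class `𝒜` along the end `l` -/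
def EL (D : YD I3 Y κ lam) (𝒰 : Ultrafilter ν) (c : ∀ n, Cfg (Y × ℝ) (Option κ) lam (ρ n))
    (𝒜 : Pc Y κ lam) (a : ν → ℝ) (l : Filter ℝ) : Prop :=
  ∀ r (γ : Cfg (Y × ℝ) (Option κ) lam r) v (S : Set (Y × ℝ)) (p p' : Option ℝ),
    l.HasBasis (fun _ => True) (Dp p p') → AdmOn γ D.B D.G (univ ×ˢ Jv p p') →
    CvC D.Z 𝒰 (fun n => sh (a n) (c n)) γ v (univ ×ˢ Jv p p' \ S) →
    (∀ z ∈ univ ×ˢ Dp p p' 3 ∩ S, ∃ ε > 0, ∀ L ∈ 𝓝 z, IsCompact L → L ⊆ univ ×ˢ Dp p p' 2 →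
      ∀ᶠ n in 𝒰, ε ≤ ∫ x in L, eZ D (sh (a n) (c n)) x ∂D.Z.μ) →
    (∃ R > 0, Disjoint S (univ ×ˢ Dp p p' R) ∧ IntegrableOn (kZ D γ) (univ ×ˢ Dp p p' R) D.Z.μ) ∧
      ∀ β ζ, 𝒜 β ζ → ∃ u, ∀ k, ∀ η > 0, ∃ T ∈ l, T ⊆ Jv p p' ∧ D.Cls γ β u ζ T k η

namespace NO
variable (o : NO N D q 𝒰 A c)

theorem gap_zero (h : o.k = 0) (g : Fin (o.k + 1)) : A.Gap o.t g = A.J :=
  funext₂ fun _ _ => Set.ext fun _ => and_iff_left fun i => absurd i.2 (by omega)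

theorem P_zero (h : o.k = 0) (g g' : Fin (o.k + 1)) : o.P g = o.P g' := by
  unfold P; rw [o.gap_zero h, o.gap_zero h]

theorem lev_zero (h : o.k = 0) : o.lev = 0 :=
  Finset.sum_eq_zero fun i _ => absurd i.2 (by omega)

variable (H : NI N D q 𝒰 A c)
include H

theorem el {g : Fin (o.k + 1)} {l : Filter ℝ} (hl : IsEnd l) {a : ν → ℝ}
    (ha : ∀ R, ∀ᶠ s in l, ∀ᶠ n in 𝒰, a n + s ∈ A.Gap o.t g R n) : EL D 𝒰 c (o.P g) a l := by
  intro r γ v S p p' hb hγ hv hc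
  obtain ⟨d, p1, C, p2, R₁, p3, h1⟩ := o.decay H
  obtain ⟨R₂, -, h2⟩ := hb.mem_iff.1 (ha (R₁ + 1))
  have p4 : 0 < max R₂ 3 := lt_max_of_lt_right three_pos
  have h3 := (Dp_mono (le_max_left R₂ 3)).trans h2
  have h4 := Dp_sub (p := p) (q := p') p4
  have key : ∀ s ∈ Dp p p' (max R₂ 3), ∀ s' ∈ Dp p p' (max R₂ 3), s ≤ s' → ∀ᶠ n in 𝒰,
      ∀ x : Y × ℝ, x.2 ∈ Icc (s - 1) (s' + 1) → eZ D (sh (a n) (c n)) x ≤ C ∧
        |kZ D (sh (a n) (c n)) x| ≤ C * Real.exp (-d * min (x.2 - (s - 1)) (s' + 1 - x.2)) := by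
    intro s hs s' hs' e
    filter_upwards [h1, h3 hs, h3 hs', H.adm] with n a1 a2 a3 a4 x hx
    have a5 := (A.gap_oc o.t g R₁ n).out (A.gap_lip (s' := a n + (s - 1)) a2 (by simp))
      (A.gap_lip (s' := a n + (s' + 1)) a3 (by simp))
    have a6 : x.2 + a n ∈ Icc (a n + (s - 1)) (a n + (s' + 1)) :=
      ⟨by linarith [hx.1], by linarith [hx.2]⟩
    have a7 := ek_sh (s := a n) (x := x) a4 ⟨trivial, A.anti p3 n (a5 a6).1⟩
    have a8 := a1 g _ _ (by linarith) a5 (Tmp64.sq (· + a n) x) a6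
    simp only [Tmp64.sq, show x.2 + a n - (a n + (s - 1)) = x.2 - (s - 1) by ring,
      show a n + (s' + 1) - (x.2 + a n) = s' + 1 - x.2 by ring] at a7 a8
    rw [a7.1, a7.2]
    refine ⟨a8.1.trans (mul_le_of_le_one_right p2.le (Real.exp_le_one_iff.2 ?_)), a8.2⟩
    nlinarith [le_min (sub_nonneg.2 hx.1) (sub_nonneg.2 hx.2)]
  have dj : ∀ z ∈ univ ×ˢ Dp p p' (max R₂ 3), z ∉ S := fun z hz e => by
    have m := Dp_mono (le_max_right R₂ 3) hz.2
    obtain ⟨ε, h0, h5⟩ := hc z ⟨⟨trivial, m⟩, e⟩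
    obtain ⟨ρ, h6, h7, h8⟩ := exists_small h0 (C * (D.F.μ.real univ * 2))
    obtain ⟨n, a1, a2⟩ := ((h5 _ (cw_nhds z h6) (cwin_cpt _ _) fun x hx => ⟨trivial,
      fun a k => by linarith [m.1 a k, hx.2.1], fun a k => by linarith [m.2 a k, hx.2.2]⟩).and
        (key _ hz.2 _ hz.2 le_rfl)).exists
    have := int_le (D := D) h6.le p2.le Subset.rfl fun x hx => (abs_of_nonneg (Dgr80.en_nonneg _ _ _
      _)).trans_le (a2 x ⟨by linarith [hx.2.1], by linarith [hx.2.2]⟩).1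
    linarith
  have op := isOpen_univ (X := Y).prod (isOpen_Jv (p := p) (q := p'))
  refine ⟨⟨_, p4, disjoint_right.2 dj, ContinuousOn.aestronglyMeasurable (fun x hx =>
    (fsm_kd H.ok.B op hγ ⟨trivial, h4 hx.2⟩).continuousAt.continuousWithinAt)
    (MeasurableSet.univ.prod isClosed_Dp.measurableSet), ?_⟩, fun β ζ h => ?_⟩
  · rw [← snd_pre]
    refine (lint_dec p1 p2.le isClosed_Dp (oc_Dp _ _ _) fun s s' e e' x hx =>
      le_of_forall_pos_le_add fun ε hε => ?_).trans_lt ENNReal.ofReal_lt_top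
    have m : x ∈ univ ×ˢ Dp p p' (max R₂ 3) := ⟨trivial, e' hx⟩
    obtain ⟨n, a1, a2⟩ := ((key _ (e' ⟨le_rfl, e⟩) _ (e' ⟨e, le_rfl⟩) e).and (hv.ek H.ok op hγ
      (isCompact_singleton (x := x)) (singleton_subset_iff.2 ⟨⟨⟨trivial, h4 m.2⟩, dj x m⟩, trivial,
        h4 m.2⟩) (forall_eq.2 ⟨_, cw_nhds x one_pos, ((h3 m.2).and H.adm).mono fun n h => by
          have := admOn_sh (adm_cw (L := 1) h.2 (A.anti (by linarith) n h.1.1)) (a n)
          rwa [cw_tr (add_comm _ _)] at this⟩) hε)).exists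
    have a3 : C * Real.exp (-d * min (x.2 - (s - 1)) (s' + 1 - x.2)) ≤
        C * Real.exp (-d * min (x.2 - s) (s' - x.2)) := mul_le_mul_of_nonneg_left
      (Real.exp_le_exp.2 (mul_le_mul_of_nonpos_left (min_le_min (by linarith) (by linarith))
        (neg_nonpos.2 p1.le))) p2.le
    linarith [(a1 x ⟨by linarith [hx.1], by linarith [hx.2]⟩).2, (a2 x rfl).2,
      abs_sub_abs_le_abs_sub (kZ D γ x) (kZ D (sh (a n) (c n)) x),
      abs_sub_comm (kZ D γ x) (kZ D (sh (a n) (c n)) x)]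
  · exact (o.lim_gap H h hl ha (hb.mem_of_mem trivial) (hγ.mono (prod_mono_right h4))
      (hv.mono le_rfl fun x hx => ⟨⟨trivial, h4 hx.2⟩, dj x hx⟩)).imp fun _ h k η hη =>
        (h k η hη).imp fun _ h => ⟨h.1, h.2.1.trans h4, h.2.2⟩

end NO

/-- the chain of a family of necks `(p n, p' n)` -/
structure NR (N : ND Y lam) (D : YD I3 Y κ lam) (q : YW I3 Y →₀ ℝ) (𝒰 : Ultrafilter ν)
    (p p' : ν → Option ℝ) (c : ∀ n, Cfg (Y × ℝ) (Option κ) lam (ρ n)) (𝒜 : Bool → Pc Y κ lam)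
    (x : ℝ) (j : ℕ) : Prop where
  cs : ∀ e, Cs N D (𝒜 e)
  ch : Ch N D q (𝒜 false) (𝒜 true) x j
  lev : ∀ ε > 0, ∀ᶠ R in atTop, ∀ᶠ n in 𝒰,
    |∫ z in univ ×ˢ Dp (p n) (p' n) R, kZ D (c n) z ∂D.Z.μ - x| ≤ ε
  zero : j = 0 → x = 0 ∧ 𝒜 false = 𝒜 true ∧ ∀ e β ζ, 𝒜 e β ζ → ∀ η > 0, ∃ T, ∀ᶠ n in 𝒰,
    ∀ s ∈ Dp (p n) (p' n) T, Ioo (s - η⁻¹) (s + η⁻¹) ⊆ Jv (p n) (p' n) ∧
      ∃ u ξ, D.Cls (c n) β u ξ (Ioo (s - η⁻¹) (s + η⁻¹)) ⌈η⁻¹⌉₊ η
  lim : ∀ e a, (∀ n, (bif e then p' n else p n) = some (a n)) → EL D 𝒰 c (𝒜 e) a (eF e)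
  fin : ∀ e, (∀ n, (bif e then p n else p' n) = none) → ∀ b z, (∀ᶠ n in 𝒰, D.Adm (b n) ∧ ∃ T,
    AdmOn (c n) D.B D.G (univ ×ˢ T) ∧ ∃ u, ∀ k, ∀ η > 0, ∃ T' ∈ eF e, T' ⊆ T ∧
      D.Cls (c n) (b n) u (z n) T' k η) → 𝒜 (!e) = Lc N D 𝒰 b z

theorem NI.nr {p p' : ν → Option ℝ} {d : ℝ} (H : NI N D q 𝒰 (dpN p p' d) c) (hd : 0 < d) :
    ∃ 𝒜 x j, NR N D q 𝒰 p p' c 𝒜 x j := by
  obtain ⟨o⟩ := H.out
  refine ⟨fun e => o.P (bif e then Fin.last _ else 0), o.lev, o.len, fun _ => o.cs H _, o.ch H,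
    fun ε hε => ?_, fun h => ?_, fun e a h => ?_, fun e h b z hb => ?_⟩
  · refine ((tendsto_atTop_add_const_right _ (-d) tendsto_id).eventually (o.level H hε)).mono
      fun R h => h.mono fun n h => ?_
    simpa [dpN] using h.2
  · have k : o.k = 0 := by have := o.k_le H; omega
    refine ⟨o.lev_zero k, o.P_zero k _ _, fun e β ζ h η hη => ?_⟩
    obtain ⟨R, hR⟩ := o.near_P H h hη
    rw [o.gap_zero k] at hR
    refine ⟨R + d, (hR.and H.adm).mono fun n a s hs => ?_⟩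
    obtain ⟨a1, u, ξ, a2⟩ := a.1 s hs
    exact ⟨a1.trans (Dp_sub (by linarith)), u, ξ,
      Cl.cls (crit_adm h.1) isOpen_Ioo (a.2.mono (prod_mono_right a1)) a2⟩
  · cases e
    · refine o.el H isEnd_top (o.ev_first (fun R => (eventually_ge_atTop (R + d)).mono fun s hs =>
        (H.ne ((s + R - d) / 2)).mono fun n ⟨t, ht⟩ => ⟨fun b hb => ?_, fun b hb => ?_⟩)
        fun t ht => tendsto_atTop.2 fun R => (ht R).mono fun n hn => ?_)
      · cases (h n).symm.trans hb; linarith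
      · linarith [ht.1 _ (h n), ht.2 b hb]
      · linarith [hn.1 _ (h n)]
    · refine o.el H isEnd_bot (o.ev_last (fun R => (eventually_le_atBot (-(R + d))).mono fun s hs =>
        (H.ne ((R - s - d) / 2)).mono fun n ⟨t, ht⟩ => ⟨fun b hb => ?_, fun b hb => ?_⟩)
        fun t ht => tendsto_atTop.2 fun R => (ht R).mono fun n hn => ?_)
      · linarith [ht.2 _ (h n), ht.1 b hb]
      · cases (h n).symm.trans hb; linarith
      · linarith [hn.2 _ (h n)]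
  · cases e
    · refine o.end_gap H isEnd_top (fun R => .of_forall fun n => o.gap_top ?_) hb
      exact (eventually_ge_atTop ((p n).getD 0 + (R + d))).mono fun s hs =>
        ⟨fun a ha => by rwa [show p n = some a from ha] at hs,
          fun a ha => nomatch (h n).symm.trans ha⟩
    · refine o.end_gap H isEnd_bot (fun R => .of_forall fun n => o.gap_bot ?_) hb
      exact (eventually_le_atBot ((p' n).getD 0 - (R + d))).mono fun s hs =>
        ⟨fun a ha => (nomatch (h n).symm.trans ha),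
          fun a ha => by rwa [show p' n = some a from ha] at hs⟩

end Crest.Agent.X212.Nck90
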