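import Crest.Agent.X212.Nck90.Rig0

/-!
# X212, necks (helper90), part 2: the inputs, no drift, the centres
-/

set_option autoImplicit false
set_option linter.unusedSectionVars false
noncomputable section
open scoped Manifold ContDiff Topology InnerProductSpace
open MeasureTheory Set Function Filter

namespace Crest.Agent.X212.Nck90
open An Sob92 Cyf70 Neck67 Cmp73 Pj41 Eqv71 Tmp64 Nd18 Std94 Bki64
open Brk64 (eI Gd wI)

/-- the first exit -/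
theorem exit {P Q : ℝ → Prop} {ρ a b : ℝ} (hρ : 0 < ρ) (h : ∀ s s', Q s → |s' - s| ≤ ρ → P s')
    (ha : Q a) (hb : ¬Q b) : ∃ e ∈ uIcc a b, ¬Q e ∧ ∀ s ∈ uIcc a e, P s := by
  wlog hab : a ≤ b generalizing P Q a b
  · obtain ⟨e, e1, e2, e3⟩ := this (P := fun s => P (-s)) (Q := fun s => Q (-s)) (a := -a) (b := -b)
      (fun s s' h1 h2 => h _ _ h1 (by rwa [neg_sub_neg, abs_sub_comm])) (by simpa) (by simpa)
      (by linarith)
    refine ⟨-e, ?_, e2, fun s hs => ?_⟩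
    · rw [mem_uIcc] at e1 ⊢
      rcases e1 with e1 | e1
      exacts [.inr ⟨by linarith [e1.2], by linarith [e1.1]⟩, .inl ⟨by linarith [e1.2],
        by linarith [e1.1]⟩]
    · refine (neg_neg s ▸ e3 (-s) ?_ :)
      rw [mem_uIcc] at hs ⊢
      rcases hs with hs | hs
      exacts [.inr ⟨by linarith [hs.2], by linarith [hs.1]⟩, .inl ⟨by linarith [hs.2],
        by linarith [hs.1]⟩]
  have hne : {s ∈ Icc a b | ¬Q s}.Nonempty := ⟨b, ⟨hab, le_rfl⟩, hb⟩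
  have hbd : BddBelow {s ∈ Icc a b | ¬Q s} := ⟨a, fun _ h => h.1.1⟩
  obtain ⟨e, ⟨e1, e2⟩, e3⟩ := exists_lt_of_csInf_lt hne (lt_add_of_pos_right _ (half_pos hρ))
  have h1 : a ≤ sInf {s ∈ Icc a b | ¬Q s} := le_csInf hne fun _ h => h.1.1
  have h2 : ∀ s, a ≤ s → s < sInf {s ∈ Icc a b | ¬Q s} → Q s := fun s h3 h4 => by_contra fun h5 =>
    absurd (csInf_le hbd ⟨⟨h3, h4.le.trans (csInf_le hbd ⟨⟨hab, le_rfl⟩, hb⟩)⟩, h5⟩) (not_le.2 h4)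
  refine ⟨e, uIcc_of_le hab ▸ e1, e2, fun s hs => ?_⟩
  rw [uIcc_of_le e1.1] at hs
  rcases le_or_gt s (a + ρ) with h3 | h3
  · exact h a s ha (abs_le.2 ⟨by linarith [hs.1], by linarith⟩)
  · exact h (s - ρ) s (h2 _ (by linarith) (by linarith [hs.2])) (by simp [abs_of_pos hρ])

theorem curry_ne {α β : Type*} (l : Filter α) (m : Filter β) [l.NeBot] [m.NeBot] :
    (l.curry m).NeBot :=
  ⟨fun h => by
    have : ∀ᶠ _ in l.curry m, False := h ▸ eventually_bot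
    obtain ⟨_, h⟩ := (eventually_curry_iff.1 this).exists
    exact h.exists.choose_spec⟩

variable {E3 : Type} [NormedAddCommGroup E3] [NormedSpace ℝ E3] [FiniteDimensional ℝ E3]
  [MeasurableSpace E3] [BorelSpace E3]
  {H3 : Type} [TopologicalSpace H3] {I3 : ModelWithCorners ℝ E3 H3} [I3.Boundaryless]
  {Y : Type} [TopologicalSpace Y] [ChartedSpace H3 Y] [IsManifold I3 ∞ Y] [T2Space Y]
  [MeasurableSpace Y] [BorelSpace Y] [SecondCountableTopology Y] [CompactSpace Y]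
  {κ : Type} [Fintype κ] {lam : Type} [Fintype lam] {D : YD I3 Y κ lam} {β β' : YC Y κ lam}
  {N : ND Y lam} {q : YW I3 Y →₀ ℝ} {r : ℕ}

theorem nr_act (hβ : D.Adm β) (hβ' : D.Adm β') {g : Y → CL β.m.V β'.m.V} {ξ : Circle}
    (h : Stb D β β' g ξ) {ε : ℝ} (hε : 0 < ε) : ∃ η > 0, ∀ r (c : Cfg (Y × ℝ) (Option κ) lam r) J s,
      Nr D c J s β η → Nr D c J s β' ε := by
  obtain ⟨η, h0, h1⟩ := act_eta hβ hβ' hε
  have p := lt_min h0 hε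
  refine ⟨_, p, fun r c J s ⟨a, u, ζ, b⟩ => ⟨(Nr.mono ⟨a, u, ζ, b⟩ p (min_le_right _ _)).1, _, _,
    h1 r c _ u ζ g ξ h (b.mono (win_op _ _) (win_sub ?_) p (min_le_left _ _))⟩⟩
  simpa using inv_anti₀ p (min_le_right _ _)

variable (D) in
/-- decay between the times `a` and `b` -/
structure Dc (c : Cfg (Y × ℝ) (Option κ) lam r) (β : YC Y κ lam) (a b d C : ℝ) (k : ℕ) (B : ℝ) :
    Prop where
  one : ∃ u, ∃ ζ : Circle, ∀ s ∈ Icc a b, Cl D.Z c (cy β) u (fun _ => ζ) (win Y s 1) k B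
  mid : ∃ β' : YC Y κ lam, ∃ u, ∃ ζ : Circle, D.Adm β' ∧ ∀ s ∈ Icc a b,
    Cl D.Z c (cy β') u (fun _ => ζ) (win Y s 1) 0 (B * Real.exp (-d * min (s - a) (b - s)))
  den : ∀ x : Y × ℝ, x.2 ∈ Icc a b → eZ D c x ≤ C * Real.exp (-d * min (x.2 - a) (b - x.2)) ∧
    |kZ D c x| ≤ C * Real.exp (-d * min (x.2 - a) (b - x.2))

variable {ν : Type} {𝒰 : Ultrafilter ν} {A : Brk64.Nk ν} {ρ : ν → ℕ}
  {c : ∀ n, Cfg (Y × ℝ) (Option κ) lam (ρ n)}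

/-- exponential decay near the critical set -/
def Dec (N : ND Y lam) (D : YD I3 Y κ lam) (l : Filter ν) (J : ν → Set ℝ)
    (c : ∀ n, Cfg (Y × ℝ) (Option κ) lam (ρ n)) : Prop :=
  ∀ β, N.Crit D β → ∃ d > 0, ∃ C > 0, ∀ k, ∀ B > 0, ∃ η > 0, ∀ᶠ n in l, ∀ a b, a ≤ b →
    (∀ s ∈ Icc a b, Nr D (c n) (J n) s β η) → Dc D (c n) β a b d C k B

/-- the inputs of the breaking theorem -/
structure NI (N : ND Y lam) (D : YD I3 Y κ lam) (q : YW I3 Y →₀ ℝ) (𝒰 : Ultrafilter ν)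
    (A : Brk64.Nk ν) (c : ∀ n, Cfg (Y × ℝ) (Option κ) lam (ρ n)) : Prop where
  ok : D.OK
  ne : ∀ R, ∀ᶠ n in 𝒰, (A.J R n).Nonempty
  adm : ∀ᶠ n in 𝒰, AdmOn (c n) D.B D.G (univ ×ˢ A.J 0 n)
  en : ∃ E, ∀ᶠ n in 𝒰, IntegrableOn (eZ D (c n)) (univ ×ˢ A.J 0 n) D.Z.μ ∧
    ∫ x in univ ×ˢ A.J 0 n, eZ D (c n) x ∂D.Z.μ ≤ E
  cmp : ∀ 𝒱 : Ultrafilter (ν × ℝ), Tendsto (Prod.fst : ν × ℝ → ν) 𝒱 𝒰 →
    (∀ R, ∀ᶠ p : ν × ℝ in 𝒱, p.2 ∈ A.J R p.1) →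
    ∃ γ Sg v, Lm N D q 𝒱 (fun p : ν × ℝ => sh p.2 (c p.1)) γ Sg v
  dec : Dec N D 𝒰 (A.J 0) c
  frz : ∀ γ : Cfg (Y × ℝ) (Option κ) lam 0, γ.Sol D.B D.G (N.pt D.nk q : Pt _ _ _ 0 0) →
    (∀ x, eZ D γ x = 0) → ∃ β u, N.Crit D β ∧ Eq0 D.Z γ (cy β) univ u

namespace NI
variable (H : NI N D q 𝒰 A c) {α : Type} {e : α → ν}
include H

theorem adm_sh {l : Filter α} {s : α → ℝ} (he : Tendsto e l 𝒰)
    (hs : ∀ R, ∀ᶠ a in l, s a ∈ A.J R (e a)) (L : ℝ) :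
    ∀ᶠ a in l, AdmOn (sh (s a) (c (e a))) D.B D.G (cw Y 0 L) := by
  filter_upwards [he.eventually H.adm, hs (0 + L)] with a a1 a2
  have := admOn_sh (adm_cw a1 a2) (s a)
  rwa [cw_tr (zero_add _).symm] at this

/-- windows without energy converge to a critical point -/
theorem pt {𝒱 : Ultrafilter α} {s : α → ℝ} (he : Tendsto e 𝒱 𝒰)
    (hs : ∀ R, ∀ᶠ a in 𝒱, s a ∈ A.J R (e a))
    (h0 : ∀ L, ∀ ε > 0, ∀ᶠ a in 𝒱, ∫ x in win Y (s a) L, eZ D (c (e a)) x ∂D.Z.μ ≤ ε) :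
    ∃ β, N.Crit D β ∧ ∀ η > 0, ∀ᶠ a in 𝒱, Nr D (c (e a)) (A.J 0 (e a)) (s a) β η := by
  let 𝒲 : Ultrafilter (ν × ℝ) := 𝒱.map fun a => (e a, s a)
  have h1 : Tendsto (Prod.fst : ν × ℝ → ν) 𝒲 𝒰 := he
  have h2 : ∀ R, ∀ᶠ p : ν × ℝ in 𝒲, p.2 ∈ A.J R p.1 := hs
  obtain ⟨γ, Sg, v, h4⟩ := H.cmp 𝒲 h1 h2
  have ha := H.adm_sh h1 h2
  obtain ⟨h5, h6⟩ := h4.zero H.ok ha fun L => tendsto_order.2 ⟨fun a ha => Eventually.of_forall
    fun _ => ha.trans_le (integral_nonneg (Dgr80.en_nonneg _ _ _)), fun a ha => by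
      filter_upwards [h1.eventually H.adm, h2 (0 + L), show ∀ᶠ p : ν × ℝ in 𝒲,
        ∫ x in win Y p.2 L, eZ D (c p.1) x ∂D.Z.μ ≤ a / 2 from h0 L _ (half_pos ha)] with p a1 a2 a3
      have := (ek_int_sh (win_op _ _).measurableSet ((adm_cw a1 a2).mono (win_cw _ _)) p.2).1
      rw [win_tr (zero_add _).symm] at this
      linarith⟩
  obtain ⟨β, u, h7, h8⟩ := H.frz γ h4.sol h6
  refine ⟨β, h7, fun η hη => ?_⟩
  have k1 := h4.cv.cz (cwin_cpt 0 η⁻¹) (by simp [h5]) (win_op 0 _) (win_cw 0 _) ⌈η⁻¹⌉₊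
  have k2 := (k1.comp (G := D.G) (h := fun _ => u) (ξ := fun _ _ => 1) (fun ε hε =>
    Eventually.of_forall fun _ => cl_of_eq0 h8 (win_op _ _) hε.le) (Fx.fixed
      ((admOn_univ.2 h4.sol.toAdm).mono (subset_univ _)) (cwin_cpt 0 _)
      (Eventually.of_forall fun _ => ⟨win_op _ _, win_cw _ _⟩)) (fx_cy (crit_adm h7) k1.op)
      (bb_circ k1.op _)) η hη
  show ∀ᶠ p : ν × ℝ in 𝒲, Nr D (c p.1) (A.J 0 p.1) p.2 β η
  filter_upwards [k2, h2 (0 + η⁻¹)] with p a1 a2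
  exact ⟨Ioo_subset_Icc_self.trans (A.icc_sub a2), (Cl.unsh (ζ := 1 * 1) a1).imp fun _ h => ⟨_, h⟩⟩

/-- **no drift along the critical set** -/
theorem drift {𝒱 : Ultrafilter α} {T : α → Set ℝ} (he : Tendsto e 𝒱 𝒰)
    (hT : ∀ᶠ a in 𝒱, (T a).Nonempty ∧ (T a).OrdConnected)
    (hs : ∀ R, ∀ᶠ a in 𝒱, T a ⊆ A.J R (e a))
    (h0 : ∀ L, ∀ ε > 0, ∀ᶠ a in 𝒱, ∀ s ∈ T a, ∫ x in win Y s L, eZ D (c (e a)) x ∂D.Z.μ ≤ ε) :
    ∃ β, N.Crit D β ∧ ∀ η > 0, ∀ᶠ a in 𝒱, ∀ s ∈ T a, Nr D (c (e a)) (A.J 0 (e a)) s β η := by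
  have key : ∀ s : α → ℝ, (∀ᶠ a in 𝒱, s a ∈ T a) → _ := fun s h => H.pt he
    (fun R => (h.and (hs R)).mono fun _ h => h.2 h.1) fun L ε hε =>
      (h.and (h0 L ε hε)).mono fun _ h => h.2 _ h.1
  obtain ⟨s, h1⟩ := ev_choice (hT.mono fun _ h => h.1)
  obtain ⟨β, b1, b2⟩ := key s h1
  refine ⟨β, b1, fun η₀ p0 => by_contra fun hc => ?_⟩
  obtain ⟨d, p1, C, -, h2⟩ := H.dec β b1
  obtain ⟨η₂, p2, h3⟩ := h2 0 1 one_pos
  have p3 := lt_min p0 p2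
  set η := min η₀ η₂
  have p4 := half_pos p3
  obtain ⟨t, h4⟩ := ev_choice (P := fun a t => t ∈ T a ∧ ¬Nr D (c (e a)) (A.J 0 (e a)) t β (η / 2) ∧
      ∀ x ∈ uIcc (s a) t, Nr D (c (e a)) (A.J 0 (e a)) x β η) <| by
    filter_upwards [Ultrafilter.eventually_not.2 hc, h1, hT, b2 _ p4] with a a1 a2 a3 a4
    push Not at a1
    obtain ⟨s', a5, a6⟩ := a1
    obtain ⟨t, a7, a8⟩ := exit (inv_pos.2 p3) (P := fun x => Nr D (c (e a)) (A.J 0 (e a)) x β η)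
      (Q := fun x => Nr D (c (e a)) (A.J 0 (e a)) x β (η / 2)) (a := s a) (b := s')
      (fun x x' h h' => Nr.mono' h p4 (half_le_self p3.le) (by rw [inv_div, div_eq_mul_inv]; linarith))
      a4 fun h => a6 (h.mono p4 ((half_le_self p3.le).trans (min_le_left _ _)))
    exact ⟨t, a3.2.uIcc_subset a2 a5 a7, a8⟩
  obtain ⟨β', c1, c2⟩ := key t (h4.mono fun _ h => h.1)
  have a1 := crit_adm b1
  have a2 := crit_adm c1
  obtain ⟨g, ξ, h5⟩ := rig0 a2 a1 fun ε hε => by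
    have p5 : 0 < ε / 4 := by positivity
    obtain ⟨R, r1, r0⟩ := (((tendsto_id.const_mul_atTop p1).eventually (Brk64.ev_exp p5 1)).and
      (eventually_ge_atTop 0)).exists
    have p6 : 0 < min (ε / 4) (R + 1)⁻¹ := lt_min p5 (by positivity)
    have p7 : R + 1 ≤ (min (ε / 4) (R + 1)⁻¹)⁻¹ := by
      simpa using inv_anti₀ p6 (min_le_right _ _)
    have p8 : 0 < min (η / 2) (R + R + (η / 2)⁻¹)⁻¹ := lt_min p4 (by positivity)
    have p9 := inv_anti₀ p8 (min_le_right _ _)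
    rw [inv_inv] at p9
    obtain ⟨a, ⟨⟨-, d1, d2⟩, d3, d4⟩, ⟨⟨d5, u, ζ, d6⟩, d7, u', ζ', d8⟩, d9⟩ := ((h4.and
      ((he.eventually h3).and (he.eventually H.adm))).and (((b2 _ p6).and (c2 _ p6)).and
      (b2 _ p8))).exists
    have f1 : R + R < |t a - s a| := lt_of_not_ge fun h => d1 (d9.mono' p8 (min_le_left _ _) (by
      linarith))
    obtain ⟨β₁, w, ξ, f2, f3⟩ := (d3 _ _ min_le_max fun x hx =>
      (d2 x hx).mono p3 (min_le_right _ _)).mid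
    have f4 : ∀ {β₀ : YC Y κ lam} {x y : ℝ} {v ζ}, D.Adm β₀ → |y - x| ≤ R →
        min (s a) (t a) + R ≤ y → y + R ≤ max (s a) (t a) →
        Ioo (x - (min (ε / 4) (R + 1)⁻¹)⁻¹) (x + (min (ε / 4) (R + 1)⁻¹)⁻¹) ⊆ A.J 0 (e a) →
        Cn D (c (e a)) β₀ v ζ (win Y x (min (ε / 4) (R + 1)⁻¹)⁻¹) (min (ε / 4) (R + 1)⁻¹) →
        ∃ (g : Y × ℝ → CL β₁.m.V β₀.m.V) (ξ : Circle),
          Cl D.Z (cy β₁) (cy β₀) g (fun _ => ξ) (win Y 0 1) 0 (ε / 2) := by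
      intro β₀ x y v ζ g0 g1 g2 g3 g4 g5
      have g6 := win_sub (Y := Y) (show |y - x| + 1 ≤ _ from (by linarith : _ ≤ R + 1).trans p7)
      have g7 := (cl0_quot (G := D.G) ((f3 y ⟨by linarith, by linarith⟩).mono (win_op _ _)
        Subset.rfl le_rfl (show _ ≤ ε / 4 by
          refine le_trans ?_ r1.le
          rw [one_mul, mul_one, Real.exp_le_exp, neg_mul, neg_le_neg_iff]
          exact mul_le_mul_of_nonneg_left (le_min (le_sub_iff_add_le'.2 g2)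
            (le_sub_iff_add_le'.2 g3)) p1.le))
        (Cl.mono g5 (win_op _ _) g6 (Nat.zero_le _) (min_le_left _ _))
        (d4.mono (g6.trans (prod_mono_right g4))) ((admOn_univ.2 f2.adm).mono (subset_univ _))
        ((admOn_univ.2 g0.adm).mono (subset_univ _))).sh y
      rw [win_tr (zero_add _).symm] at g7
      exact ⟨_, _, Cl.mono g7 (win_op _ _) Subset.rfl le_rfl (by linarith)⟩
    have f5 : ∃ y y', |y - s a| ≤ R ∧ |y' - t a| ≤ R ∧ min (s a) (t a) + R ≤ y ∧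
        y + R ≤ max (s a) (t a) ∧ min (s a) (t a) + R ≤ y' ∧ y' + R ≤ max (s a) (t a) := by
      rcases le_total (s a) (t a) with h | h
      · rw [abs_of_nonneg (sub_nonneg.2 h)] at f1
        rw [min_eq_left h, max_eq_right h]
        exact ⟨s a + R, t a - R, by simp [abs_of_nonneg r0], by simp [abs_of_nonneg r0], le_rfl,
          by linarith, by linarith, by linarith⟩
      · rw [abs_of_nonpos (sub_nonpos.2 h)] at f1
        rw [min_eq_right h, max_eq_left h]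
        exact ⟨s a - R, t a + R, by simp [abs_of_nonneg r0], by simp [abs_of_nonneg r0],
          by linarith, by linarith, le_rfl, by linarith⟩
    obtain ⟨y, y', g1, g2, g3, g4, g5, g6⟩ := f5
    obtain ⟨w1, ξ1, k1⟩ := f4 a1 g1 g3 g4 d5 d6
    obtain ⟨w2, ξ2, k2⟩ := f4 a2 g2 g5 g6 d7 d8
    exact ⟨_, _, (add_halves ε) ▸ cl0_quot (G := D.G) k2 k1
      ((admOn_univ.2 f2.adm).mono (subset_univ _)) ((admOn_univ.2 a2.adm).mono (subset_univ _))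
      ((admOn_univ.2 a1.adm).mono (subset_univ _))⟩
  obtain ⟨η₃, p5, h6⟩ := nr_act a2 a1 h5 p4
  obtain ⟨a, d1, d2⟩ := (h4.and (c2 _ p5)).exists
  exact d1.2.1 (h6 _ _ _ _ d2)

theorem drift' {l : Filter α} [l.NeBot] {T : α → Set ℝ} (he : Tendsto e l 𝒰)
    (hT : ∀ᶠ a in l, (T a).Nonempty ∧ (T a).OrdConnected)
    (hs : ∀ R, ∀ᶠ a in l, T a ⊆ A.J R (e a))
    (h0 : ∀ L, ∀ ε > 0, ∀ᶠ a in l, ∀ s ∈ T a, ∫ x in win Y s L, eZ D (c (e a)) x ∂D.Z.μ ≤ ε) :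
    ∃ β, N.Crit D β ∧ ∀ η > 0, ∃ᶠ a in l, ∀ s ∈ T a, Nr D (c (e a)) (A.J 0 (e a)) s β η :=
  have h := Ultrafilter.of_le l
  (H.drift (𝒱 := Ultrafilter.of l) (he.mono_left h) (h hT) (fun R => h (hs R))
    fun L ε hε => h (h0 L ε hε)).imp fun _ k => ⟨k.1, fun η hη =>
      (k.2 η hη).frequently.filter_mono h⟩

end NI

end Crest.Agent.X212.Nck90
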