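import Crest.Agent.X212.Nck90.Trn
import Crest.Agent.X212.Bki64.Frz
import Crest.Agent.X212.Cmp73.Top

/-!
# X212, necks (helper90), part 10: the leaf `Cmp73.NECK`
-/

set_option autoImplicit false
set_option linter.unusedSectionVars false
noncomputable section
open scoped Manifold ContDiff Topology InnerProductSpace
open MeasureTheory Set Function Filter

namespace Crest.Agent.X212.Nck90
open An An.Job M Cmp73 Nd18 Bki64
open Nka63 (O)

section nf
variable {E : Type} [NormedAddCommGroup E] [NormedSpace ℝ E] [FiniteDimensional ℝ E]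
  [MeasurableSpace E] [BorelSpace E]
  {HM : Type} [TopologicalSpace HM] {I : ModelWithCorners ℝ E HM} [I.Boundaryless]
  {E3 : Type} [NormedAddCommGroup E3] [NormedSpace ℝ E3] [FiniteDimensional ℝ E3]
  [MeasurableSpace E3] [BorelSpace E3]
  {H3 : Type} [TopologicalSpace H3] {I3 : ModelWithCorners ℝ E3 H3} [I3.Boundaryless]
  {Y : Type} [TopologicalSpace Y] [ChartedSpace H3 Y] [IsManifold I3 ∞ Y] [T2Space Y]
  [MeasurableSpace Y] [BorelSpace Y] [SecondCountableTopology Y] [CompactSpace Y]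
  {κ lam α : Type} [Fintype κ] [Fintype lam] {r m : ℕ}
  {Z : α → Type} [∀ n, TopologicalSpace (Z n)] [∀ n, ChartedSpace HM (Z n)]
  [∀ n, IsManifold I ∞ (Z n)] [∀ n, MeasurableSpace (Z n)] [∀ n, T2Space (Z n)]
  [∀ n, BorelSpace (Z n)] [∀ n, SecondCountableTopology (Z n)]
  {D : YD I3 Y κ lam} {N : ND Y lam} {𝒰 : Ultrafilter α} {q₀ : YW I3 Y →₀ ℝ}

/-- exponential decay on the deep part of the necks -/
def DC (F : NF I Z D r m) (N : ND Y lam) (l : Filter α) : Prop :=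
  ∃ d, Dec N D l (fun n => Dp (F.K n).p (F.K n).q d) (ρ := fun _ => r) F.c

theorem nf_ni {F : NF I Z D r m} (h : F.OK N 𝒰 q₀) (hc : F.CZ N 𝒰 q₀) (hd : DC F N 𝒰)
    (ne : ∀ R, ∀ᶠ n in 𝒰, (Dp (F.K n).p (F.K n).q R).Nonempty) : ∃ d > 0,
    NI N D q₀ 𝒰 (dpN (fun n => (F.K n).p) (fun n => (F.K n).q) d) (ρ := fun _ => r) F.c := by
  obtain ⟨d, hd⟩ := hd
  obtain ⟨S, C, h1⟩ := h.ap
  have e := le_max_right d 4
  exact ⟨max d 4, by positivity, h.hD, fun R => ne _, .of_forall fun n =>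
    (adm_pb (F.K n) (h.sol n).toAdm).mono (prod_mono_right (Dp_sub (by linarith))),
    ⟨C, .of_forall fun n => en_dp (F.K n) (by linarith) (h1 n).2.en⟩,
    fun 𝒱 a b => hc 𝒱 a fun R => (b R).mono fun _ h => Dp_mono (by linarith) h,
    hd.mono fun n => Dp_mono (by linarith [le_max_left d 4]), frz_crit h.hD h.hN h.h3.le⟩

end nf

variable {Wi : Type} {X : Mf 4} {A κ lam : Type} [Fintype A] [Fintype κ] [Fintype lam]
  [DecidableEq lam] {M : Mark X A κ} {W : World M} {N : ML M lam}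
  {Λ : Lns W N} {A' h : Type} [Fintype A'] [DecidableEq A'] [Fintype h] {r n : ℕ}
  (J : Job Wi Λ A' h r n) (Adm : (Wi →₀ ℝ) → Prop)

/-- INPUT DCJ: exponential decay on the necks -/
def DCJ : Prop := AllF J Adm fun _ _ c₀ F => ∀ a ∈ cylW c₀, ∀ e (ha : F.Ac a e),
  (F.nf ha).OK (J.xs a).N F.l ((J.xs a).q F.q₀) → DC (F.nf ha) (J.xs a).N F.l

/-- INPUT TRJ: trajectories on the cylinders over the old walls -/
def TRJ : Prop := AllF J Adm fun _ c _ F => ∀ a ∈ cylW c, LvC (J.xs a).N (J.xs a).D ∧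
  Pos (J.xs a).N (J.xs a).D ((J.xs a).q F.q₀) ∧
  TI (J.xs a).N (J.xs a).D ((J.xs a).q F.q₀) F.l fun i => (J.xs a).q (F.q i)

variable {J Adm} {α : Type} {c c₀ : M.Cl} {F : Fam J α c c₀} {a : A}

theorem K_end (hJ : J.OK) {e : Bool} {p : Prm A} (ha : Act J.m c a (some e) p) :
    (J.K c a _ p ha).p = (bif e then none else some 0) ∧
      (J.K c a _ p ha).q = bif e then some 0 else none := by
  have k := hJ.nk c a _ p ha
  cases e <;> exact ⟨by simpa using k.lo, by simpa using k.hi⟩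

theorem K_fin (hJ : J.OK) {p : Prm A} (ha : Act J.m c a none p) :
    (J.K c a _ p ha).p = some 0 ∧ (J.K c a _ p ha).q = some (nl (p.2 a)) :=
  ⟨by simpa using (hJ.nk c a _ p ha).lo, (hJ.nk c a _ p ha).hi⟩

variable (F a) in
/-- the chain of the neck `(a, e₀)` -/
structure N1 (b : Cfg (W.Z c₀).M (Option κ) (lam ⊕ lam) r) (E : Set (W.Z c₀).M) (e₀ : Option Bool)
    (𝒜 : Bool → Pc (J.xs a).Y.M κ (lam ⊕ lam)) (x : ℝ) (j : ℕ) : Prop where
  cs : ∀ e, Cs (J.xs a).N (J.xs a).D (𝒜 e)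
  ch : Ch (J.xs a).N (J.xs a).D ((J.xs a).q F.q₀) (𝒜 false) (𝒜 true) x j
  lev : ∀ ε > 0, ∀ᶠ R in atTop, ∀ᶠ i in (F.l : Filter α), |F.nv i a e₀ R - x| ≤ ε
  zero : j = 0 → x = 0 ∧ ∀ e β ζ, 𝒜 e β ζ → ∀ η > 0, ∃ T, ∀ᶠ i in (F.l : Filter α),
    ∀ ha : Act J.m c a e₀ (F.p i), ∀ s ∈ Dp (J.K c a _ _ ha).p (J.K c a _ _ ha).q T,
      (J.K c a _ _ ha).Near (F.y i).x s β η
  lim : ∀ e (hb : F.Ac₀ a (some e)), e₀ = none ∨ some e = e₀ →
    (∃ R, IntegrableOn (F.kd b) (O (J.K c₀ a _ _ hb) R) (J.G c₀ F.s₀).F.μ ∧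
      Disjoint E (O (J.K c₀ a _ _ hb) R)) ∧ ∀ β ζ, 𝒜 e β ζ → (J.K c₀ a _ _ hb).Lim b β ζ (eF e)
  fin : ∀ e, e₀ = some e → 𝒜 (!e) =
    Lc (J.xs a).N (J.xs a).D F.l (fun i => (F.y i).β a e) fun i => (F.y i).ζ a e

theorem n1 (hJ : J.OK) (hF : F.OK Adm) (hd : DCJ J Adm) (hN : F.NFs) {S : F.Sc}
    {b : Cfg (W.Z c₀).M (Option κ) (lam ⊕ lam) r} (hb : b.Adm (J.B c₀) (J.G c₀ F.s₀)) (hL : S.JL b)
    (h0 : a ∈ cylW c₀) {e₀ : Option Bool} (ha : F.Ac a e₀) : ∃ 𝒜 x j, N1 F a b S.E e₀ 𝒜 x j := by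
  obtain ⟨h1, h2⟩ := hN a h0 e₀ ha
  obtain ⟨d, p, H⟩ := nf_ni h1 h2 (hd _ _ _ F hF a h0 e₀ ha h1) fun R => by
    rcases e₀ with _ | e
    · have t : Tendsto (fun i => (F.p i).2 a) F.l (𝓝[<] 1) := tendsto_nhdsWithin_iff.2
        ⟨(show F.p₀.2 a = 1 from hF.inf.ge h0.1) ▸ tend_a ((hJ.sm.continuous.tendsto _).comp hF.s) ha,
          .of_forall fun i => (ha i).2.2.1 a (ha i).2.2.2.2.1⟩
      refine ((tendsto_nl.comp t).eventually_ge_atTop (R + R)).mono fun i hi => ⟨R, ?_⟩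
      rw [show ((F.nf ha).K i).p = _ from (K_fin hJ (ha i)).1,
        show ((F.nf ha).K i).q = _ from (K_fin hJ (ha i)).2]
      simpa [Dp, le_sub_iff_add_le] using hi
    · refine .of_forall fun i => ⟨bif e then -R else R, ?_⟩
      rw [show ((F.nf ha).K i).p = _ from (K_end hJ (ha i)).1,
        show ((F.nf ha).K i).q = _ from (K_end hJ (ha i)).2]
      cases e <;> simp [Dp]
  obtain ⟨𝒜, x, j, R⟩ := H.nr p
  refine ⟨𝒜, x, j, R.cs, R.ch, fun ε hε => ((R.lev ε hε).and (eventually_ge_atTop 0)).mono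
    fun T h => h.1.mono fun i k => ?_, fun e => ⟨(R.zero e).1, fun e' β ζ k η hη =>
      ((R.zero e).2.2 e' β ζ k η hη).imp fun T h => h.mono fun i h _ => h⟩,
    fun e hb' k => (R.lim e _ fun i => ?_).nk (K_end hJ hb').1 (K_end hJ hb').2 hb
      (hL a e₀ ha e hb' k), ?_⟩
  · rw [Fam.nv, dif_pos (ha i), Obc.kap, ← (kd_O (J.K c a _ _ (ha i)) h.2).2]
    exact k
  · rcases k with rfl | rfl
    · cases e
      · exact (K_fin hJ (ha i)).1.trans (by simp [ls])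
      · exact (K_fin hJ (ha i)).2.trans (by simp [ls])
    · cases e
      · exact (K_end hJ (ha i)).1.trans (by simp [ls])
      · exact (K_end hJ (ha i)).2.trans (by simp [ls])
  · rintro e rfl
    refine R.fin e (fun i => ?_) _ _ (.of_forall fun i => ⟨crit_adm ((hF.sol i).crit a
      ⟨(ha i).2.2.2, (ha i).1⟩ e), _, adm_pb _ (hF.sol i).sol.toAdm, (hF.sol i).lim a e (ha i)⟩)
    cases e
    exacts [(K_end hJ (ha i)).2, (K_end hJ (ha i)).1]

/-- **LEAF NECK** -/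
theorem neck (hJ : J.OK) (hd : DCJ J Adm) (ht : TRJ J Adm) : NECK J Adm := by
  intro α c c₀ F hF S _ b u hb hN hL a h0
  have key := fun e₀ ha => n1 (e₀ := e₀) hJ hF hd hN hb.sol.toAdm hL h0 ha
  by_cases hc : a ∈ c.1
  · have ha : ∀ e, F.Ac a (some e) := fun e i =>
      ⟨h0.2, hJ.memBr hF.mem (hF.sol i).ov, hJ.memO hF.mem (hF.sol i).ov, hc⟩
    have hc' : a ∈ cylW c := ⟨hc, h0.2⟩
    have z : ∀ i R, F.nv i a none R = 0 := fun i R => dif_neg fun h => h.2.2.2.2.1.1 hc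
    obtain ⟨𝒜, x, j, R⟩ := key _ (ha false)
    obtain ⟨𝒜', x', j', R'⟩ := key _ (ha true)
    obtain ⟨hl, hp, T⟩ := ht _ _ _ F hF a hc'
    obtain ⟨_, C, hC⟩ := hF.bd
    have e := R.fin _ rfl
    have e' := R'.fin _ rfl
    obtain ⟨β, ζ, β', ζ', y, m, δ, a1, a2, a3, a4, a5, a6, a7, a8⟩ := T.thru hp hl (R.cs false)
      (e ▸ R.cs true) (e' ▸ R'.cs false) (R'.cs true) (e ▸ R.ch) (e' ▸ R'.ch) fun i =>
        ⟨(hF.sol i).crit a hc' _, (hF.sol i).crit a hc' _, (hF.sol i).brk a hc',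
          (le_abs_self _).trans ((hC i).k a hc')⟩
    refine ⟨fun e => bif e then β' else β, fun e => bif e then ζ' else ζ, _, _, ?_, ?_, a3, ?_,
      fun ε hε => ?_, fun _ => ?_, fun h => absurd hc h⟩
    · rintro (_ | _) hb
      exacts [(R.lim _ hb (.inr rfl)).2 _ _ a1, (R'.lim _ hb (.inr rfl)).2 _ _ a2]
    · rintro (_ | _)
      exacts [(R.cs _).crit a1, (R'.cs _).crit a2]
    · rintro (_ | _) hb
      exacts [(R.lim _ hb (.inr rfl)).1, (R'.lim _ hb (.inr rfl)).1]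
    · have p : 0 < ε / 3 := by positivity
      filter_upwards [R.lev _ p, R'.lev _ p] with T h1 h2
      filter_upwards [h1, h2, Metric.tendsto_nhds.1 a4 _ p] with i h1 h2 h3
      rw [Fintype.sum_option, Fintype.sum_bool, z, indicator_of_mem hc', abs_le]
      rw [Real.dist_eq, abs_lt] at h3
      rw [abs_le] at h1 h2
      constructor <;> linarith
    · by_cases k : j ≠ 0 ∨ j' ≠ 0
      · refine .inr ⟨by omega, δ / 2, half_pos (a8 k), (a6.eventually (gt_mem_nhds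
          (sub_lt_sub_left (half_lt_self (a8 k)) _))).mono fun i h => (lt_sub_iff_add_lt.1 h).le⟩
      obtain ⟨rfl, rfl⟩ : j = 0 ∧ j' = 0 := by omega
      obtain ⟨rfl, k1⟩ := R.zero rfl
      obtain ⟨rfl, k2⟩ := R'.zero rfl
      refine .inl ⟨?_, by simpa using a5, by simpa using a4, by rwa [a7 rfl rfl, sub_zero] at a6,
        fun ε hε => ?_⟩
      · rintro (_ | _) η hη
        · refine (k1 _ _ _ a1 η hη).imp fun T h => h.mono fun i h ha t ht => h ha t ?_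
          rw [(K_end hJ ha).1, (K_end hJ ha).2]
          simpa [Dp, pm] using ht
        · refine (k2 _ _ _ a2 η hη).imp fun T h => h.mono fun i h ha t ht => h ha t ?_
          rw [(K_end hJ ha).1, (K_end hJ ha).2]
          simpa [Dp, pm, le_neg] using ht
      · filter_upwards [R.lev _ hε, R'.lev _ hε] with T h1 h2
        filter_upwards [h1, h2] with i h1 h2
        rintro (_ | _ | _)
        exacts [by simpa [z] using hε.le, by simpa using h1, by simpa using h2]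
  · obtain ⟨𝒜, x, j, R⟩ := key _ ((hF.new a h0).1 hc)
    obtain ⟨β, ζ, β', ζ', a1, a2, a3⟩ := R.ch.brk (R.cs _).ne (R.cs _).ne
    have z : ∀ i e R, F.nv i a (some e) R = 0 := fun i e R => dif_neg fun h => hc h.2.2.2
    refine ⟨fun e => bif e then β' else β, fun e => bif e then ζ' else ζ, x, j, ?_, ?_, a3,
      fun e hb => (R.lim e hb (.inl rfl)).1, fun ε hε => (R.lev ε hε).mono fun T h =>
        h.mono fun i h => ?_, fun h => absurd h hc, fun _ k η hη =>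
          ((R.zero k).2 _ _ _ a1 η hη).imp fun T h => h.mono fun i h ha t ht => h ha t ?_⟩
    · rintro (_ | _) hb
      exacts [(R.lim _ hb (.inl rfl)).2 _ _ a1, (R.lim _ hb (.inl rfl)).2 _ _ a2]
    · rintro (_ | _)
      exacts [(R.cs _).crit a1, (R.cs _).crit a2]
    · simpa [Fintype.sum_option, z, indicator_of_notMem fun h : a ∈ cylW c => hc h.1] using h
    · rw [(K_fin hJ ha).1, (K_fin hJ ha).2]
      simpa [Dp] using ht

end Crest.Agent.X212.Nck90
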