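import Crest.Agent.X212.Nck90.Cyi
import Crest.Agent.X212.Bki64.Lm
import Crest.Agent.X212.Pj41.Two
import Crest.Agent.X212.Ms48.One

/-!
# X212, necks (helper90), part 14: the level function modulo `ℤ`
-/

set_option autoImplicit false
set_option linter.unusedSectionVars false
noncomputable section
open scoped Manifold ContDiff Topology InnerProductSpace
open MeasureTheory Set Function Filter

namespace Crest.Agent.X212.Nck90
open An Sob92 Cyf70 Neck67 Pj41 Tmp64 Nd18 Std94 Bki64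
open Loc66 (mix mix_zero mix_one mix_eq connOn_mix connOn_mix0 kd_loc kd_congr)

variable {E3 : Type} [NormedAddCommGroup E3] [NormedSpace ℝ E3] [FiniteDimensional ℝ E3]
  [MeasurableSpace E3] [BorelSpace E3]
  {H3 : Type} [TopologicalSpace H3] {I3 : ModelWithCorners ℝ E3 H3} [I3.Boundaryless]
  {Y : Type} [TopologicalSpace Y] [ChartedSpace H3 Y] [IsManifold I3 ∞ Y] [T2Space Y]
  [MeasurableSpace Y] [BorelSpace Y] [SecondCountableTopology Y] [CompactSpace Y]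
  {κ : Type} [Fintype κ] {lam : Type} [Fintype lam] {D : YD I3 Y κ lam} {β β' : YC Y κ lam}
  {m m' : Md (Y × ℝ) (Option κ) lam} {W V : m.Cn} {W' : m'.Cn} {O S S' : Set (Y × ℝ)}
  {a b a' b' s : ℝ} {x : Y × ℝ}

theorem admOn_zero (hm : OKOn (IC I3) D.B m O) (hW : ConnOn D.B D.G m W O) :
    AdmOn (⟨m, W, 0, 0⟩ : Cfg _ _ lam 0) D.B D.G O :=
  ⟨hm, hW, fun _ _ => contMDiffAt_const, fun _ _ => map_zero _, .inl rfl⟩

theorem kd_cy (hD : D.OK) (hβ : D.Adm β) (x : Y × ℝ) : kZ D (cy β) x = 0 :=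
  kd_zero hD hβ.adm (en_cy hβ x)

variable (D) in
/-- `(m, W)` is `β` over `S` -/
def Ex (m : Md (Y × ℝ) (Option κ) lam) (W : m.Cn) (β : YC Y κ lam) (S : Set (Y × ℝ)) : Prop :=
  ∃ u, Iso0 (IC I3) m (cy β).m S u ∧ Par0 D.Z W (cy β).W S u

theorem Ex.mono (h : Ex D m W β S) (e : S' ⊆ S) : Ex D m W β S' :=
  let ⟨u, h1, h2⟩ := h; ⟨u, h1.mono e, h2.mono e⟩

theorem Ex.congr (h : Ex D m W β S) (e : ∀ a, ∀ x ∈ S, V a x = W a x) : Ex D m V β S :=
  let ⟨u, h1, h2⟩ := h; ⟨u, h1, fun x hx a => e a x hx ▸ h2 x hx a⟩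

theorem Ex.kd (h : Ex D m W β S) (hD : D.OK) (hβ : D.Adm β) (hS : IsOpen S)
    (hm : OKOn (IC I3) D.B m S) (hW : ConnOn D.B D.G m W S) (hx : x ∈ S) :
    m.kd D.B D.Z W x = 0 :=
  let ⟨_, h1, h2⟩ := h
  (kd_loc h1 hS hm (OK.on hβ.adm.ok _) (fun a => hW.sm a x hx) (fun a => hβ.adm.conn.cc.sm a x)
    h2 hx).symm.trans (kd_cy hD hβ x)

theorem Ex.two (h : Ex D m W β S) (h' : Ex D m' W' β S) (hβ : D.Adm β)
    (hm : OKOn (IC I3) D.B m' S) (hW : ConnOn D.B D.G m' W' S) :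
    ∃ u, Iso0 (IC I3) m m' S u ∧ Par0 D.Z W W' S u :=
  let ⟨_, h1, h2⟩ := h
  let ⟨_, k1, k2⟩ := h'
  have k3 := k1.symm hm (OK.on hβ.adm.ok _)
  ⟨_, h1.trans k3, h2.trans (k2.symm k1.su hW.sk (IsConn.on hβ.adm.conn _).sk) h1.su k3.su⟩

theorem op_lo (a : ℝ) : IsOpen {x : Y × ℝ | x.2 < a} := isOpen_lt continuous_snd continuous_const

theorem op_hi (a : ℝ) : IsOpen {x : Y × ℝ | a < x.2} := isOpen_lt continuous_const continuous_snd

theorem out_bn : x ∉ Bn Y a b ↔ x.2 < a ∨ b < x.2 := by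
  simp only [mem_prod, mem_univ, true_and, mem_Icc, not_and_or, not_le]

theorem bn_cpt (a b : ℝ) : IsCompact (Bn Y a b) := isCompact_univ.prod isCompact_Icc

variable (D) in
/-- `(m, W)` is `β` below the band and `β'` above the band -/
structure Eb (m : Md (Y × ℝ) (Option κ) lam) (W : m.Cn) (O : Set (Y × ℝ)) (a b : ℝ)
    (β β' : YC Y κ lam) : Prop where
  ad : D.Adm β
  ad' : D.Adm β'
  op : IsOpen O
  sub : Bn Y a b ⊆ O
  le : a ≤ b
  ok : OKOn (IC I3) D.B m O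
  cn : ConnOn D.B D.G m W O
  lo : Ex D m W β (O ∩ {x | x.2 < a})
  hi : Ex D m W β' (O ∩ {x | b < x.2})

theorem Eb.cmp (h : Eb D m W O a b β β') (ci : CI D) (h' : Eb D m' W' univ a b β β') : ∃ k : ℤ,
    ∫ x in Bn Y a b, m.kd D.B D.Z W x ∂D.Z.μ - ∫ x in Bn Y a b, m'.kd D.B D.Z W' x ∂D.Z.μ = k := by
  have e : ∀ T, O ∩ T ⊆ univ ∩ T := fun _ => inter_subset_inter_left _ (subset_univ _)
  obtain ⟨u, u1, u2⟩ := h.lo.two (h'.lo.mono (e _)) h.ad (h'.ok.mono (subset_univ _))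
    (h'.cn.mono (subset_univ _))
  obtain ⟨v, v1, v2⟩ := h.hi.two (h'.hi.mono (e _)) h.ad' (h'.ok.mono (subset_univ _))
    (h'.cn.mono (subset_univ _))
  let w : Y × ℝ → CL m.V m'.V := fun x => if x.2 < a then u x else v x
  have e1 : EqOn w u (O ∩ {x | x.2 < a}) := fun x hx => if_pos hx.2
  have e2 : EqOn w v (O ∩ {x | b < x.2}) := fun x hx => if_neg (h.le.trans hx.2.le).not_gt
  have o1 := h.op.inter (op_lo a)
  have o2 := h.op.inter (op_hi b)
  exact ci m m' W W' w O a b h.op h.sub h.ok (okOn_univ.1 h'.ok) h.cn (h'.cn.mono (subset_univ _))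
    (iso0_of_local fun x hx => (out_bn.1 hx.2).elim
      (fun k => ⟨_, mem_inter hx.1 k, u1.congr o1 e1⟩)
      fun k => ⟨_, mem_inter hx.1 k, v1.congr o2 e2⟩) fun x hx => (out_bn.1 hx.2).elim
    (fun k => u2.congr o1 e1 x ⟨hx.1, k⟩) fun k => v2.congr o2 e2 x ⟨hx.1, k⟩

theorem Eb.kd (h : Eb D m W O a b β β') (hD : D.OK) (hx : x ∈ O) (k : x ∉ Bn Y a b) :
    m.kd D.B D.Z W x = 0 :=
  (out_bn.1 k).elim (fun k => h.lo.kd hD h.ad (h.op.inter (op_lo a)) (h.ok.mono inter_subset_left)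
    (h.cn.mono inter_subset_left) ⟨hx, k⟩) fun k => h.hi.kd hD h.ad' (h.op.inter (op_hi b))
      (h.ok.mono inter_subset_left) (h.cn.mono inter_subset_left) ⟨hx, k⟩

theorem Eb.ion (h : Eb D m W O a b β β') (hD : D.OK) :
    IntegrableOn (m.kd D.B D.Z W) (Bn Y a b) D.Z.μ :=
  ContinuousOn.integrableOn_compact (bn_cpt a b) fun _ hx =>
    (fsm_kd hD.B h.op (admOn_zero h.ok h.cn) (h.sub hx)).continuousAt.continuousWithinAt

theorem Eb.int (h : Eb D m W univ a b β β') (hD : D.OK) : Integrable (m.kd D.B D.Z W) D.Z.μ :=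
  (h.ion hD).integrable_of_forall_notMem_eq_zero fun _ => h.kd hD trivial

theorem Eb.kap (h : Eb D m W univ a b β β') (hD : D.OK) :
    ∫ x in Bn Y a b, m.kd D.B D.Z W x ∂D.Z.μ = m.kap D.B D.Z W :=
  setIntegral_eq_integral_of_forall_compl_eq_zero fun _ => h.kd hD trivial

theorem Eb.wide (h : Eb D m W univ a b β β') (h1 : a' ≤ a) (h2 : b ≤ b') :
    Eb D m W univ a' b' β β' :=
  ⟨h.ad, h.ad', h.op, subset_univ _, h1.trans (h.le.trans h2), h.ok, h.cn,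
    h.lo.mono fun _ k => ⟨trivial, k.2.trans_le h1⟩, h.hi.mono fun _ k => ⟨trivial, h2.trans_lt k.2⟩⟩

theorem Eb.sub_int (h : Eb D m W univ a b β β') (ci : CI D) (hD : D.OK)
    (h' : Eb D m' W' univ a' b' β β') : ∃ k : ℤ, m.kap D.B D.Z W - m'.kap D.B D.Z W' = k := by
  have k := h.wide (min_le_left a a') (le_max_left b b')
  have k' := h'.wide (min_le_right a a') (le_max_right b b')
  exact k.kap hD ▸ k'.kap hD ▸ k.cmp ci k'

/-- `W` below `s`, `V` above `s + 1` -/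
abbrev mx (s : ℝ) (W V : m.Cn) : m.Cn := mix (fun x => chi (x.2 - s)) W V

theorem mx_lo (h : x.2 ≤ s + 1 / 3) (a : Option κ) : mx s W V a x = W a x := by
  rw [mx, mix_eq, chi_zero (by linarith), sub_zero, one_smul, zero_smul, add_zero]

theorem mx_hi (h : s + 2 / 3 ≤ x.2) (a : Option κ) : mx s W V a x = V a x := by
  rw [mx, mix_eq, chi_one (by linarith), sub_self, one_smul, zero_smul, zero_add]

theorem eb_mx (hβ : D.Adm β) (hβ' : D.Adm β') (hm : OKOn (IC I3) D.B m univ)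
    (hW : ConnOn D.B D.G m W univ) (hV : ConnOn D.B D.G m V univ) (h1 : Ex D m W β {x | x.2 < a})
    (h2 : Ex D m V β' univ) (e : a ≤ s) : Eb D m (mx s W V) univ a (s + 1) β β' :=
  ⟨hβ, hβ', isOpen_univ, subset_univ _, by linarith, hm,
    connOn_mix0 (fun x _ => sm_snd (chi_sm s) x) hW hV,
    (h1.mono inter_subset_right).congr fun o x hx => mx_lo (by linarith [hx.2.out]) o,
    (h2.mono (subset_univ _)).congr fun o x hx => mx_hi (by linarith [hx.2.out]) o⟩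

theorem kd_eqOn (hS : IsOpen S) (hx : x ∈ S) (e : ∀ a, ∀ y ∈ S, W a y = V a y) :
    m.kd D.B D.Z W x = m.kd D.B D.Z V x :=
  kd_congr fun a => (hS.eventually_mem hx).mono fun y hy => e a y hy

variable (D) in
/-- `ℓ` is a level function -/
def Lv (ℓ : YC Y κ lam → ℝ) : Prop := ∀ m (W : m.Cn) O a b β β', Eb D m W O a b β β' → a + 1 ≤ b →
  ∃ k : ℤ, ∫ x in Bn Y a b, m.kd D.B D.Z W x ∂D.Z.μ = ℓ β' - ℓ β + k

theorem exists_lv (ci : CI D) (hD : D.OK) (h3 : Module.finrank ℝ E3 = 3) : ∃ ℓ, Lv D ℓ := by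
  by_cases e : ∃ β₀, D.Adm β₀
  swap
  · exact ⟨0, fun _ _ _ _ _ _ _ h => absurd ⟨_, h.ad⟩ e⟩
  obtain ⟨β₀, h0⟩ := e
  have ok := OK.on h0.adm.ok univ
  have : ∀ β : YC Y κ lam, ∃ A : (cy β₀).m.Cn, D.Adm β → ConnOn D.B D.G _ A univ ∧
      Ex D _ A β univ := fun β => by
    by_cases hβ : D.Adm β
    swap
    · exact ⟨0, fun h => absurd h hβ⟩
    obtain ⟨v, hv⟩ := Ms48.one D hD h3 β.m β₀.m hβ.adm.ok h0.adm.ok
    have ok' := OK.on hβ.adm.ok univ
    have i := Iso0.of_mEq isOpen_univ hv ok' ok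
    have k := IsConn.on hβ.adm.conn univ
    obtain ⟨k1, k2⟩ := conn_push i isOpen_univ ok' ok hD.G.P k
    exact ⟨_, fun _ => ⟨k1, _, i.symm ok' ok, k2.symm i.su k.sk k1.sk⟩⟩
  choose A hA using this
  have eb : ∀ {β β'} (s : ℝ), D.Adm β → D.Adm β' →
      Eb D _ (mx s (A β) (A β')) univ s (s + 1) β β' := fun s h h' =>
    eb_mx h h' ok (hA _ h).1 (hA _ h').1 ((hA _ h).2.mono (subset_univ _)) (hA _ h').2 le_rfl
  refine ⟨fun β => (cy β₀).m.kap D.B D.Z (mx 0 (A β₀) (A β)), fun m W O a b β β' h hab => ?_⟩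
  have e1 := eb a h.ad h.ad'
  have e2 := eb (a - 2) h0 h.ad
  have e3 := eb_mx (s := a) h0 h.ad' ok e2.cn (hA _ h.ad').1 (e2.lo.mono fun _ k => ⟨trivial, k⟩)
    (hA _ h.ad').2 (by linarith)
  obtain ⟨k1, e4⟩ := h.cmp ci (e1.wide le_rfl hab)
  obtain ⟨k2, e5⟩ := e2.sub_int ci hD (eb 0 h0 h.ad)
  obtain ⟨k3, e6⟩ := e3.sub_int ci hD (eb 0 h0 h.ad')
  have e7 : (cy β₀).m.kap D.B D.Z (mx a (mx (a - 2) (A β₀) (A β)) (A β')) =
      (cy β₀).m.kap D.B D.Z (mx (a - 2) (A β₀) (A β)) + (cy β₀).m.kap D.B D.Z (mx a (A β) (A β')) := by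
    rw [Md.kap, Md.kap, Md.kap, ← integral_add (e2.int hD) (e1.int hD)]
    refine integral_congr_ae (.of_forall fun x => ?_)
    rcases lt_or_ge x.2 a with k | k
    · simp only [e1.kd hD trivial (out_bn.2 (.inl k)), add_zero]
      exact kd_eqOn (op_lo a) k fun o y hy => mx_lo (by linarith [hy.out]) o
    · have k' : a - 2 + 1 < x.2 := by linarith
      simp only [e2.kd hD trivial (out_bn.2 (.inr k')), zero_add]
      exact kd_eqOn (op_hi _) k' fun o y hy => by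
        rw [mx, mix_eq, mx_hi (by linarith [hy.out]) o, mx, mix_eq]
  rw [(e1.wide le_rfl hab).kap hD] at e4
  exact ⟨k1 + k3 - k2, by push_cast; linarith⟩

end Crest.Agent.X212.Nck90
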