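import Crest.Agent.X212.Nck90.Lv0
import Crest.Agent.X212.Dgr80.Fen

/-!
# X212, necks (helper90), part 15: levels of trajectories and of paths
-/

set_option autoImplicit false
set_option linter.unusedSectionVars false
noncomputable section
open scoped Manifold ContDiff Topology InnerProductSpace
open MeasureTheory Set Function Filter

namespace Crest.Agent.X212.Nck90
open An Sob92 Cyf70 Neck67 Pj41 Tmp64 Nd18 Std94 Bki64
open Loc66 (mix mix_zero mix_one mix_eq connOn_mix connOn_mix0 kd_loc kd_congr)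

variable {E3 : Type} [NormedAddCommGroup E3] [NormedSpace ℝ E3] [FiniteDimensional ℝ E3]
  [MeasurableSpace E3] [BorelSpace E3]
  {H3 : Type} [TopologicalSpace H3] {I3 : ModelWithCorners ℝ E3 H3} [I3.Boundaryless]
  {Y : Type} [TopologicalSpace Y] [ChartedSpace H3 Y] [IsManifold I3 ∞ Y] [T2Space Y]
  [MeasurableSpace Y] [BorelSpace Y] [SecondCountableTopology Y] [CompactSpace Y]
  {κ : Type} [Fintype κ] {lam : Type} [Fintype lam] {D : YD I3 Y κ lam} {β β' : YC Y κ lam}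
  {r : ℕ} {c : Cfg (Y × ℝ) (Option κ) lam r} {O S : Set (Y × ℝ)} {C K δ : ℝ} {ζ ζ' : Circle}
  {u : Y × ℝ → CL c.m.V β.m.V} {ℓ : YC Y κ lam → ℝ}

variable (D) in
/-- near `β` the level density is small -/
def Ek (β : YC Y κ lam) (C : ℝ) : Prop := ∀ r (c : Cfg (Y × ℝ) (Option κ) lam r) u (ζ : Circle) O δ,
  AdmOn c D.B D.G O → Cl D.Z c (cy β) u (fun _ => ζ) O 1 δ → δ ≤ 1 → ∀ x ∈ O, |kZ D c x| ≤ C * δ

theorem Ek.mono {C' : ℝ} (h : Ek D β C) (e : C ≤ C') : Ek D β C' := fun r c u ζ O δ a b d x hx =>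
  (h r c u ζ O δ a b d x hx).trans
    (mul_le_mul_of_nonneg_right e ((norm_nonneg _).trans (b.P.le hx)))

theorem exists_ek (hD : D.OK) (hβ : D.Adm β) : ∃ C > 0, Ek D β C :=
  (ek_cy hD hβ).imp fun _ h => ⟨h.1, fun r c u ζ O δ a b d x hx => (h.2 r c u ζ O δ a b d x hx).2⟩

theorem cap_alg {V W : Type} [NormedAddCommGroup V] [NormedSpace ℝ V] [NormedAddCommGroup W]
    [NormedSpace ℝ W] {d u : V →L[ℝ] W} {a : W →L[ℝ] W} {w v : V →L[ℝ] V} {t : W →L[ℝ] V} (χ : ℝ)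
    (h : d + a ∘L u - u ∘L v = 0) : (d + a ∘L u - u ∘L (w + χ • (v - w))) ∘L t =
      (1 - χ) • ((d + a ∘L u - u ∘L w) ∘L t) := by
  rw [sub_eq_zero.1 h, ← ContinuousLinearMap.smul_comp]
  simp only [ContinuousLinearMap.comp_add, ContinuousLinearMap.comp_smul,
    ContinuousLinearMap.comp_sub]
  congr 1
  module

/-- capping off -/
theorem cap (hD : D.OK) (hβ : D.Adm β) (hE : Ek D β C) (hO : IsOpen O) (hc : AdmOn c D.B D.G O)
    (h : Cl D.Z c (cy β) u (fun _ => ζ) S 1 δ) (hS : S ⊆ O) {χ : ℝ → ℝ} (hχ : ContDiff ℝ ∞ χ)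
    (hK : Lb D.Z.toPre S 1 (fun x => 1 - χ x.2) K) (k1 : 1 ≤ K) (h0 : 0 ≤ δ) (hδ : 2 * K * δ ≤ 1)
    (hs : ∀ x ∈ O, x ∈ S ∨ ∀ᶠ t in 𝓝 x.2, χ t = 0) :
    ∃ W : c.m.Cn, ConnOn D.B D.G c.m W O ∧ (∀ a x, χ x.2 = 0 → W a x = c.W a x) ∧
      Ex D c.m W β (S ∩ {x | χ x.2 = 1}) ∧ ∀ x ∈ S, |c.m.kd D.B D.Z W x| ≤ C * (2 * K * δ) := by
  have a1 := hc.mono hS
  have ok' := OK.on hβ.adm.ok S
  have k := IsConn.on hβ.adm.conn S
  have i := h.iso.symm a1.ok ok'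
  obtain ⟨k2, k3⟩ := conn_push i h.op ok' a1.ok hD.G.P k
  have k4 := k3.symm i.su k.sk k2.sk
  simp only [Pj41.ad_ad] at k4
  set V := pshC D.G.F (fun x => ad (u x)) (cy β).W
  have k5 : ConnOn D.B D.G c.m (mix (fun x => χ x.2) c.W V) O :=
    connOn_mix (sm_snd hχ) hO h.op hc.conn k2 (fun x hx => .inl hx) fun x hx => (hs x hx).imp_right
      fun e => notMem_tsupport_iff_eventuallyEq.2
        ((continuous_snd.tendsto x).eventually e : ∀ᶠ y : Y × ℝ in 𝓝 x, χ y.2 = 0)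
  refine ⟨_, k5, fun a x e => by simp [mix, e], Ex.congr (W := V) ⟨u, h.iso.mono inter_subset_left,
    k4.mono inter_subset_left⟩ fun a x hx => by simp [mix, hx.2.out],
    hE r ⟨c.m, mix (fun x => χ x.2) c.W V, c.Φ, c.z⟩ u ζ S _ ⟨a1.ok, k5.mono hS, a1.sm, a1.pos, a1.z⟩
      ⟨h.op, h.iso, fun a => (((hK.smul h.op (h.A a))).mono ?_).congr h.op fun x hx => ?_,
        h.P.mono (by nlinarith)⟩ hδ⟩
  · rw [abs_of_nonneg h0, abs_of_nonneg (zero_le_one.trans k1), pow_one]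
  · exact cap_alg _ (k4 x hx a)

theorem lb_chi : ∃ K, 1 ≤ K ∧ ∀ s : ℝ,
    Lb D.Z.toPre (univ ×ˢ Ioo s (s + 1)) 1 (fun x => chi (x.2 - s)) K ∧
    Lb D.Z.toPre (univ ×ˢ Ioo s (s + 1)) 1 (fun x => 1 - chi (x.2 - s)) K := by
  obtain ⟨C, h0, h⟩ := chi_bd 1
  refine ⟨1 + C, by linarith, fun s => ?_⟩
  have o : IsOpen (univ ×ˢ Ioo s (s + 1) : Set (Y × ℝ)) := isOpen_univ.prod isOpen_Ioo
  have k : Lb D.Z.toPre (univ ×ˢ Ioo s (s + 1)) 1 (fun x => chi (x.2 - s)) C :=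
    lb_snd o h0.le (chi_sm s) fun j hj x hx => h j hj s x.2
      (abs_le.2 ⟨by linarith [hx.2.1], by linarith [hx.2.2]⟩)
  exact ⟨k.mono (by linarith), ((Lb.const o (1 : ℝ)).sub' o k).mono (by simp [abs_of_pos h0])⟩

theorem vol_bn {a b : ℝ} (h : a ≤ b) : D.Z.μ.real (Bn Y a b) = D.F.μ.real univ * (b - a) := by
  rw [show D.Z.μ = D.F.μ.prod volume from rfl, measureReal_prod_prod, Real.volume_real_Icc,
    max_eq_left (by linarith)]

/-- **the level of a band with almost standard ends** -/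
theorem Lv.apx (hℓ : Lv D ℓ) (hD : D.OK) : ∃ K > 0, ∀ (β β' : YC Y κ lam) C r
    (c : Cfg (Y × ℝ) (Option κ) lam r) p q u u' (ζ ζ' : Circle) δ, D.Adm β → D.Adm β' → Ek D β C →
    Ek D β' C → 0 ≤ C → p ≤ q → AdmOn c D.B D.G (univ ×ˢ Ioo (p - 1) (q + 1)) →
    Cl D.Z c (cy β) u (fun _ => ζ) (univ ×ˢ Ioo (p - 1) p) 1 δ →
    Cl D.Z c (cy β') u' (fun _ => ζ') (univ ×ˢ Ioo q (q + 1)) 1 δ → 0 ≤ δ → K * δ ≤ 1 →
    ∃ n : ℤ, |∫ x in Bn Y p q, kZ D c x ∂D.Z.μ - (ℓ β' - ℓ β + n)| ≤ K * C * δ := by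
  obtain ⟨K, k1, hK⟩ := lb_chi (D := D)
  have m0 : 0 ≤ D.F.μ.real univ := measureReal_nonneg
  refine ⟨2 * K * (1 + 2 * D.F.μ.real univ), by positivity,
    fun β β' C r c p q u u' ζ ζ' δ hβ hβ' e1 e2 hC pq hc h1 h2 h0 hδ => ?_⟩
  have hδ' : 2 * K * δ ≤ 1 := by nlinarith [mul_nonneg (mul_nonneg (zero_le_one.trans k1) m0) h0]
  set O : Set (Y × ℝ) := univ ×ˢ Ioo (p - 1) (q + 1)
  have hO : IsOpen O := isOpen_univ.prod isOpen_Ioo
  obtain ⟨W₁, a1, a2, a3, a4⟩ := cap hD hβ e1 hO hc h1 (prod_mono_right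
    (Ioo_subset_Ioo_right (by linarith))) (χ := fun t => 1 - chi (t - (p - 1)))
    (contDiff_const.sub (chi_sm _)) (by simpa using (hK (p - 1)).1) k1 h0 hδ' fun x hx =>
      (lt_or_ge x.2 p).imp (fun k => ⟨trivial, hx.2.1, k⟩) fun k =>
        (eventually_gt_nhds (show p - 1 / 3 < x.2 by linarith)).mono fun t ht => by
          rw [chi_one (by linarith), sub_self]
  obtain ⟨W₂, b1, b2, b3, b4⟩ := cap hD hβ' e2 hO hc h2 (prod_mono_right
    (Ioo_subset_Ioo_left (by linarith))) (chi_sm q) (hK q).2 k1 h0 hδ' fun x hx =>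
      (lt_or_ge q x.2).imp (fun k => ⟨trivial, k, hx.2.2⟩) fun k =>
        (eventually_lt_nhds (show x.2 < q + 1 / 3 by linarith)).mono fun t ht =>
          chi_zero (by linarith)
  let W : c.m.Cn := fun a x => W₁ a x + W₂ a x - c.W a x
  have w1 : ∀ a, ∀ x ∈ {x : Y × ℝ | x.2 < q + 1 / 3}, W a x = W₁ a x := fun a x hx => by
    simp only [W, b2 a x (chi_zero (by linarith [hx.out])), add_sub_cancel_right]
  have w2 : ∀ a, ∀ x ∈ {x : Y × ℝ | p - 1 / 3 < x.2}, W a x = W₂ a x := fun a x hx => by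
    simp only [W, a2 a x (by rw [chi_one (by linarith [hx.out]), sub_self]), add_sub_cancel_left]
  have eb : Eb D c.m W O (p - 2 / 3) (q + 2 / 3) β β' := ⟨hβ, hβ', hO,
    prod_mono_right (Icc_subset_Ioo (by linarith) (by linarith)), by linarith, hc.ok,
    ConnOn.of_local fun x hx => (lt_or_ge x.2 (q + 1 / 3)).elim
      (fun k => ⟨_, mem_inter hx k, (a1.mono inter_subset_left).congr (hO.inter (op_lo _))
        fun a y hy => w1 a y hy.2⟩)
      fun k => ⟨_, mem_inter hx (show x ∈ {x : Y × ℝ | p - 1 / 3 < x.2} from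
        show p - 1 / 3 < x.2 by linarith), (b1.mono inter_subset_left).congr (hO.inter (op_hi _))
        fun a y hy => w2 a y hy.2⟩,
    (a3.mono fun x hx => ⟨⟨trivial, hx.1.2.1, by linarith [hx.2.out]⟩, show 1 - chi _ = 1 by
      rw [chi_zero (by linarith [hx.2.out]), sub_zero]⟩).congr fun a x hx =>
        w1 a x (show x.2 < q + 1 / 3 by linarith [hx.2.out]),
    (b3.mono fun x hx => ⟨⟨trivial, by linarith [hx.2.out], hx.1.2.2⟩,
      chi_one (by linarith [hx.2.out])⟩).congr fun a x hx =>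
        w2 a x (show p - 1 / 3 < x.2 by linarith [hx.2.out])⟩
  obtain ⟨n, hn⟩ := hℓ _ _ _ _ _ _ _ eb (by linarith)
  have sb : Bn Y p q ⊆ Bn Y (p - 2 / 3) (q + 2 / 3) :=
    prod_mono_right (Icc_subset_Icc (by linarith) (by linarith))
  have ms := (bn_cpt (Y := Y) p q).measurableSet
  have fin := (bn_cpt (Y := Y) (p - 2 / 3) (q + 2 / 3)).measure_lt_top (μ := D.Z.μ)
  have e3 : ∫ x in Bn Y p q, kZ D c x ∂D.Z.μ = ∫ x in Bn Y p q, c.m.kd D.B D.Z W x ∂D.Z.μ :=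
    setIntegral_congr_fun ms fun x hx => (kd_eqOn ((op_lo (q + 1 / 3)).inter (op_hi (p - 1 / 3)))
      ⟨show x.2 < q + 1 / 3 by linarith [hx.2.2], show p - 1 / 3 < x.2 by linarith [hx.2.1]⟩
      fun a y hy =>
        (w1 a y hy.1).trans (a2 a y (by rw [chi_one (by linarith [hy.2.out]), sub_self]))).symm
  refine ⟨n, ?_⟩
  rw [← hn, e3, abs_sub_comm, ← setIntegral_sdiff ms (eb.ion hD) sb]
  refine (norm_setIntegral_le_of_norm_le_const (f := c.m.kd D.B D.Z W) (C := C * (2 * K * δ))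
    ((measure_mono sdiff_subset).trans_lt fin) fun x hx => ?_).trans ?_
  · rcases out_bn.1 hx.2 with k | k
    · rw [kd_eqOn (op_lo _) (show x.2 < q + 1 / 3 by linarith) w1]
      exact a4 x ⟨trivial, by linarith [hx.1.2.1], k⟩
    · rw [kd_eqOn (op_hi _) (show p - 1 / 3 < x.2 by linarith) w2]
      exact b4 x ⟨trivial, k, by linarith [hx.1.2.2]⟩
  · rw [measureReal_sdiff sb ms fin.ne, vol_bn (by linarith), vol_bn pq]
    nlinarith [mul_nonneg (mul_nonneg (mul_nonneg (zero_le_one.trans k1) m0) h0) hC,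
      mul_nonneg (mul_nonneg (zero_le_one.trans k1) h0) hC]

theorem int_of_apx {x : ℝ} (h : ∀ ε > 0, ∃ n : ℤ, |x - n| < ε) : ∃ n : ℤ, x = n :=
  let ⟨n, e⟩ := Int.isClosedEmbedding_coe_real.isClosed_range.closure_subset
    (Metric.mem_closure_iff.2 fun ε hε => let ⟨n, e⟩ := h ε hε; ⟨n, ⟨n, rfl⟩, e⟩)
  ⟨n, e.symm⟩

section traj
variable {c : Cfg (Y × ℝ) (Option κ) lam 0}

/-- **levels of trajectories** -/
theorem Lv.traj (hℓ : Lv D ℓ) (hD : D.OK) (hβ : D.Adm β) (hβ' : D.Adm β') (hc : c.Adm D.B D.G)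
    (hi : Integrable (kZ D c) D.Z.μ) (h1 : D.nk.Lim c β ζ atBot) (h2 : D.nk.Lim c β' ζ' atTop) :
    ∃ n : ℤ, c.kap D.B D.G = ℓ β' - ℓ β + n := by
  obtain ⟨K, k0, hK⟩ := hℓ.apx hD
  obtain ⟨C, c0, e1⟩ := exists_ek hD hβ
  obtain ⟨C', c1, e2⟩ := exists_ek hD hβ'
  have ad := fun O => (admOn_univ.2 hc).mono (subset_univ O)
  have t : Tendsto (fun R : ℝ => ∫ x in Bn Y (-R) R, kZ D c x ∂D.Z.μ) atTop (𝓝 (c.kap D.B D.G)) := by
    have := tendsto_setIntegral_of_monotone (s := fun R : ℝ => Bn Y (-R) R)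
      (fun R => (bn_cpt _ _).measurableSet)
      (fun R R' h => prod_mono_right (Icc_subset_Icc (neg_le_neg h) h)) hi.integrableOn
    rwa [show ⋃ R : ℝ, Bn Y (-R) R = univ from eq_univ_of_forall fun x =>
      mem_iUnion.2 ⟨|x.2|, trivial, neg_abs_le _, le_abs_self _⟩, Measure.restrict_univ] at this
  obtain ⟨n, e⟩ := int_of_apx (x := c.kap D.B D.G - (ℓ β' - ℓ β)) fun ε hε => by
    obtain ⟨δ, ⟨d1, d2⟩, d0⟩ := ((((continuous_const_mul K).tendsto' 0 0 (mul_zero _)).eventually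
      (ge_mem_nhds one_pos)).and (((continuous_const_mul (K * (C + C'))).tendsto' 0 0
        (mul_zero _)).eventually (gt_mem_nhds (half_pos hε))) |>.filter_mono nhdsWithin_le_nhds
      |>.and (self_mem_nhdsWithin (a := (0 : ℝ)) (s := Ioi 0))).exists
    obtain ⟨u, h1⟩ := h1
    obtain ⟨u', h2⟩ := h2
    obtain ⟨S, s1, -, s2⟩ := h1 1 δ d0
    obtain ⟨S', t1, -, t2⟩ := h2 1 δ d0
    obtain ⟨a, ha⟩ := mem_atBot_sets.1 s1
    obtain ⟨b, hb⟩ := mem_atTop_sets.1 t1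
    obtain ⟨R, ⟨r1, r2⟩, r3, r4⟩ := (((Metric.tendsto_nhds.1 t _ (half_pos hε)).and
      (eventually_ge_atTop 0)).and ((eventually_ge_atTop (-a)).and (eventually_ge_atTop b))).exists
    obtain ⟨n, hn⟩ := hK β β' (C + C') 0 c (-R) R u u' ζ ζ' δ hβ hβ' (e1.mono (by linarith))
      (e2.mono (by linarith)) (by linarith) (by linarith) (ad _)
      ((cl_of_cls hβ (ad _) s2).mono (isOpen_univ.prod isOpen_Ioo)
        (prod_mono_right fun s hs => ha s (by linarith [hs.2])) le_rfl le_rfl)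
      ((cl_of_cls hβ' (ad _) t2).mono (isOpen_univ.prod isOpen_Ioo)
        (prod_mono_right fun s hs => hb s (by linarith [hs.1])) le_rfl le_rfl) d0.le d1
    rw [Real.dist_eq] at r1
    exact ⟨n, abs_lt.2 ⟨by linarith [(abs_le.1 hn).1, (abs_lt.1 r1).2],
      by linarith [(abs_le.1 hn).2, (abs_lt.1 r1).1]⟩⟩
  exact ⟨n, by linarith⟩

theorem ex_of_cl {k : ℕ} {u : Y × ℝ → CL c.m.V β.m.V} {ζ : Y × ℝ → Circle} (hc : AdmOn c D.B D.G O)
    (h : Cl D.Z c (cy β) u ζ O k 0) : Ex D c.m c.W β O :=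
  ⟨u, h.iso, fun x hx a => (dA_u (G := D.G) h.iso h.op hc hx a).symm.trans
    ((congrArg (· ∘L u x) (norm_le_zero_iff.1 ((h.A a).le hx))).trans
      (ContinuousLinearMap.zero_comp _))⟩

theorem eb_path (hβ : D.Adm β) (hβ' : D.Adm β') (h : D.Path c β β') :
    ∃ a b, a + 1 ≤ b ∧ Eb D c.m c.W univ a b β β' := by
  obtain ⟨ζ, u, S, s1, -, s2⟩ := h.bot
  obtain ⟨ζ', u', S', t1, -, t2⟩ := h.top
  obtain ⟨a, ha⟩ := mem_atBot_sets.1 s1
  obtain ⟨b, hb⟩ := mem_atTop_sets.1 t1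
  have ad := fun O => (admOn_univ.2 h.adm).mono (subset_univ O)
  exact ⟨a, max (a + 1) b, le_max_left _ _, hβ, hβ', isOpen_univ, subset_univ _,
    le_max_of_le_left (by linarith), (ad _).ok, (ad _).conn,
    (ex_of_cl (ad _) (cl_of_cls hβ (ad _) s2)).mono fun x hx => ⟨trivial, ha _ hx.2.le⟩,
    (ex_of_cl (ad _) (cl_of_cls hβ' (ad _) t2)).mono fun x hx =>
      ⟨trivial, hb _ ((le_max_right _ _).trans hx.2.le)⟩⟩

/-- **levels of paths** -/
theorem Lv.path (hℓ : Lv D ℓ) (hD : D.OK) (hβ : D.Adm β) (hβ' : D.Adm β') (h : D.Path c β β') :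
    ∃ n : ℤ, c.kap D.B D.G = ℓ β' - ℓ β + n :=
  let ⟨_, _, e, k⟩ := eb_path hβ hβ' h
  (hℓ _ _ _ _ _ _ _ k e).imp fun _ e => (k.kap hD).symm.trans e

theorem int_elim (hD : D.OK) (hβ : D.Adm β) (hβ' : D.Adm β') (hc : c.Adm D.B D.G)
    (h1 : ∃ d > 0, D.nk.ELim d c β ζ atBot) (h2 : ∃ d > 0, D.nk.ELim d c β' ζ' atTop) :
    Integrable (kZ D c) D.Z.μ := by
  have := (Dgr80.fen_nk (K := D.nk) hD hD.B hD.G hc (fun _ => ⟨β, ζ, hβ, h1⟩)
    fun _ => ⟨β', ζ', hβ', h2⟩).2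
  exact this.congr (.of_forall fun x => by simp [YD.nk, Nd18.ct, YD.G])

/-- **the level of a trajectory is the level of a path modulo `ℤ`** -/
theorem lvl_int (ci : CI D) (hD : D.OK) (h3 : Module.finrank ℝ E3 = 3) (hβ : D.Adm β)
    (hβ' : D.Adm β') (hc : c.Adm D.B D.G) (hi : Integrable (kZ D c) D.Z.μ)
    (h1 : D.nk.Lim c β ζ atBot) (h2 : D.nk.Lim c β' ζ' atTop) {c' : Cfg (Y × ℝ) (Option κ) lam 0}
    (h : D.Path c' β β') : ∃ n : ℤ, c.kap D.B D.G - c'.kap D.B D.G = n :=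
  let ⟨_, hℓ⟩ := exists_lv ci hD h3
  let ⟨n, e⟩ := hℓ.traj hD hβ hβ' hc hi h1 h2
  let ⟨n', e'⟩ := hℓ.path hD hβ hβ' h
  ⟨n - n', by push_cast; linarith⟩

end traj

end Crest.Agent.X212.Nck90
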