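import Crest.Agent.X212.Nck90.Lv1
import Crest.Agent.X212.Nck90.Xs

/-!
# X212, necks (helper90), part 16: finitely many levels at positive scalar curvature
-/

set_option autoImplicit false
set_option linter.unusedSectionVars false
noncomputable section
open scoped Manifold ContDiff Topology InnerProductSpace
open MeasureTheory Set Function Filter

namespace Crest.Agent.X212.Nck90
open An Sob92 Cyf70 Neck67 Pj41 Tmp64 Nd18 Std94 Bki64
open Rdc90 (Flt Bs HC PS Eqs bh Har zc Sv ed By A0)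

variable {E3 : Type} [NormedAddCommGroup E3] [NormedSpace ℝ E3] [FiniteDimensional ℝ E3]
  [MeasurableSpace E3] [BorelSpace E3]
  {H3 : Type} [TopologicalSpace H3] {I3 : ModelWithCorners ℝ E3 H3} [I3.Boundaryless]
  {Y : Type} [TopologicalSpace Y] [ChartedSpace H3 Y] [IsManifold I3 ∞ Y] [T2Space Y]
  [MeasurableSpace Y] [BorelSpace Y] [SecondCountableTopology Y] [CompactSpace Y]
  {κ : Type} [Fintype κ] {lam : Type} [Fintype lam] {D : YD I3 Y κ lam} {β β' : YC Y κ lam}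
  {ζ ζ' : Circle} {ℓ : YC Y κ lam → ℝ} {N : ND Y lam} {q : YW I3 Y →₀ ℝ}

theorem kd_slices (hD : D.OK) {m : Md (Y × ℝ) (Option κ) lam} {W : m.Cn} {x : Y × ℝ}
    (h : ∀ j k, m.Fg D.Z W x (some j, some k) = 0) : m.kd D.B D.Z W x = 0 := by
  have o1 : ∀ a b, D.B.o a none none b x = 0 := fun a b => by linarith [hD.B.o23 a none none b x]
  have o2 : ∀ a b, D.B.o a none b none x = 0 := fun a b => by rw [hD.B.o34, o1, neg_zero]
  rw [Loc66.kd_eq, Finset.sum_eq_zero fun s _ => Finset.sum_eq_zero fun t _ => ?_, mul_zero]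
  obtain ⟨_ | a, _ | b⟩ := s <;> obtain ⟨_ | c, _ | d⟩ := t <;>
    simp [Base.st, h, o1, o2, hD.B.o12 none (some _)]

theorem ex_refl (hβ : D.Adm β) (S : Set (Y × ℝ)) : Ex D (cy β).m (cy β).W β S :=
  ⟨_, .refl (OK.on hβ.adm.ok S), (IsConn.on hβ.adm.conn S).par0_refl⟩

theorem Lv.har (hℓ : Lv D ℓ) (b1 : Bs D β) (b2 : HC D β) {h : κ → Y → β.m.A} (hh : Har D β h)
    (a : D.Adm (bh β h 0)) : ∃ n : ℤ, ℓ (bh β h 0) = ℓ β + n := by
  obtain ⟨n, e⟩ := hℓ _ _ _ _ _ _ _ (eb_mx (s := 0) b1.adm a (OK.on b1.adm.adm.ok _)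
    (IsConn.on b1.adm.adm.conn _) (IsConn.on a.adm.conn _) (ex_refl b1.adm _) (ex_refl a _) le_rfl)
    le_rfl
  have S := Rd78.sv_up hh.toFo (φ := 0) ⟨contMDiff_const, fun x => map_zero _⟩
  have S' : Sv D β (fun x => chi (x.2 - 0) • Rd78.up β h x) 0 :=
    ⟨(sm_snd (chi_sm 0)).smul S.sα, fun x => (map_smul _ _ _).trans (congrArg _ (S.p1 x)), S.sΦ, S.pos⟩
  have e1 : mx 0 (cy β).W (cy (bh β h 0)).W = (zc β (fun x => chi (x.2 - 0) • Rd78.up β h x) 0).W :=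
    funext₂ fun o x => congrArg (fun T : En (Fin β.m.N) => β.W o x.1 + T)
      ((congrArg (chi (x.2 - 0) • ·) (add_sub_cancel_left _ _)).trans (map_smul _ _ _).symm)
  rw [e1, integral_eq_zero_of_ae (.of_forall fun x => kd_slices b1.ok fun j k => ?_)] at e
  · exact ⟨-n, by push_cast; linarith⟩
  refine (Rd78.Fg_sl b1.adm b1.flat S' x.1 x.2 j k).trans ?_
  set t := chi (x.2 - 0)
  have e2 : ed I3 D.F.e D.F.c (A0 β) (fun k y => t • h k y) j k x.1 =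
      t • ed I3 D.F.e D.F.c (A0 β) h j k x.1 := by
    simp only [ed, Wz78.nab_smul _ contMDiffAt_const (hh.sm _ _), dv_const, Pi.zero_apply,
      zero_smul, zero_add, smul_sub, Finset.smul_sum, smul_comm t]
  have e3 := b2 h hh j k x.1
  show ed I3 D.F.e D.F.c (A0 β) (fun k y => t • h k y) j k x.1 +
    adc (opL (t • h j x.1)) (t • h k x.1) = 0
  rw [← Wz78.adcL_apply] at e3 ⊢
  rw [e2, hh.ed, map_smul, map_smul, map_smul, smul_apply, e3]
  simp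

/-- the level is locally constant modulo `ℤ` on the flat connections -/
theorem Lv.loc (hℓ : Lv D ℓ) (b1 : Bs D β) (b2 : HC D β) (hP : ∃ c₀ > 0, PS D c₀) :
    ∃ η > 0, ∀ β', D.Adm β' → Eqs D (cy β') univ → Nr D (cy β') univ 0 β η →
      ∃ n : ℤ, ℓ β' - ℓ β = n := by
  obtain ⟨d, p1, h1⟩ := Rdc90.dece D β b1 b2 hP
  obtain ⟨K, k0, hK⟩ := hℓ.apx b1.ok
  have s1 : ∀ a, Sm I3 (β.W a) := fun a _ => sm_slice (t := 0) (b1.adm.adm.conn.cc.sm a _)
  obtain ⟨C₀, c1, c2⟩ := ((exists_bd (I := I3) isCompact_univ fun a x _ => s1 a x).and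
    (eventually_ge_atTop ‖(hsL : CL (En (Fin β.m.N)) _)‖)).exists
  set T : β.m.A →L[ℝ] En (Fin β.m.N) := opL
  obtain ⟨C, p2, h2⟩ := ek_pt b1.ok (C₀ + ‖T‖)
  obtain ⟨η, p3, h3⟩ := h1 1 1 one_pos
  refine ⟨η, p3, fun β' a1 a2 ⟨_, u, ζ, a3⟩ => int_of_apx fun ε hε => ?_⟩
  obtain ⟨C', p4, h4⟩ := exists_ek b1.ok a1
  have ad := fun O => (admOn_univ.2 a1.adm).mono (subset_univ O)
  have t := tendsto_id.const_mul_atTop (l := atTop) p1
  obtain ⟨L, ⟨l1, l2⟩, l3⟩ := (((t.eventually (Brk64.ev_exp one_pos K)).and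
    (t.eventually (Brk64.ev_exp hε (K * (C + C'))))).and (eventually_ge_atTop 0)).exists
  obtain ⟨h, k1, k2, k3, k4, v, k5⟩ := h3 _ (cy β') (-L) L (by linarith) fun s _ =>
    let ⟨w, k⟩ := Cl.unsh (c := cy β') (s := s) a3
    ⟨ad _, fun x _ => a2 x trivial, w, ζ, Cl.cls b1.adm isOpen_Ioo (ad _) k⟩
  have k6 := k5 0 ⟨by linarith, l3⟩
  rw [zero_sub, neg_neg, sub_zero, min_self, one_mul, neg_mul] at k6
  have k7 : Ek D (bh β h 0) C := fun r c u ζ O δ a b e x hx =>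
    (h2 _ k3 (c2.trans (le_add_of_nonneg_right T.opNorm_nonneg)) (fun o y =>
      norm_add_le_of_le (c1 o y trivial) ((T.le_of_opNorm_le_of_le le_rfl (b := 1) (by
        cases o with
        | none => exact norm_zero.trans_le zero_le_one
        | some i => exact k2 i [] (by simp) y)).trans_eq (mul_one _)))
      (fun y => (add_zero _).trans (b1.zr y)) k4 r c u ζ O δ a b e x hx).2
  obtain ⟨n, hn⟩ := hK β' _ (C + C') 0 (cy β') 0 0 _ v 1 1 _ a1 k3 (h4.mono (by linarith))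
    (k7.mono (by linarith)) (by linarith) le_rfl (ad _)
    (Cl.refl (G := D.G) (isOpen_univ.prod isOpen_Ioo) (ad _) (Real.exp_pos _).le)
    (k6.mono (isOpen_univ.prod isOpen_Ioo) (prod_mono_right (Ioo_subset_Ioo_left (by simp)))
      le_rfl le_rfl) (Real.exp_pos _).le (mul_comm K _ ▸ l1.le)
  obtain ⟨n', e⟩ := hℓ.har b1 b2 k1 k3
  rw [integral_eq_zero_of_ae (.of_forall (kd_cy b1.ok a1)), e] at hn
  refine ⟨n + n', lt_of_le_of_lt (le_of_eq_of_le ?_ hn) (mul_comm (K * _) _ ▸ l2)⟩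
  push_cast
  congr 1
  ring

theorem traj_cy (h : N.Crit D β) : N.Traj D q (cy β) β β 1 1 :=
  have a := crit_adm h
  have k : ∀ l, D.nk.Lim (cy β) β 1 l := fun _ => ⟨_, fun _ _ p => ⟨univ, univ_mem,
    fun _ _ => by simp [YD.nk, Jv], Cl.cls a isOpen_univ ((admOn_univ.2 a.adm).mono (subset_univ _))
      (Cl.refl (G := D.G) (isOpen_univ.prod isOpen_univ)
        ((admOn_univ.2 a.adm).mono (subset_univ _)) p.le)⟩⟩
  ⟨(crit_iff a).1 h, k _, k _⟩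

theorem Lv.brk (hℓ : Lv D ℓ) (hD : D.OK) (hi : ∀ c β β' ζ ζ', N.Crit D β → N.Crit D β' →
    N.Traj D q c β β' ζ ζ' → Integrable (kZ D c) D.Z.μ) {k : ℝ} {j : ℕ}
    (h : N.Brk D q β ζ β' ζ' k j) (a : N.Crit D β) : ∃ n : ℤ, k = ℓ β' - ℓ β + n := by
  induction h with
  | nil => exact ⟨0, by simp⟩
  | bub _ ih => exact let ⟨n, e⟩ := ih a; ⟨n + 1, by push_cast; linarith⟩
  | mov c t _ a' _ ih =>
    obtain ⟨n, e⟩ := ih a'
    obtain ⟨n', e'⟩ := hℓ.traj hD (crit_adm a) (crit_adm a') t.sol.toAdm (hi _ _ _ _ _ a a' t)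
      t.bot t.top
    exact ⟨n + n', by push_cast; linarith⟩

variable (hN : Ink3.Nil N) (hB : ∀ β, N.Crit D β → Bs D β ∧ HC D β) (hP : ∃ c₀ > 0, PS D c₀)
include hN hB hP

theorem elim_tj {c : Cfg (Y × ℝ) (Option κ) lam 0} (h : c.Sol D.B D.G (N.pt D.nk 0 : Pt _ _ _ 0 0))
    {l : Filter ℝ} (a : N.Crit D β) (hl : l = atTop ∨ l = atBot) (h' : D.nk.Lim c β ζ l) :
    ∃ d > 0, D.nk.ELim d c β ζ l :=
  (elim_psc (hB β a).1 (hB β a).2 hP).imp fun _ k => ⟨k.1, k.2 _ _ _ _ _ D.nk.J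
    hl (mem_of_superset univ_mem fun _ _ => by simp [YD.nk, Jv]) (adm_pb _ h.toAdm)
    (eqs_pb _ h Subset.rfl fun z _ => by rw [hN.pt]; exact ⟨rfl, rfl⟩) h'⟩

theorem int_psc (c β β' ζ ζ') (a : N.Crit D β) (a' : N.Crit D β') (t : N.Traj D 0 c β β' ζ ζ') :
    Integrable (kZ D c) D.Z.μ :=
  int_elim (hB β a).1.ok (crit_adm a) (crit_adm a') t.sol.toAdm
    (elim_tj hN hB hP t.sol a (.inr rfl) t.bot) (elim_tj hN hB hP t.sol a' (.inl rfl) t.top)

/-- **finitely many levels** -/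
theorem Lv.fin (hℓ : Lv D ℓ) (T : TI N D 0 (hyperfilter ℕ) fun _ => 0) :
    ∃ V : Set ℝ, V.Finite ∧ ∀ β, N.Crit D β → ∃ v ∈ V, ∃ n : ℤ, ℓ β = v + n := by
  refine ⟨(fun β => Int.fract (ℓ β)) '' {β | N.Crit D β}, by_contra fun e => ?_,
    fun β h => ⟨_, ⟨β, h, rfl⟩, _, (Int.fract_add_floor _).symm⟩⟩
  let f := Set.Infinite.natEmbedding _ e
  choose b h1 h2 using fun n => (f n).2
  have a := fun n => crit_adm (h1 n)
  have hD := (hB _ (h1 0)).1.ok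
  obtain ⟨β, k1, k2⟩ := (T.inn (fun n => cy (b n)) 0 (.of_forall fun n => ⟨_, _, _, _, h1 n, h1 n,
    traj_cy (h1 n), by simp [ND.tE, Cfg.kap, Md.kap, YD.G, kd_cy hD (a n)]⟩)).pt
      (𝒱 := hyperfilter ℕ) (s := fun _ => 0) tendsto_id (fun _ => .of_forall fun _ => trivial)
      fun L ε p => .of_forall fun n => by simp [en_cy (a n), p.le]
  obtain ⟨η, p, k3⟩ := hℓ.loc (hB β k1).1 (hB β k1).2 hP
  refine Set.Finite.notMem_hyperfilter (Set.Subsingleton.finite fun n hn m hm => ?_)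
    ((k2 η p).mono fun n k => k3 _ (a n) (fun x _ => let s := (hN.crit.1 (h1 n)).1
      ⟨(sub_zero _).symm.trans (s.D x), sub_eq_zero.1 ((sub_zero _).symm.trans (s.C x))⟩) k)
  obtain ⟨i, hi⟩ := hn
  obtain ⟨j, hj⟩ := hm
  exact f.injective (Subtype.ext ((h2 n).symm.trans ((Int.fract_eq_fract.2
    ⟨i - j, by push_cast; linarith⟩).trans (h2 m))))

/-- **levels of chains at positive scalar curvature** -/
theorem ch_psc (ci : CI D) (hD : D.OK) (h3 : Module.finrank ℝ E3 = 3) (hp : Pos N D 0)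
    (T : TI N D 0 (hyperfilter ℕ) fun _ => 0) : ∃ V : Set ℝ, V.Finite ∧ ∀ β ζ β' ζ' k j,
      N.Crit D β → N.Crit D β' → N.Brk D 0 β ζ β' ζ' k j →
      cE N D β β' k = k ∧ 0 ≤ k ∧ ∃ v ∈ V, ∃ m : ℤ, k = v + m := by
  obtain ⟨ℓ, hℓ⟩ := exists_lv ci hD h3
  obtain ⟨V, h1, h2⟩ := hℓ.fin hN hB hP T
  refine ⟨image2 (· - ·) V V, h1.image2 _ h1, fun β ζ β' ζ' k j a a' b => ?_⟩
  have e : cE N D β β' k = k := by simp [cE, hN.lv, (hB β a).1.zr, (hB β' a').1.zr]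
  obtain ⟨n, e1⟩ := hℓ.brk hD (int_psc hN hB hP) b a
  obtain ⟨v, v1, m, e2⟩ := h2 β a
  obtain ⟨v', v2, m', e3⟩ := h2 β' a'
  exact ⟨e, e ▸ brk_nn hp b a, _, mem_image2_of_mem v2 v1, n + m' - m, by push_cast; linarith⟩

end Crest.Agent.X212.Nck90
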