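import Crest.Agent.X212.Nck90.Cs

/-!
# X212, necks (helper90), part 5: the breaking theorem (after helper64's `Bki64/Brk`)
-/

set_option autoImplicit false
set_option linter.unusedSectionVars false
noncomputable section
open scoped Manifold ContDiff Topology InnerProductSpace
open MeasureTheory Set Function Filter

namespace Crest.Agent.X212.Nck90
open An Sob92 Cyf70 Neck67 Cmp73 Pj41 Eqv71 Tmp64 Nd18 Std94 Bki64
open Brk64 (eI)

variable {E3 : Type} [NormedAddCommGroup E3] [NormedSpace ℝ E3] [FiniteDimensional ℝ E3]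
  [MeasurableSpace E3] [BorelSpace E3]
  {H3 : Type} [TopologicalSpace H3] {I3 : ModelWithCorners ℝ E3 H3} [I3.Boundaryless]
  {Y : Type} [TopologicalSpace Y] [ChartedSpace H3 Y] [IsManifold I3 ∞ Y] [T2Space Y]
  [MeasurableSpace Y] [BorelSpace Y] [SecondCountableTopology Y] [CompactSpace Y]
  {κ : Type} [Fintype κ] {lam : Type} [Fintype lam] {D : YD I3 Y κ lam} {β β' : YC Y κ lam}
  {ζ ζ' : Circle} {N : ND Y lam} {q : YW I3 Y →₀ ℝ} {r : ℕ} {ν : Type} {𝒰 : Ultrafilter ν}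
  {A : Brk64.Nk ν} {ρ : ν → ℕ} {c : ∀ n, Cfg (Y × ℝ) (Option κ) lam (ρ n)}

/-- the output of the breaking theorem: centres `t`, critical points `b`, limits `γ` -/
structure NO (N : ND Y lam) (D : YD I3 Y κ lam) (q : YW I3 Y →₀ ℝ) (𝒰 : Ultrafilter ν)
    (A : Brk64.Nk ν) (c : ∀ n, Cfg (Y × ℝ) (Option κ) lam (ρ n)) where
  k : ℕ
  t : Fin k → ν → ℝ
  b : Fin (k + 1) → YC Y κ lam
  γ : Fin k → Cfg (Y × ℝ) (Option κ) lam 0
  Sg : Fin k → Set (Y × ℝ)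
  v : ∀ i n, Y × ℝ → CL (c n).m.V (γ i).m.V
  crit : ∀ g, N.Crit D (b g)
  cen : ∃ w, A.Cen 𝒰 w k t
  near : A.Chain 𝒰 (fun n s β η => Nr D (c n) (A.J 0 n) s β η) t b
  lm : ∀ i, Lm N D q 𝒰 (fun n => sh (t i n) (c n)) (γ i) (Sg i) (v i)
  car : ∀ i, ∃ ε > 0, ∃ L, ∀ᶠ n in 𝒰, ε ≤ ∫ x in win Y (t i n) L, eZ D (c n) x ∂D.Z.μ

/-- **Breaking** -/
theorem NI.out (H : NI N D q 𝒰 A c) : Nonempty (NO N D q 𝒰 A c) := by
  obtain ⟨w, k, t, b, h1, h0, h2, h3⟩ := H.exists_cen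
  choose γ Sg v h using fun i => H.cmp (𝒰.map fun n => (n, t i n)) tendsto_id (h1.deep i)
  exact ⟨k, t, b, γ, Sg, fun i n => v i (n, t i n), h0, ⟨w, h1⟩, h2,
    fun i => ⟨(h i).sol, (h i).cv, (h i).conc, (h i).loss⟩, h3⟩

theorem NI.phase (H : NI N D q 𝒰 A c) (hβ : N.Crit D β) {η : ℝ} (hη : 0 < η) : ∃ η' > 0,
    ∀ᶠ n in 𝒰, ∀ T, IsClosed T → T.OrdConnected → (∀ s ∈ T, Nr D (c n) (A.J 0 n) s β η') →
      ∃ ζ, ∀ s, Icc (s - 7) (s + 7) ⊆ T → ∃ w, Cn D (c n) β w ζ (win Y s 7) η := by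
  obtain ⟨η1, p1, H1⟩ := phase_eta (crit_adm hβ) hη
  obtain ⟨d, -, C, -, H2⟩ := H.dec β hβ
  obtain ⟨η2, p3, H3⟩ := H2 ⌈η1⁻¹⌉₊ η1 p1
  refine ⟨η2, p3, H3.mono fun n hn T h1 h2 h3 => ?_⟩
  obtain ⟨ζ, h4⟩ := Brk64.exists_clu (Q := fun (m : ℕ) (ζ : Circle) => ∃ u,
      ∀ s ∈ T ∩ Icc (-(m : ℝ)) m, Cn D (c n) β u ζ (win Y s 1) η1) fun m => by
    obtain ⟨a, b, e⟩ := Brk64.icc_piece h1 h2 m
    rcases lt_or_ge b a with h | h
    · exact ⟨1, 0, by simp [e, Icc_eq_empty_of_lt h]⟩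
    obtain ⟨u, ζ, h4⟩ := (hn a b h fun s hs => h3 s (e ▸ hs :).1).one
    exact ⟨ζ, u, fun s hs => h4 s (e ▸ hs)⟩
  refine ⟨ζ, fun s hs => ?_⟩
  obtain ⟨m, h5, ξ, ⟨u, h6⟩, h7⟩ := h4 η1 p1 ⌈|s| + 7⌉₊
  have h8 := Nat.ceil_le.1 h5
  exact ⟨u, H1 _ _ _ u ξ ζ h7 (Cl.of_local (win_op _ _) fun x hx => ⟨win Y x.2 1, u, _,
    ⟨trivial, by linarith, by linarith⟩, .rfl, .rfl, h6 x.2 ⟨hs (Ioo_subset_Icc_self hx.2),
      by linarith [hx.2.1, neg_abs_le s], by linarith [hx.2.2, le_abs_self s]⟩⟩)⟩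

namespace NO
variable (o : NO N D q 𝒰 A c)

/-- the class of the gap `g` -/
def P (g : Fin (o.k + 1)) : Pc Y κ lam := fun β ζ => N.Crit D β ∧ Pg D 𝒰 c (A.Gap o.t g) β ζ

/-- `m` is the level lost at the centre `i` -/
def IsM (i : Fin o.k) (m : ℕ) : Prop := (m = 0 ↔ o.Sg i = ∅) ∧ ∀ᶠ R in atTop,
  Tendsto (fun n => ∫ x in cw Y 0 R, kZ D (sh (o.t i n) (c n)) x ∂D.Z.μ) 𝒰
    (𝓝 (∫ x in cw Y 0 R, kZ D (o.γ i) x ∂D.Z.μ + m))

/-- the level lost at the centre `i` -/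
def m (i : Fin o.k) : ℕ := Classical.epsilon (o.IsM i)

/-- the total level -/
def lev : ℝ := ∑ i, ((o.γ i).kap D.B D.G + o.m i)

open Classical in
/-- the length of the chain -/
def len : ℕ := ∑ i, (o.m i + if D.Moves (o.γ i) then 1 else 0)

theorem deep (i : Fin o.k) : A.Deep 𝒰 (o.t i) := o.cen.choose_spec.deep i

theorem sep {i j : Fin o.k} (h : i < j) : Brk64.Rt 𝒰 (o.t i) (o.t j) := o.cen.choose_spec.sep i j h

theorem ev_right (i : Fin o.k) (R : ℝ) :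
    ∀ᶠ s in atTop, ∀ᶠ n in 𝒰, o.t i n + s ∈ A.Gap o.t i.succ R n :=
  (eventually_ge_atTop R).mono fun _ => o.cen.choose_spec.mem_right i

theorem ev_left (i : Fin o.k) (R : ℝ) :
    ∀ᶠ s in atBot, ∀ᶠ n in 𝒰, o.t i n + s ∈ A.Gap o.t i.castSucc R n :=
  (eventually_le_atBot (-R)).mono fun s h => by
    simpa using o.cen.choose_spec.mem_left i (show R ≤ -s by linarith)

/-- the first gap, seen from the left end `a` of the neck -/
theorem ev_first {a : ν → ℝ} (h : ∀ R, ∀ᶠ s in atTop, ∀ᶠ n in 𝒰, a n + s ∈ A.J R n)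
    (h' : ∀ t, A.Deep 𝒰 t → Brk64.Rt 𝒰 a t) (R : ℝ) :
    ∀ᶠ s in atTop, ∀ᶠ n in 𝒰, a n + s ∈ A.Gap o.t 0 R n := (h R).mono fun s hs =>
  (hs.and (eventually_all.2 fun i => (h' _ (o.deep i)).eventually_ge_atTop (s + R))).mono
    fun _ h => ⟨h.1, fun i => ⟨fun e => absurd e (Fin.not_lt_zero _), fun _ => by linarith [h.2 i]⟩⟩

/-- the last gap, seen from the right end `a` of the neck -/
theorem ev_last {a : ν → ℝ} (h : ∀ R, ∀ᶠ s in atBot, ∀ᶠ n in 𝒰, a n + s ∈ A.J R n)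
    (h' : ∀ t, A.Deep 𝒰 t → Brk64.Rt 𝒰 t a) (R : ℝ) :
    ∀ᶠ s in atBot, ∀ᶠ n in 𝒰, a n + s ∈ A.Gap o.t (Fin.last _) R n := (h R).mono fun s hs =>
  (hs.and (eventually_all.2 fun i => (h' _ (o.deep i)).eventually_ge_atTop (R - s))).mono
    fun _ h => ⟨h.1, fun i => ⟨fun _ => by linarith [h.2 i],
      fun e => absurd e (not_le.2 (Fin.castSucc_lt_last i))⟩⟩

theorem gap_top {R : ℝ} {n : ν} (h : A.J R n ∈ atTop) : A.Gap o.t (Fin.last _) R n ∈ atTop :=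
  (Eventually.and h (eventually_all.2 fun i => eventually_ge_atTop (o.t i n + R))).mono fun _ h =>
    ⟨h.1, fun i => ⟨fun _ => h.2 i, fun e => absurd e (not_le.2 (Fin.castSucc_lt_last i))⟩⟩

theorem gap_bot {R : ℝ} {n : ν} (h : A.J R n ∈ atBot) : A.Gap o.t 0 R n ∈ atBot :=
  (Eventually.and h (eventually_all.2 fun i => eventually_le_atBot (o.t i n - R))).mono fun _ h =>
    ⟨h.1, fun i => ⟨fun e => absurd e (Fin.not_lt_zero _), fun _ => by linarith [h.2 i]⟩⟩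

variable (H : NI N D q 𝒰 A c)
include H

theorem adm (i : Fin o.k) (L : ℝ) :
    ∀ᶠ n in 𝒰, AdmOn (sh (o.t i n) (c n)) D.B D.G (cw Y 0 L) := H.adm_sh tendsto_id (o.deep i) L

theorem exP (g : Fin (o.k + 1)) : ∃ ζ, o.P g (o.b g) ζ := by
  have hβ := crit_adm (o.crit g)
  obtain ⟨ζ, h⟩ := Brk64.exists_clu (Q := fun (m : ℕ) (ξ : Circle) => ∃ R, ∀ᶠ n in 𝒰,
      ∀ s ∈ A.Gap o.t g R n, ∃ w, Cn D (c n) (o.b g) w ξ (win Y s 7) (1 / ((m : ℝ) + 1)))
    fun m => by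
      obtain ⟨η1, p1, H1⟩ := phase_eta hβ (Nat.one_div_pos_of_nat (n := m))
      obtain ⟨η2, p2, H2⟩ := H.phase (o.crit g) p1
      obtain ⟨R, -, H3⟩ := o.near η2 p2
      obtain ⟨ζ, H4⟩ := ev_choice ((H2.and H3).mono fun n h =>
        h.1 _ (A.gap_cl o.t g R n) (A.gap_oc o.t g R n) (h.2 g))
      obtain ⟨ξ, -, hξ⟩ := isCompact_univ.ultrafilter_le_nhds (𝒰.map ζ) (by simp)
      refine ⟨ξ, R + 7, ?_⟩
      filter_upwards [H4, hξ (Metric.closedBall_mem_nhds ξ p1)] with n a1 a2 s hs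
      exact (a1 s fun x hx => A.gap_lip hs (abs_le.2 ⟨by linarith [hx.1], by linarith [hx.2]⟩)).imp
        fun w hw => H1 _ _ _ w _ _ (Metric.mem_closedBall'.1 a2) hw
  refine ⟨ζ, o.crit g, fun η hη => ?_⟩
  obtain ⟨η1, p1, H1⟩ := phase_eta hβ hη
  obtain ⟨m0, h0⟩ := exists_nat_one_div_lt p1
  obtain ⟨m, h1, ξ, ⟨R, h2⟩, h3⟩ := h η1 p1 m0
  exact ⟨R, h2.mono fun n hn s hs => (hn s hs).imp fun w hw => H1 _ _ _ w _ _ h3 (hw.mono
    (win_op _ _) Subset.rfl Nat.one_div_pos_of_nat ((Nat.one_div_le_one_div h1).trans h0.le))⟩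

theorem P_adm {g : Fin (o.k + 1)} (h : o.P g β ζ) {η : ℝ} (hη : 0 < η) :
    ∃ R, ∀ᶠ n in 𝒰, ∀ s ∈ A.Gap o.t g R n, AdmOn (c n) D.B D.G (win Y s 7) ∧
      ∃ w, Cn D (c n) β w ζ (win Y s 7) η :=
  let ⟨R, hR⟩ := h.2 η hη
  ⟨max R (0 + 7), (hR.and H.adm).mono fun n h s hs => ⟨(adm_cw h.2 (A.anti (le_max_right _ _) n
    hs.1)).mono (win_cw _ _), h.1 s (A.gap_anti _ _ (le_max_left _ _) n hs)⟩⟩

/-- the gaps define classes -/
theorem cs (g : Fin (o.k + 1)) : Cs N D (o.P g) := by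
  refine ⟨⟨_, o.exP H g⟩, fun h => h.1, fun {β ζ β' ζ'} h h' => stb_of_eta (crit_adm h.1)
    (crit_adm h'.1) (L := 7) (by norm_num) fun η hη => ?_, fun h h1 h2 =>
      ⟨h1, h.2.act (crit_adm h.1) (crit_adm h1) h2⟩⟩
  obtain ⟨R, hR⟩ := o.P_adm H h hη
  obtain ⟨R', hR'⟩ := h'.2 η hη
  obtain ⟨n, ⟨a1, a2⟩, s, hs⟩ := ((hR.and hR').and
    (gap_ne o.cen.choose_spec H.ne g (max R R'))).exists
  obtain ⟨a3, w, a4⟩ := a1 s (A.gap_anti _ _ (le_max_left _ _) n hs)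
  obtain ⟨w', a5⟩ := a2 s (A.gap_anti _ _ (le_max_right _ _) n hs)
  exact ⟨_, c n, s, w, w', ζ, ζ', a3, a4, a5, by simpa using hη.le, by simpa using hη.le⟩

/-- the windows in a gap are close to every member of its class -/
theorem near_P {g : Fin (o.k + 1)} (h : o.P g β ζ) {η : ℝ} (hη : 0 < η) :
    ∃ R, ∀ᶠ n in 𝒰, ∀ s ∈ A.Gap o.t g R n, Nr D (c n) (A.J 0 n) s β η := by
  obtain ⟨ξ, h1⟩ := o.exP H g
  obtain ⟨w, h2⟩ := (o.cs H g).stb h1 h
  obtain ⟨η', h3, h4⟩ := nr_act (crit_adm h1.1) (crit_adm h.1) h2 hη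
  obtain ⟨R, -, h5⟩ := o.near η' h3
  exact ⟨R, h5.mono fun n h s hs => h4 _ _ _ _ (h g s hs)⟩

/-- **a limit seen from a point `a` converges along its end which runs into the gap `g`** -/
theorem lim_gap {g : Fin (o.k + 1)} (h : o.P g β ζ) {l : Filter ℝ} (hl : IsEnd l)
    {a : ν → ℝ} (ha : ∀ R, ∀ᶠ s in l, ∀ᶠ n in 𝒰, a n + s ∈ A.Gap o.t g R n)
    {γ : Cfg (Y × ℝ) (Option κ) lam r} {v : ∀ n, Y × ℝ → CL (c n).m.V γ.m.V} {T : Set ℝ}
    (hT : T ∈ l) (hγ : AdmOn γ D.B D.G (univ ×ˢ T))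
    (hv : CvC D.Z 𝒰 (fun n => sh (a n) (c n)) γ v (univ ×ˢ T)) :
    ∃ u, ∀ k, ∀ η > 0, ∃ T' ∈ l, T' ⊆ T ∧ D.Cls γ β u ζ T' k η :=
  lim_of_cv H.ok (crit_adm h.1) hl hT hγ hv fun η hη => by
    obtain ⟨R, hR⟩ := o.P_adm H h hη
    refine (ha R).mono fun s hs => (hs.and hR).mono fun n hn => ?_
    obtain ⟨h1, w, h2⟩ := hn.2 _ hn.1
    have h3 := admOn_sh h1 (a n)
    have h4 := Cl.sh h2 (a n)
    rw [win_tr (add_comm _ _)] at h3 h4
    exact ⟨h3, _, h4⟩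

/-- **solutions which converge along an end in the gap `g`** -/
theorem end_gap {g : Fin (o.k + 1)} {l : Filter ℝ} [l.NeBot] (hl : IsEnd l)
    (hg : ∀ R, ∀ᶠ n in 𝒰, A.Gap o.t g R n ∈ l) {b : ν → YC Y κ lam} {z : ν → Circle}
    (h : ∀ᶠ n in 𝒰, D.Adm (b n) ∧ ∃ T, AdmOn (c n) D.B D.G (univ ×ˢ T) ∧
      ∃ u, ∀ k, ∀ η > 0, ∃ T' ∈ l, T' ⊆ T ∧ D.Cls (c n) (b n) u (z n) T' k η) :
    o.P g = Lc N D 𝒰 b z := by
  obtain ⟨ξ, hξ⟩ := o.exP H g
  have key : Lc N D 𝒰 b z (o.b g) ξ := ⟨hξ.1, fun η hη => by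
    obtain ⟨R, hR⟩ := hξ.2 _ (half_pos hη)
    filter_upwards [hR, hg R, h] with n a1 a2 ⟨a3, T, a4, u, a5⟩
    exact cn_end (crit_adm hξ.1) a3 hl a4 a5 hη (mem_of_superset a2 a1)⟩
  exact (o.cs H g).ext (key.cs (h.mono fun _ h => h.1)) hξ key

/-- decay of the densities in the gaps -/
theorem decay : ∃ d > 0, ∃ C > 0, ∃ R ≥ 0, ∀ᶠ n in 𝒰, ∀ g a b, a ≤ b → Icc a b ⊆ A.Gap o.t g R n →
    ∀ x : Y × ℝ, x.2 ∈ Icc a b → eZ D (c n) x ≤ C * Real.exp (-d * min (x.2 - a) (b - x.2)) ∧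
      |kZ D (c n) x| ≤ C * Real.exp (-d * min (x.2 - a) (b - x.2)) := by
  choose d d0 C C0 h1 using fun g => H.dec _ (o.crit g)
  choose η η0 h2 using fun g => h1 g 0 1 one_pos
  obtain ⟨d', p1, e1⟩ := exists_pos_le d0
  obtain ⟨η', p2, e2⟩ := exists_pos_le η0
  obtain ⟨C', ⟨e3, p3⟩⟩ := ((eventually_all.2 fun i => eventually_ge_atTop (C i)).and
    (eventually_gt_atTop 0)).exists
  obtain ⟨R, p4, h3⟩ := o.near η' p2
  refine ⟨d', p1, C', p3, R, p4, ?_⟩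
  filter_upwards [eventually_all.2 h2, h3] with n a1 a2 g a b hab h x hx
  have h6 := (a1 g a b hab fun s hs => (a2 g s (h hs)).mono p2 (e2 g)).den x hx
  have h5 : 0 ≤ min (x.2 - a) (b - x.2) := le_min (sub_nonneg.2 hx.1) (sub_nonneg.2 hx.2)
  have h7 : C g * Real.exp (-d g * min (x.2 - a) (b - x.2)) ≤
      C' * Real.exp (-d' * min (x.2 - a) (b - x.2)) :=
    mul_le_mul (e3 g) (Real.exp_le_exp.2 (by nlinarith [e1 g])) (Real.exp_pos _).le p3.le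
  exact ⟨h6.1.trans h7, h6.2.trans h7⟩

theorem gap_decay : ∃ d > 0, ∃ C > 0, ∃ R ≥ 0, (∀ᶠ n in 𝒰, ∀ g a b, a ≤ b →
    Icc a b ⊆ A.Gap o.t g R n → ∀ x : Y × ℝ, x.2 ∈ Icc a b →
      |kZ D (c n) x| ≤ C * Real.exp (-d * min (x.2 - a) (b - x.2))) ∧
    ∀ i a b, a ≤ b → (R ≤ a ∨ b ≤ -R) → ∀ᶠ n in 𝒰, ∀ x : Y × ℝ, x.2 ∈ Icc a b →
      eZ D (sh (o.t i n) (c n)) x ≤ C ∧
        |kZ D (sh (o.t i n) (c n)) x| ≤ C * Real.exp (-d * min (x.2 - a) (b - x.2)) := by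
  obtain ⟨d, p1, C, p2, R, p4, h3⟩ := o.decay H
  refine ⟨d, p1, C, p2, R, p4, h3.mono fun n h g a b hab e x hx => (h g a b hab e x hx).2,
    fun i a b hab h => ?_⟩
  have h4 : ∀ᶠ n in 𝒰, ∃ g, Icc (o.t i n + a) (o.t i n + b) ⊆ A.Gap o.t g R n := by
    obtain ⟨w, hw⟩ := o.cen
    rcases h with h | h
    · exact ((hw.mem_right i h).and (hw.mem_right i (h.trans hab))).mono fun n h =>
        ⟨_, (A.gap_oc _ _ _ _).out h.1 h.2⟩
    · exact ((hw.mem_left i (show R ≤ -a by linarith)).and (hw.mem_left i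
        (show R ≤ -b by linarith))).mono fun n h =>
        ⟨_, by simpa using (A.gap_oc _ _ _ _).out h.1 h.2⟩
  filter_upwards [h3, h4, H.adm] with n a1 ⟨g, a2⟩ a3 x hx
  have a4 : x.2 + o.t i n ∈ Icc (o.t i n + a) (o.t i n + b) :=
    ⟨by linarith [hx.1], by linarith [hx.2]⟩
  have a5 := ek_sh (s := o.t i n) (x := x) a3 ⟨trivial, A.anti p4 n (a2 a4).1⟩
  have a6 := a1 g _ _ (by linarith) a2 (Tmp64.sq (· + o.t i n) x) a4
  simp only [Tmp64.sq, show x.2 + o.t i n - (o.t i n + a) = x.2 - a by ring,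
    show o.t i n + b - (x.2 + o.t i n) = b - x.2 by ring] at a5 a6
  rw [a5.1, a5.2]
  refine ⟨a6.1.trans (mul_le_of_le_one_right p2.le (Real.exp_le_one_iff.2 ?_)), a6.2⟩
  nlinarith [le_min (sub_nonneg.2 hx.1) (sub_nonneg.2 hx.2)]

/-- the bubbles stay in a bounded region -/
theorem sg (i : Fin o.k) : ∀ᶠ R in atTop, o.Sg i ⊆ win Y 0 R := by
  obtain ⟨d, -, C, p2, R, -, -, h⟩ := o.gap_decay H
  refine (eventually_ge_atTop (R + 1)).mono fun R' hR p hp => by_contra fun e => ?_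
  obtain ⟨ε, h0, h1⟩ := (o.lm i).conc p hp
  obtain ⟨ρ, h2, h3, h4⟩ := exists_small h0 (C * (D.F.μ.real univ * 2))
  obtain ⟨n, a1, a2⟩ := ((h1 _ (cw_nhds p h2) (cwin_cpt _ _)).and (h i (p.2 - 1) (p.2 + 1)
    (by linarith) (by
      by_contra e'
      push Not at e'
      exact e ⟨trivial, by linarith [e'.2], by linarith [e'.1]⟩))).exists
  have := int_le (D := D) h2.le p2.le Subset.rfl fun x hx => (abs_of_nonneg (Dgr80.en_nonneg _ _ _
    _)).trans_le (a2 x ⟨by linarith [hx.2.1], by linarith [hx.2.2]⟩).1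
  linarith

theorem m_spec (i : Fin o.k) : o.IsM i (o.m i) :=
  let ⟨R, hR⟩ := (o.sg H i).exists
  Classical.epsilon_spec (((o.lm i).loss R hR).imp fun _ h =>
    ⟨h.1, (eventually_ge_atTop R).mono h.2⟩)

/-- **the limits are trajectories** -/
theorem traj (i : Fin o.k) (h : o.P i.castSucc β ζ) (h' : o.P i.succ β' ζ') :
    N.Traj D q (o.γ i) β β' ζ ζ' := by
  obtain ⟨R, hR⟩ := (o.sg H i).exists
  have key : ∀ {g β ζ l}, o.P g β ζ → IsEnd l → (∀ R, ∀ᶠ s in l, ∀ᶠ n in 𝒰,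
      o.t i n + s ∈ A.Gap o.t g R n) → D.nk.Lim (o.γ i) β ζ l := fun h hl ha =>
    (o.lim_gap H h hl ha (hl.far.eventually_ge_atTop R)
      ((admOn_univ.2 (o.lm i).sol.toAdm).mono (subset_univ _)) ((o.lm i).cv.mono le_rfl
        fun x hx e => absurd hx.2 (not_le.2 (abs_lt.2 (by simpa using (hR e).2))))).imp
      fun _ h k η hη => (h k η hη).imp fun _ h => ⟨h.1, fun _ _ => by simp [YD.nk, Jv], h.2.2⟩
  exact ⟨(o.lm i).sol, key h isEnd_bot (o.ev_left i), key h' isEnd_top (o.ev_right i)⟩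

/-- every centre carries a moving trajectory or a bubble -/
theorem mv (i : Fin o.k) : D.Moves (o.γ i) ∨ o.m i ≠ 0 := by
  by_contra e
  simp only [not_or, YD.Moves, not_exists, not_not] at e
  obtain ⟨ε, h0, L, h1⟩ := o.car i
  obtain ⟨δ, h2, -, h3⟩ := exists_small h0 (D.F.μ.real univ * (2 * |L|))
  obtain ⟨n, ⟨a1, a2⟩, a3, a4⟩ := ((h1.and ((o.lm i).ek H.ok (o.adm H i) (cwin_cpt 0 |L|)
    (by simp [(o.m_spec H i).1.1 e.2]) h2)).and (H.adm.and (o.deep i (0 + L)))).exists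
  have a5 := (ek_int_sh (win_op _ _).measurableSet ((adm_cw a3 a4).mono (win_cw _ _)) (o.t i n)).1
  rw [win_tr (zero_add _).symm] at a5
  have a6 : win Y 0 L ⊆ cw Y 0 |L| := (win_sub (by simpa using le_abs_self L)).trans (win_cw _ _)
  have := int_le (D := D) (abs_nonneg L) h2.le a6 fun x hx => by
    simpa only [eZ, e.1 x, sub_zero] using (a2 x (a6 hx)).1
  linarith

/-- a centre without a moving trajectory does not change the class -/
theorem still {i : Fin o.k} (h : ¬D.Moves (o.γ i)) :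
    o.P i.castSucc = o.P i.succ ∧ (o.γ i).kap D.B D.G = 0 := by
  simp only [YD.Moves, not_exists, not_not] at h
  obtain ⟨β, u, h1, h2⟩ := H.frz _ (o.lm i).sol h
  have a0 := crit_adm h1
  have ag := admOn_univ.2 (o.lm i).sol.toAdm
  have k1 : ∀ {β' ζ l} [NeBot l], D.Adm β' → IsEnd l → D.nk.Lim (o.γ i) β' ζ l →
      ∃ w, Stb D β β' w (ζ / 1) := fun {β' ζ l} _ a1 hl ⟨w, hw⟩ =>
    stb_of_eta a0 a1 one_pos fun η hη =>
      let ⟨s, hs⟩ := (cn_of_lim a1 hl (ag.mono (subset_univ _)) hw hη 1).exists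
      ⟨_, o.γ i, s, u, w, 1, ζ, ag.mono (subset_univ _), cl_of_eq0 h2 (win_op _ _) hη.le, hs,
        by simpa using hη.le, by simpa using hη.le⟩
  obtain ⟨ζ, hζ⟩ := o.exP H i.castSucc
  obtain ⟨ζ', hζ'⟩ := o.exP H i.succ
  obtain ⟨w, hw⟩ := k1 (crit_adm hζ.1) isEnd_bot (o.traj H i hζ hζ').bot
  obtain ⟨w', hw'⟩ := k1 (crit_adm hζ'.1) isEnd_top (o.traj H i hζ hζ').top
  obtain ⟨g, hg⟩ := stb_div a0 (crit_adm hζ.1) (crit_adm hζ'.1) hw hw'
  refine ⟨(o.cs H _).ext (o.cs H _) (by simpa using (o.cs H _).act hζ hζ'.1 hg) hζ', ?_⟩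
  exact integral_eq_zero_of_ae (Eventually.of_forall fun x =>
    kd_zero H.ok (o.lm i).sol.toAdm (h x))

open Classical in
/-- one centre -/
theorem ch_one (i : Fin o.k) : Ch N D q (o.P i.castSucc) (o.P i.succ)
    ((o.γ i).kap D.B D.G + o.m i) (o.m i + if D.Moves (o.γ i) then 1 else 0) := by
  split_ifs with hm
  · exact .inl fun β ζ β' ζ' h h' => .mov _ (o.traj H i h h') hm h'.1 (brk_bubs _ _ _)
  · rw [(o.still H hm).1, (o.still H hm).2, zero_add, add_zero]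
    exact Ch.bubs _ _

/-- **the chain** -/
theorem ch : Ch N D q (o.P 0) (o.P (Fin.last _)) o.lev o.len :=
  chain_ind (Q := fun g x j => Ch N D q (o.P g) (o.P (Fin.last _)) x j) (Ch.nil _)
    fun i _ _ h => (o.ch_one H i).trans h (o.cs H _).ne

theorem k_le : o.k ≤ o.len := by
  refine le_trans (by simp) (Finset.card_nsmul_le_sum Finset.univ _ 1 fun i _ => ?_)
  rcases o.mv H i with h | h
  · rw [if_pos h]; omega
  · omega

theorem int_kd (i : Fin o.k) : Integrable (kZ D (o.γ i)) D.Z.μ := by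
  obtain ⟨d, p1, C, p2, R, p3, -, h⟩ := o.gap_decay H
  obtain ⟨R', h1, h2⟩ := ((o.sg H i).and (eventually_ge_atTop R)).exists
  have ag := admOn_univ.2 (o.lm i).sol.toAdm
  have hc : Continuous (kZ D (o.γ i)) := continuous_iff_continuousAt.2 fun x =>
    (fsm_kd H.ok.B isOpen_univ ag trivial).continuousAt
  have key : ∀ T : Set ℝ, IsClosed T → T.OrdConnected → (T ⊆ Ici R' ∨ T ⊆ Iic (-R')) →
      IntegrableOn (kZ D (o.γ i)) (Prod.snd ⁻¹' T) D.Z.μ := fun T t1 t2 t3 =>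
    ⟨hc.aestronglyMeasurable, (lint_dec p1 p2.le t1 t2 fun a b hab e x hx => by
      refine le_of_forall_pos_le_add fun ε hε => ?_
      obtain ⟨n, a1, a2⟩ := ((h i a b hab (t3.imp (fun e' => h2.trans (e' (e ⟨le_rfl, hab⟩)))
        fun e' => (e' (e ⟨hab, le_rfl⟩)).trans (neg_le_neg h2))).and ((o.lm i).ek H.ok (o.adm H i)
          (isCompact_singleton (x := x)) (singleton_subset_iff.2 fun e' => t3.elim
            (fun e'' => absurd (e'' (e hx)) (not_le.2 (by simpa using (h1 e').2.2)))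
            fun e'' => absurd (e'' (e hx)) (not_le.2 (by simpa using (h1 e').2.1))) hε)).exists
      linarith [(a1 x hx).2, (a2 x rfl).2, abs_sub_abs_le_abs_sub (kZ D (o.γ i) x)
        (kZ D (sh (o.t i n) (c n)) x), abs_sub_comm (kZ D (o.γ i) x)
        (kZ D (sh (o.t i n) (c n)) x)]).trans_lt ENNReal.ofReal_lt_top⟩
  refine integrableOn_univ.1 ((((key _ isClosed_Iic ordConnected_Iic (.inr Subset.rfl)).union
    (key _ isClosed_Ici ordConnected_Ici (.inl Subset.rfl))).union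
    (int_cw H.ok (s := 0) (L := R') (ag.mono (subset_univ _))).2).mono_set fun x _ => ?_)
  by_contra e
  simp only [mem_union, mem_preimage, mem_Iic, mem_Ici, not_or, not_le] at e
  exact e.2 ⟨trivial, by linarith [e.1.1], by linarith [e.1.2]⟩

/-- **the level** -/
theorem level {ε : ℝ} (hε : 0 < ε) : ∀ᶠ R in atTop, ∀ᶠ n in 𝒰,
    IntegrableOn (kZ D (c n)) (univ ×ˢ A.J R n) D.Z.μ ∧
      |∫ x in univ ×ˢ A.J R n, kZ D (c n) x ∂D.Z.μ - o.lev| ≤ ε := by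
  obtain ⟨d, p1, C, p2, R₁, p3, h, -⟩ := o.gap_decay H
  obtain ⟨δ, p4, -, h1⟩ := exists_small hε (o.k + 1 + 2 * o.k)
  have h2 := (tendsto_atTop_add_const_right _ (-R₁) tendsto_id).const_mul_atTop p1 |>.eventually
    (Brk64.ev_exp p4 (C * (D.F.μ.real univ * (2 / d))))
  have h3 : ∀ i, ∀ᶠ R in atTop,
      |∫ x in cw Y 0 R, kZ D (o.γ i) x ∂D.Z.μ - (o.γ i).kap D.B D.G| < δ := fun i =>
    Metric.tendsto_nhds.1 (AECover.integral_tendsto_of_countably_generated (φ := cw Y 0)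
      ⟨Eventually.of_forall fun x => (eventually_ge_atTop |x.2|).mono fun R h => ⟨trivial,
        by linarith [neg_abs_le x.2], by linarith [le_abs_self x.2]⟩,
        fun R => (cwin_cpt 0 R).measurableSet⟩ (o.int_kd H i)) δ p4
  filter_upwards [h2, eventually_all.2 h3, eventually_all.2 fun i => (o.m_spec H i).2,
    eventually_ge_atTop (R₁ + 1)] with R a1 a2 a3 a4
  filter_upwards [h, H.adm, eventually_all.2 fun i => Metric.tendsto_nhds.1 (a3 i) δ p4,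
    eventually_all.2 fun i => o.deep i (R + R), eventually_all.2 fun i => o.deep i (0 + (R + 1)),
    eventually_all.2 fun i => eventually_all.2 fun j => eventually_imp_distrib_left.2
      fun e : i < j => (o.sep e).eventually_gt_atTop (R + R)] with n b1 b2 b3 b4 b5 b6
  have c1 : ∀ x : Y × ℝ, x.2 ∈ A.J R n → ContinuousAt (kZ D (c n)) x := fun x hx =>
    (fsm_kd H.ok.B (win_op x.2 1) ((adm_cw b2 (A.anti (by linarith) n hx)).mono (win_cw _ _))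
      ⟨trivial, by linarith, by linarith⟩).continuousAt
  obtain ⟨c2, c3⟩ := A.int_split (μ := D.Z.μ) (g := kZ D (c n)) (t := o.t) (R := R) (n := n)
    measurable_snd (by linarith) p4.le (fun i j e => by linarith [b6 i j e]) b4
    (ContinuousOn.aestronglyMeasurable (fun x hx => (c1 x hx).continuousWithinAt)
      (measurable_snd (A.cl R n).measurableSet))
    (fun i => by rw [snd_pre]; exact (int_cw H.ok (adm_cw b2 (b5 i))).2) fun g => by
      refine (lint_dec (C := C * Real.exp (-d * (R - R₁))) p1 (by positivity) (A.gap_cl _ _ _ _)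
        (A.gap_oc _ _ _ _) fun a b hab e x hx => ?_).trans (ENNReal.ofReal_le_ofReal ?_)
      · have e1 : ∀ s ∈ Icc a b, s ∈ A.Gap o.t g (R₁ + (R - R₁)) n := fun s hs => by
          simpa using e hs
        refine (b1 g (a - (R - R₁)) (b + (R - R₁)) (by linarith) ((A.gap_oc _ _ _ _).out
          (A.gap_lip (e1 a ⟨le_rfl, hab⟩) (by rw [sub_sub_cancel_left, abs_neg, abs_of_nonneg
            (by linarith)])) (A.gap_lip (e1 b ⟨hab, le_rfl⟩) (by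
              rw [add_sub_cancel_left, abs_of_nonneg (by linarith)]))) x
          ⟨by linarith [hx.1], by linarith [hx.2]⟩).trans (le_of_eq ?_)
        rw [mul_assoc, ← Real.exp_add, ← mul_add, ← min_add_add_left]
        congr 4 <;> ring
      · simp only [id, ← sub_eq_add_neg, ← neg_mul] at a1
        linarith
  rw [snd_pre] at c2
  refine ⟨c2, ?_⟩
  have c4 : |∑ i, eI D.Z.μ Prod.snd (kZ D (c n)) (Icc (o.t i n - R) (o.t i n + R)) - o.lev| ≤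
      o.k * (2 * δ) := by
    rw [lev, ← Finset.sum_sub_distrib]
    refine (Finset.abs_sum_le_sum_abs _ _).trans ((Finset.sum_le_card_nsmul _ _ (2 * δ)
      fun i _ => ?_).trans (by simp))
    have := (ek_int_sh (cwin_cpt _ _).measurableSet (adm_cw (L := R) b2
      (A.anti (by linarith) n (b5 i))) (o.t i n)).2
    rw [cw_tr (zero_add _).symm] at this
    have d1 := abs_lt.1 (a2 i)
    have d2 := abs_lt.1 (b3 i)
    rw [eI, snd_pre, ← this, abs_le]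
    constructor <;> linarith
  rw [eI, snd_pre] at c3
  linarith [abs_sub_le (∫ x in univ ×ˢ A.J R n, kZ D (c n) x ∂D.Z.μ)
    (∑ i, eI D.Z.μ Prod.snd (kZ D (c n)) (Icc (o.t i n - R) (o.t i n + R))) o.lev]

end NO

end Crest.Agent.X212.Nck90
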