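import Crest.Agent.X212.Ins26.On
import Crest.Agent.X212.Add46.Bg

/-!
# Row 212, LIX-NUM (helper90): the twin job on the flipped line
-/

set_option autoImplicit false
set_option linter.unusedSectionVars false
noncomputable section
open scoped Manifold ContDiff Topology
open Set Function Filter

namespace Crest.Agent.X212.Nck90
open An M G75 Ink3

variable {κ lam : Type} [Fintype κ] [Fintype lam] [DecidableEq lam] {Lm : LM κ lam} {S : Scene Lm}
  {D : S.Dat} {i : S.L} {Wi Wi' A' A'' h h' : Type} [Fintype A'] [DecidableEq A'] [Fintype h]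
  [Fintype A''] [DecidableEq A''] [Fintype h'] {r n r' n' : ℕ}

/-- two jobs on the two lines of the flip with the same cross-section of `l` -/
structure Twin (l : S.ls) (J : Job Wi (D.Λ i) A' h r n)
    (J' : Job Wi' (D.Λ (S.fl l i)) A'' h' r' n') : Prop where
  m : J'.m = J.m
  xs : Add46.jX J' l = Add46.jX J l
  g : HEq (J'.g l) (J.g l)

variable (hS : S.OK) (l : S.ls) {J : Job Wi (D.Λ i) A' h r n} (hJ : J.OK)

/-- the cross-section of `l` -/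
def tw1 : XG1 Wi (S.N (S.fl l i)) l :=
  ⟨J.xs l, J.g l, hJ.xs l, fun k => (Ins26.On.cy_fl hS l i).symm ▸ hJ.iso l k⟩

/-- the cross-sections of the twin -/
def twG : XG Wi (S.N (S.fl l i)) := (xg0 Wi _).upd l (tw1 hS l hJ)

/-- the twin -/
@[reducible] def twJ : Job Wi (D.Λ (S.fl l i)) A' h r n :=
  ⟨J.m, ∅, J.hd, J.Θ, J.k, J.tw, J.co, J.ct, J.nb, J.tc, J.cc,
    (twG hS l hJ).xs, (twG hS l hJ).g, J.ν, (twG hS l hJ).K _ J.m⟩

theorem twJ_ok : (twJ hS l hJ).OK :=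
  ⟨fun _ k => k.elim, fun _ k => k.elim, hJ.inj, hJ.sm, fun _ k => k.elim, fun _ k => k.elim,
    hJ.lin, hJ.mem, fun w => let ⟨V, k, _⟩ := hJ.tw w; ⟨V, k, 0, one_pos, fun _ k => k.elim⟩, hJ.co,
    hJ.nb, hJ.dj, fun _ k => k.elim,
    fun j w => let ⟨V, k, _⟩ := hJ.tc j w; ⟨V, k, 0, one_pos, fun _ k => k.elim⟩, hJ.cc,
    (twG hS l hJ).ok, (twG hS l hJ).iso, hJ.ν, hJ.ν0, (twG hS l hJ).isNk _ _⟩

theorem twG_at : (twG hS l hJ).at l = tw1 hS l hJ := XG.upd_self _ _ _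

theorem twJ_xs : (twJ hS l hJ).xs l = J.xs l := congrArg XG1.xs (twG_at hS l hJ)

theorem twJ_g : HEq ((twJ hS l hJ).g l) (J.g l) := by
  have k : ∀ T T' : XG1 Wi (S.N (S.fl l i)) l, T = T' → HEq T.g T'.g := by
    rintro _ _ rfl; rfl
  exact k _ _ (twG_at hS l hJ)

theorem twJ_twin : Twin l J (twJ hS l hJ) :=
  ⟨rfl, congrArg (fun X : Xs Wi κ lam => (⟨X.Y, X.D, X.N⟩ : Nd18.XD κ (lam ⊕ lam)))
    (twJ_xs hS l hJ), twJ_g hS l hJ⟩

include hS hJ in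
/-- **the twin exists** -/
theorem twin_ex : ∃ J' : Job Wi (D.Λ (S.fl l i)) A' h r n, J'.OK ∧ Twin l J J' ∧ J'.Θ = J.Θ ∧
    J'.ν = J.ν ∧ J'.xs l = J.xs l :=
  ⟨twJ hS l hJ, twJ_ok hS l hJ, twJ_twin hS l hJ, rfl, rfl, twJ_xs hS l hJ⟩

end Crest.Agent.X212.Nck90
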